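import Mathlib.Tactic.Ring
import Mathlib.Tactic.LinearCombination
import Mathlib.Data.Fin.VecNotation

/-!
Polynomials attached to the family of numerical Godeaux surfaces with an involution.
-/

namespace Vale.Agent.P297.H424.Fam

set_option linter.unusedVariables false

variable {R : Type*} [CommRing R]

/-- `ε(x)` -/
def eps (D x0 x1 : R) : R := x0 ^ 2 - (D ^ 2 + D + 2) * x0 * x1 + (D + 1) * x1 ^ 2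

/-- coefficient of `y^2 z^1` in the coefficient 0 of the resultant -/
def fx02 (D a b c d x0 x1 : R) : R :=
    -6 * D * d * x0 * x1 ^ 2 + 6 * D * d * x0 ^ 2 * x1 - 2 * D * d * x0 ^ 3 + 2 * D * d * x1 ^ 3
    - 6 * D ^ 2 * d * x0 * x1 ^ 2 + 6 * D ^ 2 * d * x0 ^ 2 * x1 - 2 * D ^ 2 * d * x0 ^ 3 + 2 * D
    ^ 2 * d * x1 ^ 3 + 2 * D ^ 3 * d * x0 ^ 2 * x1 - 2 * D ^ 3 * d * x1 ^ 3 + 2 * D ^ 4 * d * x0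
    * x1 ^ 2 + 2 * D ^ 4 * d * x0 ^ 2 * x1 - 2 * D ^ 4 * d * x1 ^ 3 + 2 * D ^ 5 * d * x0 * x1 ^
    2

/-- coefficient of `y^1 z^2` in the coefficient 0 of the resultant -/
def fx01 (D a b c d x0 x1 : R) : R :=
    -4 * D * a * x0 * x1 ^ 2 + 2 * D * a * x0 ^ 2 * x1 + 2 * D * a * x1 ^ 3 + 8 * D * b * x0 *
    x1 ^ 2 - 7 * D * b * x0 ^ 2 * x1 + 2 * D * b * x0 ^ 3 - 3 * D * b * x1 ^ 3 + 4 * D * c * x0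
    * x1 ^ 2 - 2 * D * c * x0 ^ 2 * x1 - 2 * D * c * x1 ^ 3 - 11 * D * d * x0 * x1 ^ 2 + 10 * D
    * d * x0 ^ 2 * x1 - 3 * D * d * x0 ^ 3 + 4 * D * d * x1 ^ 3 - D ^ 2 * a * x0 * x1 ^ 2 + 2 *
    D ^ 2 * a * x0 ^ 2 * x1 - D ^ 2 * a * x1 ^ 3 + 8 * D ^ 2 * b * x0 * x1 ^ 2 - 7 * D ^ 2 * b *
    x0 ^ 2 * x1 + D ^ 2 * b * x0 ^ 3 - 2 * D ^ 2 * b * x1 ^ 3 + 7 * D ^ 2 * c * x0 * x1 ^ 2 - 5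
    * D ^ 2 * c * x0 ^ 2 * x1 - 2 * D ^ 2 * c * x1 ^ 3 - 16 * D ^ 2 * d * x0 * x1 ^ 2 + 11 * D ^
    2 * d * x0 ^ 2 * x1 - D ^ 2 * d * x0 ^ 3 + 6 * D ^ 2 * d * x1 ^ 3 + 2 * D ^ 3 * a * x0 * x1
    ^ 2 - D ^ 3 * a * x1 ^ 3 + 2 * D ^ 3 * b * x0 * x1 ^ 2 - 5 * D ^ 3 * b * x0 ^ 2 * x1 + 2 * D
    ^ 3 * b * x1 ^ 3 + D ^ 3 * c * x0 * x1 ^ 2 - 4 * D ^ 3 * c * x0 ^ 2 * x1 + 2 * D ^ 3 * c *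
    x1 ^ 3 - 12 * D ^ 3 * d * x0 * x1 ^ 2 + 6 * D ^ 3 * d * x0 ^ 2 * x1 + 3 * D ^ 3 * d * x0 ^ 3
    + 4 * D ^ 3 * d * x1 ^ 3 - D ^ 4 * a * x0 * x1 ^ 2 + D ^ 4 * a * x1 ^ 3 - 3 * D ^ 4 * b * x0
    * x1 ^ 2 - 2 * D ^ 4 * b * x0 ^ 2 * x1 + 3 * D ^ 4 * b * x1 ^ 3 - 3 * D ^ 4 * c * x0 * x1 ^
    2 - D ^ 4 * c * x0 ^ 2 * x1 + 2 * D ^ 4 * c * x1 ^ 3 - 5 * D ^ 4 * d * x0 * x1 ^ 2 + 3 * D ^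
    4 * d * x0 ^ 2 * x1 + 2 * D ^ 4 * d * x0 ^ 3 + D ^ 4 * d * x1 ^ 3 - D ^ 5 * a * x1 ^ 3 - 2 *
    D ^ 5 * b * x0 * x1 ^ 2 + D ^ 5 * b * x1 ^ 3 - D ^ 5 * c * x0 * x1 ^ 2 - D ^ 5 * d * x0 * x1
    ^ 2 - D ^ 6 * d * x0 ^ 2 * x1 + 3 * b * x0 * x1 ^ 2 - 3 * b * x0 ^ 2 * x1 + b * x0 ^ 3 - b *
    x1 ^ 3 - 3 * d * x0 * x1 ^ 2 + 3 * d * x0 ^ 2 * x1 - d * x0 ^ 3 + d * x1 ^ 3

/-- coefficient of `y^0 z^3` in the coefficient 0 of the resultant -/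
def fx00 (D a b c d x0 x1 : R) : R :=
    -6 * D * a * x0 * x1 ^ 2 + 6 * D * a * x0 ^ 2 * x1 - 2 * D * a * x0 ^ 3 + 2 * D * a * x1 ^ 3
    + 12 * D * c * x0 * x1 ^ 2 - 12 * D * c * x0 ^ 2 * x1 + 4 * D * c * x0 ^ 3 - 4 * D * c * x1
    ^ 3 - D ^ 2 * a * x0 * x1 ^ 2 + 2 * D ^ 2 * a * x0 ^ 2 * x1 - D ^ 2 * a * x0 ^ 3 - D ^ 2 * b
    * x0 * x1 ^ 2 + D ^ 2 * b * x0 ^ 2 * x1 + 18 * D ^ 2 * c * x0 * x1 ^ 2 - 18 * D ^ 2 * c * x0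
    ^ 2 * x1 + 6 * D ^ 2 * c * x0 ^ 3 - 6 * D ^ 2 * c * x1 ^ 3 + D ^ 2 * d * x0 ^ 2 * x1 - D ^ 2
    * d * x0 ^ 3 + 4 * D ^ 3 * a * x0 * x1 ^ 2 - 2 * D ^ 3 * a * x0 ^ 2 * x1 - 2 * D ^ 3 * a *
    x1 ^ 3 - 4 * D ^ 3 * b * x0 * x1 ^ 2 + 4 * D ^ 3 * b * x0 ^ 2 * x1 + 12 * D ^ 3 * c * x0 *
    x1 ^ 2 - 12 * D ^ 3 * c * x0 ^ 2 * x1 + 4 * D ^ 3 * c * x0 ^ 3 - 4 * D ^ 3 * c * x1 ^ 3 + 4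
    * D ^ 3 * d * x0 ^ 2 * x1 - 4 * D ^ 3 * d * x0 ^ 3 + 3 * D ^ 4 * a * x0 * x1 ^ 2 - D ^ 4 * a
    * x0 ^ 2 * x1 - D ^ 4 * a * x1 ^ 3 - 6 * D ^ 4 * b * x0 * x1 ^ 2 + 6 * D ^ 4 * b * x0 ^ 2 *
    x1 + 3 * D ^ 4 * c * x0 * x1 ^ 2 - 3 * D ^ 4 * c * x0 ^ 2 * x1 + D ^ 4 * c * x0 ^ 3 - D ^ 4
    * c * x1 ^ 3 + 6 * D ^ 4 * d * x0 ^ 2 * x1 - 6 * D ^ 4 * d * x0 ^ 3 + 2 * D ^ 5 * a * x0 *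
    x1 ^ 2 - 4 * D ^ 5 * b * x0 * x1 ^ 2 + 4 * D ^ 5 * b * x0 ^ 2 * x1 + 4 * D ^ 5 * d * x0 ^ 2
    * x1 - 4 * D ^ 5 * d * x0 ^ 3 + D ^ 6 * a * x0 * x1 ^ 2 - D ^ 6 * b * x0 * x1 ^ 2 + D ^ 6 *
    b * x0 ^ 2 * x1 + D ^ 6 * d * x0 ^ 2 * x1 - D ^ 6 * d * x0 ^ 3 - 3 * a * x0 * x1 ^ 2 + 3 * a
    * x0 ^ 2 * x1 - a * x0 ^ 3 + a * x1 ^ 3 + 3 * c * x0 * x1 ^ 2 - 3 * c * x0 ^ 2 * x1 + c * x0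
    ^ 3 - c * x1 ^ 3

/-- the coefficient 0 of the resultant -/
def fx0 (D a b c d x0 x1 y z : R) : R :=
    fx02 D a b c d x0 x1 * (y ^ 2 * z) +
    fx01 D a b c d x0 x1 * (y * z ^ 2) +
    fx00 D a b c d x0 x1 * z ^ 3

/-- coefficient of `y^3 z^0` in the coefficient 1 of the resultant -/
def fx13 (D a b c d x0 x1 : R) : R :=
    6 * D * d * x0 * x1 ^ 2 - 6 * D * d * x0 ^ 2 * x1 + 2 * D * d * x0 ^ 3 - 2 * D * d * x1 ^ 3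
    + 8 * D ^ 2 * d * x0 * x1 ^ 2 - 4 * D ^ 2 * d * x0 ^ 2 * x1 - 4 * D ^ 2 * d * x1 ^ 3 + 4 * D
    ^ 3 * d * x0 * x1 ^ 2 - 2 * D ^ 3 * d * x0 ^ 2 * x1 - 2 * D ^ 3 * d * x1 ^ 3 + 2 * D ^ 4 * d
    * x0 * x1 ^ 2

/-- coefficient of `y^2 z^1` in the coefficient 1 of the resultant -/
def fx12 (D a b c d x0 x1 : R) : R :=
    4 * D * a * x0 * x1 ^ 2 - 2 * D * a * x0 ^ 2 * x1 - 2 * D * a * x1 ^ 3 - 4 * D * b * x0 * x1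
    ^ 2 + 2 * D * b * x0 ^ 2 * x1 + 2 * D * b * x1 ^ 3 - 4 * D * c * x0 * x1 ^ 2 + 2 * D * c *
    x0 ^ 2 * x1 + 2 * D * c * x1 ^ 3 - 2 * D * d * x0 * x1 ^ 2 + 4 * D * d * x0 ^ 2 * x1 - 2 * D
    * d * x0 ^ 3 - 10 * D ^ 2 * b * x0 * x1 ^ 2 + 4 * D ^ 2 * b * x0 ^ 2 * x1 + 6 * D ^ 2 * b *
    x1 ^ 3 - 8 * D ^ 2 * c * x0 * x1 ^ 2 + 4 * D ^ 2 * c * x0 ^ 2 * x1 + 4 * D ^ 2 * c * x1 ^ 3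
    + 2 * D ^ 2 * d * x0 * x1 ^ 2 - 6 * D ^ 2 * d * x0 ^ 2 * x1 + 4 * D ^ 2 * d * x0 ^ 3 - 8 * D
    ^ 3 * b * x0 * x1 ^ 2 + 2 * D ^ 3 * b * x0 ^ 2 * x1 + 6 * D ^ 3 * b * x1 ^ 3 - 4 * D ^ 3 * c
    * x0 * x1 ^ 2 + 2 * D ^ 3 * c * x0 ^ 2 * x1 + 2 * D ^ 3 * c * x1 ^ 3 + 2 * D ^ 3 * d * x0 *
    x1 ^ 2 - 2 * D ^ 3 * d * x0 ^ 3 - 2 * D ^ 4 * a * x1 ^ 3 - 2 * D ^ 4 * b * x0 * x1 ^ 2 + 2 *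
    D ^ 4 * b * x1 ^ 3 - 2 * D ^ 4 * d * x0 * x1 ^ 2 - 6 * D ^ 4 * d * x0 ^ 2 * x1

/-- coefficient of `y^1 z^2` in the coefficient 1 of the resultant -/
def fx11 (D a b c d x0 x1 : R) : R :=
    -4 * D * a * x0 * x1 ^ 2 + 2 * D * a * x0 ^ 2 * x1 + 2 * D * a * x1 ^ 3 - 2 * D * b * x0 *
    x1 ^ 2 + 4 * D * b * x0 ^ 2 * x1 - 2 * D * b * x0 ^ 3 - 2 * D * c * x0 * x1 ^ 2 + 4 * D * c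
    * x0 ^ 2 * x1 - 2 * D * c * x0 ^ 3 + 2 * D * d * x0 * x1 ^ 2 - 4 * D * d * x0 ^ 2 * x1 + 2 *
    D * d * x0 ^ 3 + 6 * D ^ 2 * a * x0 * x1 ^ 2 - 4 * D ^ 2 * a * x0 ^ 2 * x1 - 2 * D ^ 2 * a *
    x1 ^ 3 - 8 * D ^ 2 * b * x0 * x1 ^ 2 + 12 * D ^ 2 * b * x0 ^ 2 * x1 - 4 * D ^ 2 * b * x0 ^ 3
    - 6 * D ^ 2 * c * x0 * x1 ^ 2 + 10 * D ^ 2 * c * x0 ^ 2 * x1 - 4 * D ^ 2 * c * x0 ^ 3 + 6 *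
    D ^ 2 * d * x0 * x1 ^ 2 - 8 * D ^ 2 * d * x0 ^ 2 * x1 + 2 * D ^ 2 * d * x0 ^ 3 + 2 * D ^ 3 *
    a * x0 ^ 2 * x1 - 2 * D ^ 3 * a * x1 ^ 3 - 12 * D ^ 3 * b * x0 * x1 ^ 2 + 12 * D ^ 3 * b *
    x0 ^ 2 * x1 - 2 * D ^ 3 * b * x0 ^ 3 - 6 * D ^ 3 * c * x0 * x1 ^ 2 + 8 * D ^ 3 * c * x0 ^ 2
    * x1 - 2 * D ^ 3 * c * x0 ^ 3 + 6 * D ^ 3 * d * x0 * x1 ^ 2 - 4 * D ^ 3 * d * x0 ^ 2 * x1 +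
    6 * D ^ 4 * a * x0 * x1 ^ 2 + 2 * D ^ 4 * a * x1 ^ 3 - 8 * D ^ 4 * b * x0 * x1 ^ 2 + 4 * D ^
    4 * b * x0 ^ 2 * x1 - 2 * D ^ 4 * c * x0 * x1 ^ 2 + 2 * D ^ 4 * c * x0 ^ 2 * x1 + 2 * D ^ 4
    * d * x0 * x1 ^ 2 + 2 * D ^ 4 * d * x0 ^ 3 - 2 * D ^ 5 * b * x0 * x1 ^ 2 + 2 * D ^ 5 * d *
    x0 ^ 3

/-- coefficient of `y^0 z^3` in the coefficient 1 of the resultant -/
def fx10 (D a b c d x0 x1 : R) : R :=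
    6 * D * a * x0 * x1 ^ 2 - 6 * D * a * x0 ^ 2 * x1 + 2 * D * a * x0 ^ 3 - 2 * D * a * x1 ^ 3
    + 16 * D ^ 2 * a * x0 * x1 ^ 2 - 14 * D ^ 2 * a * x0 ^ 2 * x1 + 4 * D ^ 2 * a * x0 ^ 3 - 6 *
    D ^ 2 * a * x1 ^ 3 + 16 * D ^ 3 * a * x0 * x1 ^ 2 - 12 * D ^ 3 * a * x0 ^ 2 * x1 + 2 * D ^ 3
    * a * x0 ^ 3 - 6 * D ^ 3 * a * x1 ^ 3 + 8 * D ^ 4 * a * x0 * x1 ^ 2 - 6 * D ^ 4 * a * x0 ^ 2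
    * x1 - 2 * D ^ 4 * a * x1 ^ 3 + 2 * D ^ 5 * a * x0 * x1 ^ 2 - 2 * D ^ 5 * a * x0 ^ 2 * x1

/-- the coefficient 1 of the resultant -/
def fx1 (D a b c d x0 x1 y z : R) : R :=
    fx13 D a b c d x0 x1 * y ^ 3 +
    fx12 D a b c d x0 x1 * (y ^ 2 * z) +
    fx11 D a b c d x0 x1 * (y * z ^ 2) +
    fx10 D a b c d x0 x1 * z ^ 3

/-- coefficient of `y^3 z^0` in the coefficient 2 of the resultant -/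
def fx23 (D a b c d x0 x1 : R) : R :=
    -6 * D * b * x0 * x1 ^ 2 + 3 * D * b * x0 ^ 2 * x1 + 3 * D * b * x1 ^ 3 + 3 * D * d * x0 *
    x1 ^ 2 - D * d * x0 ^ 3 - 2 * D * d * x1 ^ 3 + D ^ 2 * a * x0 * x1 ^ 2 - D ^ 2 * a * x1 ^ 3
    - 3 * D ^ 2 * b * x0 * x1 ^ 2 + 3 * D ^ 2 * b * x1 ^ 3 + D ^ 2 * c * x0 * x1 ^ 2 - D ^ 2 * c
    * x0 ^ 2 * x1 - D ^ 2 * d * x0 * x1 ^ 2 + 2 * D ^ 2 * d * x0 ^ 2 * x1 - D ^ 2 * d * x1 ^ 3 -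
    D ^ 3 * a * x1 ^ 3 + D ^ 3 * b * x1 ^ 3 + D ^ 3 * c * x0 * x1 ^ 2 - D ^ 3 * d * x0 * x1 ^ 2
    + D ^ 4 * d * x0 ^ 2 * x1 - 3 * b * x0 * x1 ^ 2 + 3 * b * x0 ^ 2 * x1 - b * x0 ^ 3 + b * x1
    ^ 3 + 3 * d * x0 * x1 ^ 2 - 3 * d * x0 ^ 2 * x1 + d * x0 ^ 3 - d * x1 ^ 3

/-- coefficient of `y^2 z^1` in the coefficient 2 of the resultant -/
def fx22 (D a b c d x0 x1 : R) : R :=
    4 * D * a * x0 * x1 ^ 2 - 2 * D * a * x0 ^ 2 * x1 - 2 * D * a * x1 ^ 3 - 2 * D * b * x0 * x1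
    ^ 2 + 4 * D * b * x0 ^ 2 * x1 - 2 * D * b * x0 ^ 3 - 4 * D * c * x0 * x1 ^ 2 + 2 * D * c *
    x0 ^ 2 * x1 + 2 * D * c * x1 ^ 3 + 2 * D * d * x0 * x1 ^ 2 - 4 * D * d * x0 ^ 2 * x1 + 2 * D
    * d * x0 ^ 3 - D ^ 2 * a * x0 ^ 2 * x1 + D ^ 2 * a * x1 ^ 3 - 5 * D ^ 2 * b * x0 * x1 ^ 2 +
    3 * D ^ 2 * b * x0 ^ 2 * x1 + 2 * D ^ 2 * b * x0 ^ 3 - 3 * D ^ 2 * c * x0 * x1 ^ 2 + D ^ 2 *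
    c * x0 ^ 2 * x1 + D ^ 2 * c * x0 ^ 3 + D ^ 2 * c * x1 ^ 3 + 4 * D ^ 2 * d * x0 * x1 ^ 2 - D
    ^ 2 * d * x0 ^ 2 * x1 - 3 * D ^ 2 * d * x0 ^ 3 + 2 * D ^ 3 * a * x0 * x1 ^ 2 + 2 * D ^ 3 * a
    * x1 ^ 3 - 4 * D ^ 3 * b * x0 * x1 ^ 2 - 2 * D ^ 3 * b * x0 ^ 2 * x1 - 2 * D ^ 3 * c * x0 *
    x1 ^ 2 - 2 * D ^ 3 * c * x0 ^ 2 * x1 + 2 * D ^ 3 * d * x0 * x1 ^ 2 + 2 * D ^ 3 * d * x0 ^ 2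
    * x1 + 2 * D ^ 3 * d * x0 ^ 3 - D ^ 4 * a * x0 * x1 ^ 2 - D ^ 4 * b * x0 * x1 ^ 2 - D ^ 4 *
    b * x0 ^ 2 * x1 - D ^ 4 * d * x0 ^ 2 * x1 - D ^ 4 * d * x0 ^ 3 + 3 * a * x0 * x1 ^ 2 - 3 * a
    * x0 ^ 2 * x1 + a * x0 ^ 3 - a * x1 ^ 3 - 3 * c * x0 * x1 ^ 2 + 3 * c * x0 ^ 2 * x1 - c * x0
    ^ 3 + c * x1 ^ 3

/-- coefficient of `y^1 z^2` in the coefficient 2 of the resultant -/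
def fx21 (D a b c d x0 x1 : R) : R :=
    6 * D * a * x0 * x1 ^ 2 - 6 * D * a * x0 ^ 2 * x1 + 2 * D * a * x0 ^ 3 - 2 * D * a * x1 ^ 3
    + 6 * D ^ 2 * a * x0 * x1 ^ 2 - 2 * D ^ 2 * a * x0 ^ 3 - 4 * D ^ 2 * a * x1 ^ 3 + 2 * D ^ 3
    * a * x0 * x1 ^ 2 - 2 * D ^ 3 * a * x1 ^ 3 + 2 * D ^ 4 * a * x0 * x1 ^ 2 + 2 * D ^ 4 * a *
    x0 ^ 2 * x1

/-- the coefficient 2 of the resultant -/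
def fx2 (D a b c d x0 x1 y z : R) : R :=
    fx23 D a b c d x0 x1 * y ^ 3 +
    fx22 D a b c d x0 x1 * (y ^ 2 * z) +
    fx21 D a b c d x0 x1 * (y * z ^ 2)

/-- a coefficient of `β` -/
def b00 (D a b c d : R) : R :=
    4 * D ^ 2 * (D + 1) ^ 4 * a ^ 2

/-- a coefficient of `β` -/
def b01 (D a b c d : R) : R :=
    -8 * D * (D - 1) * (D + 1) ^ 2 * a ^ 2 - 8 * D ^ 2 * (D + 1) ^ 4 * a * b - 8 * D * (D + 1)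
    ^ 4 * a * c + 8 * D ^ 2 * (D + 1) ^ 4 * a * d

/-- a coefficient of `β` -/
def b02 (D a b c d : R) : R :=
    4 * (D + 1) ^ 2 * a ^ 2 + 16 * D * (D - 1) * (D + 1) ^ 2 * a * b - 8 * (D + 1) ^ 3 * a * c
    + 8 * D * (D + 1) ^ 2 * (D ^ 3 + D ^ 2 - 2 * D + 2) * a * d + 4 * D ^ 2 * (D + 1) ^ 4 * b ^
    2 + 8 * D * (D + 1) ^ 4 * b * c - 8 * D ^ 2 * (D + 1) ^ 4 * b * d + 4 * (D + 1) ^ 4 * c ^ 2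
    - 8 * D * (D + 1) ^ 4 * c * d + 4 * D ^ 2 * (D + 1) ^ 4 * d ^ 2

/-- a coefficient of `β` -/
def b03 (D a b c d : R) : R :=
    -8 * (D + 1) ^ 2 * a * b - 8 * (D + 1) * (2 * D ^ 3 - 2 * D ^ 2 - D - 1) * a * d - 8 * D *
    (D - 1) * (D + 1) ^ 2 * b ^ 2 + 8 * (D + 1) ^ 3 * b * c - 8 * D * (D + 1) ^ 2 * (D ^ 3 + D
    ^ 2 - 2 * D + 2) * b * d - 8 * (D - 1) * (D + 1) ^ 2 * (D ^ 2 - 2 * D - 1) * c * d - 8 * D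
    * (D - 1) * (D + 1) ^ 2 * (D ^ 2 + 1) * d ^ 2

/-- a coefficient of `β` -/
def b04 (D a b c d : R) : R :=
    8 * D * (D + 1) * a * d + 4 * (D + 1) ^ 2 * b ^ 2 + 8 * (D + 1) * (2 * D ^ 3 - 2 * D ^ 2 -
    D - 1) * b * d - 8 * D * (D + 1) ^ 2 * c * d + 4 * (D ^ 6 + 2 * D ^ 5 + 5 * D ^ 4 - 8 * D ^
    3 + 5 * D ^ 2 + 2 * D + 1) * d ^ 2

/-- a coefficient of `β` -/
def b05 (D a b c d : R) : R :=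
    -8 * D * (D + 1) * b * d - 8 * D * (D - 1) * (D ^ 2 + 1) * d ^ 2

/-- a coefficient of `β` -/
def b06 (D a b c d : R) : R :=
    4 * D ^ 2 * d ^ 2

/-- a coefficient of `β` -/
def b10 (D a b c d : R) : R :=
    -8 * D ^ 2 * (D + 1) ^ 4 * a ^ 2

/-- a coefficient of `β` -/
def b11 (D a b c d : R) : R :=
    -8 * D * (D + 1) ^ 2 * (D ^ 3 + D ^ 2 - 2 * D + 2) * a ^ 2 + 8 * D ^ 2 * (D + 1) ^ 4 * a *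
    b + 16 * D * (D + 1) ^ 4 * a * c - 8 * D ^ 2 * (D + 1) ^ 4 * a * d

/-- a coefficient of `β` -/
def b12 (D a b c d : R) : R :=
    8 * (D + 1) * (2 * D ^ 3 - 2 * D ^ 2 - D - 1) * a ^ 2 + 8 * D * (D + 1) ^ 2 * (D ^ 3 + 2 *
    D ^ 2 + 3) * a * b + 16 * (D + 1) ^ 3 * (D ^ 2 + 1) * a * c + 8 * D * (D + 1) ^ 2 * (2 * D
    ^ 3 - 3 * D ^ 2 - 3) * a * d - 8 * D * (D + 1) ^ 4 * b * c - 8 * (D + 1) ^ 4 * c ^ 2 + 8 *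
    D * (D + 1) ^ 4 * c * d

/-- a coefficient of `β` -/
def b13 (D a b c d : R) : R :=
    -8 * D * (D + 1) * a ^ 2 - 8 * (D + 1) * (2 * D ^ 3 - 3 * D ^ 2 - 3 * D - 2) * a * b + 16 *
    D * (D + 1) ^ 2 * a * c - 8 * (D ^ 6 + 3 * D ^ 5 + 12 * D ^ 4 + 4 * D ^ 3 + 13 * D ^ 2 + 5
    * D + 2) * a * d - 8 * D * (D + 1) ^ 4 * b ^ 2 - 8 * (D + 1) ^ 2 * (D ^ 3 + 6 * D ^ 2 + 3 *
    D + 2) * b * c + 16 * D * (D + 1) ^ 4 * b * d - 8 * D * (D + 1) ^ 3 * c ^ 2 - 8 * (D + 1) ^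
    2 * (2 * D ^ 3 - 3 * D ^ 2 - 3 * D - 2) * c * d - 8 * D * (D + 1) ^ 4 * d ^ 2

/-- a coefficient of `β` -/
def b14 (D a b c d : R) : R :=
    8 * D * (D + 1) * a * b + 8 * D * (2 * D ^ 3 - 3 * D ^ 2 - 3) * a * d - 8 * (D + 1) ^ 3 * b
    ^ 2 - 8 * D * (D + 1) ^ 2 * b * c + 16 * (D + 1) ^ 3 * (D ^ 2 + 1) * b * d + 8 * D * (D +
    1) * (D ^ 3 + 2 * D ^ 2 + 3) * c * d + 8 * (D + 1) ^ 2 * (2 * D ^ 3 - 2 * D ^ 2 - D - 1) *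
    d ^ 2

/-- a coefficient of `β` -/
def b15 (D a b c d : R) : R :=
    -8 * D ^ 2 * a * d + 16 * D * (D + 1) ^ 2 * b * d + 8 * D ^ 2 * (D + 1) * c * d - 8 * D *
    (D + 1) * (D ^ 3 + D ^ 2 - 2 * D + 2) * d ^ 2

/-- a coefficient of `β` -/
def b16 (D a b c d : R) : R :=
    -8 * D ^ 2 * (D + 1) * d ^ 2

/-- a coefficient of `β` -/
def b20 (D a b c d : R) : R :=
    4 * D ^ 2 * (D + 1) ^ 4 * a ^ 2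

/-- a coefficient of `β` -/
def b21 (D a b c d : R) : R :=
    -8 * D * (D - 1) * (D + 1) ^ 2 * (D ^ 2 + 1) * a ^ 2 - 8 * D * (D + 1) ^ 4 * a * c

/-- a coefficient of `β` -/
def b22 (D a b c d : R) : R :=
    4 * (D ^ 6 + 2 * D ^ 5 + 5 * D ^ 4 - 8 * D ^ 3 + 5 * D ^ 2 + 2 * D + 1) * a ^ 2 - 8 * D *
    (D + 1) ^ 4 * a * b + 8 * (D + 1) ^ 2 * (2 * D ^ 3 - 2 * D ^ 2 - D - 1) * a * c + 8 * D *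
    (D + 1) ^ 4 * a * d + 4 * (D + 1) ^ 4 * c ^ 2

/-- a coefficient of `β` -/
def b23 (D a b c d : R) : R :=
    -8 * D * (D - 1) * (D ^ 2 + 1) * a ^ 2 - 8 * (D - 1) * (D + 1) ^ 2 * (D ^ 2 - 2 * D - 1) *
    a * b - 8 * D * (D + 1) * (D ^ 3 + D ^ 2 - 2 * D + 2) * a * c - 8 * (D + 1) ^ 2 * (2 * D ^
    3 - 2 * D ^ 2 - D - 1) * a * d + 8 * (D + 1) ^ 4 * b * c - 8 * D * (D - 1) * (D + 1) ^ 2 *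
    c ^ 2 - 8 * (D + 1) ^ 4 * c * d

/-- a coefficient of `β` -/
def b24 (D a b c d : R) : R :=
    4 * D ^ 2 * a ^ 2 - 8 * D * (D + 1) ^ 2 * a * b - 8 * D ^ 2 * (D + 1) * a * c + 8 * D * (D
    + 1) * (D ^ 3 + D ^ 2 - 2 * D + 2) * a * d + 4 * (D + 1) ^ 4 * b ^ 2 + 8 * D * (D + 1) ^ 3
    * b * c - 8 * (D + 1) ^ 4 * b * d + 4 * D ^ 2 * (D + 1) ^ 2 * c ^ 2 + 16 * D * (D - 1) * (D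
    + 1) ^ 2 * c * d + 4 * (D + 1) ^ 4 * d ^ 2

/-- a coefficient of `β` -/
def b25 (D a b c d : R) : R :=
    8 * D ^ 2 * (D + 1) * a * d - 8 * D * (D + 1) ^ 3 * b * d - 8 * D ^ 2 * (D + 1) ^ 2 * c * d
    - 8 * D * (D - 1) * (D + 1) ^ 2 * d ^ 2

/-- a coefficient of `β` -/
def b26 (D a b c d : R) : R :=
    4 * D ^ 2 * (D + 1) ^ 2 * d ^ 2

/-- `β(x;y,z)` -/
def bx (D a b c d x0 x1 y z : R) : R :=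
    (b00 D a b c d * x0 ^ 2 + b10 D a b c d * (x0 * x1) + b20 D a b c d * x1 ^ 2) * z ^ 6 +
    (b01 D a b c d * x0 ^ 2 + b11 D a b c d * (x0 * x1) + b21 D a b c d * x1 ^ 2) * y ^ 1 * z ^ 5 +
    (b02 D a b c d * x0 ^ 2 + b12 D a b c d * (x0 * x1) + b22 D a b c d * x1 ^ 2) * y ^ 2 * z ^ 4 +
    (b03 D a b c d * x0 ^ 2 + b13 D a b c d * (x0 * x1) + b23 D a b c d * x1 ^ 2) * y ^ 3 * z ^ 3 +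
    (b04 D a b c d * x0 ^ 2 + b14 D a b c d * (x0 * x1) + b24 D a b c d * x1 ^ 2) * y ^ 4 * z ^ 2 +
    (b05 D a b c d * x0 ^ 2 + b15 D a b c d * (x0 * x1) + b25 D a b c d * x1 ^ 2) * y ^ 5 * z ^ 1 +
    (b06 D a b c d * x0 ^ 2 + b16 D a b c d * (x0 * x1) + b26 D a b c d * x1 ^ 2) * y ^ 6

/-- net, coefficient of `t²` in `q` -/
def n00 (D a b c d x0 x1 : R) : R := D ^ 2 * d * x1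

/-- net, coefficient of `t²` in `r` -/
def n01 (D a b c d x0 x1 : R) : R :=
  (b - (D + 1) ^ 2 * d) * x0 + ((D - 1) * (D + 1) * b + D ^ 2 * c + (D + 1) ^ 2 * d) * x1

/-- net, coefficient of `t²` in `s` -/
def n02 (D a b c d x0 x1 : R) : R :=
  ((D + 1) ^ 2 * c - a) * x0 - ((D - 1) * (D + 1) * a + (D + 1) ^ 2 * c) * x1

/-- net, coefficient of `t` in `q` -/
def n10 (D a b c d x0 x1 : R) : R := 2 * D * d * (x1 - x0)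

/-- net, coefficient of `t` in `r` -/
def n11 (D a b c d x0 x1 : R) : R := 2 * D * (((D + 1) * b + c) * x1 - (b + c) * x0)

/-- net, coefficient of `t` in `s` -/
def n12 (D a b c d x0 x1 : R) : R := 2 * D * a * (x0 - (D + 1) * x1)

/-- net, coefficient of `1` in `q` -/
def n20 (D a b c d x0 x1 : R) : R := (b + (D - 1) * d) * x0 + (d - (D + 1) * b) * x1

/-- net, coefficient of `1` in `r` -/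
def n21 (D a b c d x0 x1 : R) : R :=
  (a + D ^ 2 * b + (D - 1) * c) * x0 + (c - (D + 1) * a) * x1

/-- net, coefficient of `1` in `s` -/
def n22 (D a b c d x0 x1 : R) : R := -(D ^ 2 * a * x0)

/-- discriminant of the element of the net with coordinates `e` -/
def phi (D a b c d x0 x1 e0 e1 e2 : R) : R :=
  (n10 D a b c d x0 x1 * e0 + n11 D a b c d x0 x1 * e1 + n12 D a b c d x0 x1 * e2) ^ 2 -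
  4 * (n00 D a b c d x0 x1 * e0 + n01 D a b c d x0 x1 * e1 + n02 D a b c d x0 x1 * e2) *
    (n20 D a b c d x0 x1 * e0 + n21 D a b c d x0 x1 * e1 + n22 D a b c d x0 x1 * e2)

/-- `y'` -/
def yy (a b c d x0 x1 e0 e1 : R) : R := (d * x0 - b * x1) * e0 - (a * x1 - c * x0) * e1

/-- `z'` -/
def zz (a b c d x0 x1 e1 e2 : R) : R := -((d * x0 - b * x1) * e1 + (a * x1 - c * x0) * e2)

/-- the part of `S'₁` without `o` -/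
def sh1 (D x0 x1 y z : R) : R :=
  -(x0 - (D + 1) * x1) ^ 2 * y ^ 2 + 2 * D * x0 * ((D - 1) * x0 + (D + 1) ^ 2 * x1) * (y * z) -
    D ^ 2 * (D + 1) ^ 2 * x0 ^ 2 * z ^ 2

/-- the part of `S'₂` without `o` -/
def sh2 (D x0 x1 y z : R) : R :=
  -D ^ 2 * x1 ^ 2 * y ^ 2 + 2 * D * x1 * ((D + 1) * x0 + (D - 1) * x1) * (y * z) -
    (D + 1) ^ 2 * (x0 - x1) ^ 2 * z ^ 2

/-- the part of `Y'` without `o` -/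
def ya (D b d x0 x1 y z : R) : R :=
  -(D ^ 2 * d * x1) * y ^ 3 +
  ((b + (D ^ 2 - 1) * d) * x0 + ((D ^ 2 - 1) * b + (1 + 3 * D ^ 2) * d) * x1) * (y ^ 2 * z) -
  (((1 + 3 * D ^ 2) * b + (D - 1) * (D + 1) ^ 2 * d) * x0 +
    (D + 1) ^ 2 * ((D - 1) * b + d) * x1) * (y * z ^ 2) +
  D ^ 2 * (D + 1) ^ 2 * x0 * b * z ^ 3

end Vale.Agent.P297.H424.Fam
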