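import Vale.Agent.P297.H424.MainV
import Vale.Agent.P297.H424.Fam.Base

/-!
The data of the family of numerical Godeaux surfaces with an involution.
-/

namespace Vale.Agent.P297.H424.Fam

set_option linter.unusedVariables false
set_option linter.unusedSimpArgs false

section

variable {R S : Type*} [CommRing R] [CommRing S] (f : R →+* S)

theorem map_b00 (D a b c d : R) : f (b00 D a b c d) = b00 (f D) (f a) (f b) (f c) (f d) := by
  simp only [b00, map_add, map_sub, map_neg, map_mul, map_pow, map_one, map_zero, map_ofNat]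

theorem map_b01 (D a b c d : R) : f (b01 D a b c d) = b01 (f D) (f a) (f b) (f c) (f d) := by
  simp only [b01, map_add, map_sub, map_neg, map_mul, map_pow, map_one, map_zero, map_ofNat]

theorem map_b02 (D a b c d : R) : f (b02 D a b c d) = b02 (f D) (f a) (f b) (f c) (f d) := by
  simp only [b02, map_add, map_sub, map_neg, map_mul, map_pow, map_one, map_zero, map_ofNat]

theorem map_b03 (D a b c d : R) : f (b03 D a b c d) = b03 (f D) (f a) (f b) (f c) (f d) := by
  simp only [b03, map_add, map_sub, map_neg, map_mul, map_pow, map_one, map_zero, map_ofNat]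

theorem map_b04 (D a b c d : R) : f (b04 D a b c d) = b04 (f D) (f a) (f b) (f c) (f d) := by
  simp only [b04, map_add, map_sub, map_neg, map_mul, map_pow, map_one, map_zero, map_ofNat]

theorem map_b05 (D a b c d : R) : f (b05 D a b c d) = b05 (f D) (f a) (f b) (f c) (f d) := by
  simp only [b05, map_add, map_sub, map_neg, map_mul, map_pow, map_one, map_zero, map_ofNat]

theorem map_b06 (D a b c d : R) : f (b06 D a b c d) = b06 (f D) (f a) (f b) (f c) (f d) := by
  simp only [b06, map_add, map_sub, map_neg, map_mul, map_pow, map_one, map_zero, map_ofNat]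

theorem map_b10 (D a b c d : R) : f (b10 D a b c d) = b10 (f D) (f a) (f b) (f c) (f d) := by
  simp only [b10, map_add, map_sub, map_neg, map_mul, map_pow, map_one, map_zero, map_ofNat]

theorem map_b11 (D a b c d : R) : f (b11 D a b c d) = b11 (f D) (f a) (f b) (f c) (f d) := by
  simp only [b11, map_add, map_sub, map_neg, map_mul, map_pow, map_one, map_zero, map_ofNat]

theorem map_b12 (D a b c d : R) : f (b12 D a b c d) = b12 (f D) (f a) (f b) (f c) (f d) := by
  simp only [b12, map_add, map_sub, map_neg, map_mul, map_pow, map_one, map_zero, map_ofNat]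

theorem map_b13 (D a b c d : R) : f (b13 D a b c d) = b13 (f D) (f a) (f b) (f c) (f d) := by
  simp only [b13, map_add, map_sub, map_neg, map_mul, map_pow, map_one, map_zero, map_ofNat]

theorem map_b14 (D a b c d : R) : f (b14 D a b c d) = b14 (f D) (f a) (f b) (f c) (f d) := by
  simp only [b14, map_add, map_sub, map_neg, map_mul, map_pow, map_one, map_zero, map_ofNat]

theorem map_b15 (D a b c d : R) : f (b15 D a b c d) = b15 (f D) (f a) (f b) (f c) (f d) := by
  simp only [b15, map_add, map_sub, map_neg, map_mul, map_pow, map_one, map_zero, map_ofNat]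

theorem map_b16 (D a b c d : R) : f (b16 D a b c d) = b16 (f D) (f a) (f b) (f c) (f d) := by
  simp only [b16, map_add, map_sub, map_neg, map_mul, map_pow, map_one, map_zero, map_ofNat]

theorem map_b20 (D a b c d : R) : f (b20 D a b c d) = b20 (f D) (f a) (f b) (f c) (f d) := by
  simp only [b20, map_add, map_sub, map_neg, map_mul, map_pow, map_one, map_zero, map_ofNat]

theorem map_b21 (D a b c d : R) : f (b21 D a b c d) = b21 (f D) (f a) (f b) (f c) (f d) := by
  simp only [b21, map_add, map_sub, map_neg, map_mul, map_pow, map_one, map_zero, map_ofNat]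

theorem map_b22 (D a b c d : R) : f (b22 D a b c d) = b22 (f D) (f a) (f b) (f c) (f d) := by
  simp only [b22, map_add, map_sub, map_neg, map_mul, map_pow, map_one, map_zero, map_ofNat]

theorem map_b23 (D a b c d : R) : f (b23 D a b c d) = b23 (f D) (f a) (f b) (f c) (f d) := by
  simp only [b23, map_add, map_sub, map_neg, map_mul, map_pow, map_one, map_zero, map_ofNat]

theorem map_b24 (D a b c d : R) : f (b24 D a b c d) = b24 (f D) (f a) (f b) (f c) (f d) := by
  simp only [b24, map_add, map_sub, map_neg, map_mul, map_pow, map_one, map_zero, map_ofNat]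

theorem map_b25 (D a b c d : R) : f (b25 D a b c d) = b25 (f D) (f a) (f b) (f c) (f d) := by
  simp only [b25, map_add, map_sub, map_neg, map_mul, map_pow, map_one, map_zero, map_ofNat]

theorem map_b26 (D a b c d : R) : f (b26 D a b c d) = b26 (f D) (f a) (f b) (f c) (f d) := by
  simp only [b26, map_add, map_sub, map_neg, map_mul, map_pow, map_one, map_zero, map_ofNat]

theorem map_n00 (D a b c d x0 x1 : R) :
    f (n00 D a b c d x0 x1) = n00 (f D) (f a) (f b) (f c) (f d) (f x0) (f x1) := by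
  simp only [n00, map_add, map_sub, map_neg, map_mul, map_pow, map_one, map_zero, map_ofNat]

theorem map_n01 (D a b c d x0 x1 : R) :
    f (n01 D a b c d x0 x1) = n01 (f D) (f a) (f b) (f c) (f d) (f x0) (f x1) := by
  simp only [n01, map_add, map_sub, map_neg, map_mul, map_pow, map_one, map_zero, map_ofNat]

theorem map_n02 (D a b c d x0 x1 : R) :
    f (n02 D a b c d x0 x1) = n02 (f D) (f a) (f b) (f c) (f d) (f x0) (f x1) := by
  simp only [n02, map_add, map_sub, map_neg, map_mul, map_pow, map_one, map_zero, map_ofNat]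

theorem map_n10 (D a b c d x0 x1 : R) :
    f (n10 D a b c d x0 x1) = n10 (f D) (f a) (f b) (f c) (f d) (f x0) (f x1) := by
  simp only [n10, map_add, map_sub, map_neg, map_mul, map_pow, map_one, map_zero, map_ofNat]

theorem map_n11 (D a b c d x0 x1 : R) :
    f (n11 D a b c d x0 x1) = n11 (f D) (f a) (f b) (f c) (f d) (f x0) (f x1) := by
  simp only [n11, map_add, map_sub, map_neg, map_mul, map_pow, map_one, map_zero, map_ofNat]

theorem map_n12 (D a b c d x0 x1 : R) :
    f (n12 D a b c d x0 x1) = n12 (f D) (f a) (f b) (f c) (f d) (f x0) (f x1) := by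
  simp only [n12, map_add, map_sub, map_neg, map_mul, map_pow, map_one, map_zero, map_ofNat]

theorem map_n20 (D a b c d x0 x1 : R) :
    f (n20 D a b c d x0 x1) = n20 (f D) (f a) (f b) (f c) (f d) (f x0) (f x1) := by
  simp only [n20, map_add, map_sub, map_neg, map_mul, map_pow, map_one, map_zero, map_ofNat]

theorem map_n21 (D a b c d x0 x1 : R) :
    f (n21 D a b c d x0 x1) = n21 (f D) (f a) (f b) (f c) (f d) (f x0) (f x1) := by
  simp only [n21, map_add, map_sub, map_neg, map_mul, map_pow, map_one, map_zero, map_ofNat]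

theorem map_n22 (D a b c d x0 x1 : R) :
    f (n22 D a b c d x0 x1) = n22 (f D) (f a) (f b) (f c) (f d) (f x0) (f x1) := by
  simp only [n22, map_add, map_sub, map_neg, map_mul, map_pow, map_one, map_zero, map_ofNat]

/-- the coefficient of `uⁱ` of a quadratic form in `x = (a u + b, c u + d)` -/
def qf (a b c d k0 k1 k2 : R) : Fin 3 → R :=
  ![k0 * b ^ 2 + k1 * (b * d) + k2 * d ^ 2,
    2 * k0 * (a * b) + k1 * (a * d + b * c) + 2 * k2 * (c * d),
    k0 * a ^ 2 + k1 * (a * c) + k2 * c ^ 2]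

theorem map_qf (a b c d k0 k1 k2 : R) (i : Fin 3) : f (qf a b c d k0 k1 k2 i) =
    qf (f a) (f b) (f c) (f d) (f k0) (f k1) (f k2) i := by
  fin_cases i <;> simp [qf, map_ofNat]

theorem qf_sum (a b c d k0 k1 k2 u : R) : qf a b c d k0 k1 k2 0 + qf a b c d k0 k1 k2 1 * u +
    qf a b c d k0 k1 k2 2 * u ^ 2 =
    k0 * (a * u + b) ^ 2 + k1 * ((a * u + b) * (c * u + d)) + k2 * (c * u + d) ^ 2 := by
  simp only [qf, Matrix.cons_val_zero, Matrix.cons_val_one, Matrix.cons_val]
  ring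

end

/-- coefficients of `x₀²` in `β` -/
def bt0 {R : Type*} [CommRing R] (D a b c d : R) : Fin 7 → R :=
  ![b00 D a b c d, b01 D a b c d, b02 D a b c d, b03 D a b c d, b04 D a b c d, b05 D a b c d, b06 D a b c d]

/-- coefficients of `x₀ x₁` in `β` -/
def bt1 {R : Type*} [CommRing R] (D a b c d : R) : Fin 7 → R :=
  ![b10 D a b c d, b11 D a b c d, b12 D a b c d, b13 D a b c d, b14 D a b c d, b15 D a b c d, b16 D a b c d]

/-- coefficients of `x₁²` in `β` -/
def bt2 {R : Type*} [CommRing R] (D a b c d : R) : Fin 7 → R :=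
  ![b20 D a b c d, b21 D a b c d, b22 D a b c d, b23 D a b c d, b24 D a b c d, b25 D a b c d, b26 D a b c d]

/-- the coefficient of `uⁱ` of a linear form in `x = (a u + b, c u + d)` -/
def lf {R : Type*} [CommRing R] (a b c d k0 k1 : R) : Fin 3 → R :=
  ![k0 * b + k1 * d, k0 * a + k1 * c, 0]

/-- the table of `c` -/
def cT {R : Type*} [CommRing R] (D a b c d : R) (i : Fin 3) : Fin 4 → R :=
  ![qf a b c d (-(D ^ 2 * (D + 1) ^ 2)) 0 0 i + lf a b c d (D ^ 2 * (D + 1) ^ 2 * b) 0 i,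
    qf a b c d (2 * D * (D - 1)) (2 * D * (D + 1) ^ 2) 0 i +
      lf a b c d (-((1 + 3 * D ^ 2) * b + (D - 1) * (D + 1) ^ 2 * d))
        (-((D + 1) ^ 2 * ((D - 1) * b + d))) i,
    qf a b c d (-1) (2 * (D + 1)) (-(D + 1) ^ 2) i +
      lf a b c d (b + (D ^ 2 - 1) * d) ((D ^ 2 - 1) * b + (1 + 3 * D ^ 2) * d) i,
    lf a b c d 0 (-(D ^ 2 * d)) i]

/-- first part of the table of `a` -/
def aS1 {R : Type*} [CommRing R] (D a b c d : R) (i : Fin 3) : Fin 3 → R :=
  ![qf a b c d (-(D ^ 2 * (D + 1) ^ 2)) 0 0 i,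
    qf a b c d (2 * D * (D - 1)) (2 * D * (D + 1) ^ 2) 0 i,
    qf a b c d (-1) (2 * (D + 1)) (-(D + 1) ^ 2) i]

/-- second part of the table of `a` -/
def aS2 {R : Type*} [CommRing R] (D a b c d : R) (i : Fin 3) : Fin 3 → R :=
  ![qf a b c d (-(D + 1) ^ 2) (2 * (D + 1) ^ 2) (-(D + 1) ^ 2) i,
    qf a b c d 0 (2 * D * (D + 1)) (2 * D * (D - 1)) i,
    qf a b c d 0 0 (-D ^ 2) i]

/-- the table of `a` -/
def aT {R : Type*} [CommRing R] (D a b c d : R) : Fin 4 → Fin 3 → R :=
  ![fun j => aS2 D a b c d 0 j,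
    fun j => aS1 D a b c d 0 j + aS2 D a b c d 1 j,
    fun j => aS1 D a b c d 1 j + aS2 D a b c d 2 j,
    fun j => aS1 D a b c d 2 j]

/-- the table of `β` -/
def bT {R : Type*} [CommRing R] (D a b c d : R) (i : Fin 3) (j : Fin 7) : R :=
  qf a b c d (bt0 D a b c d j) (bt1 D a b c d j) (bt2 D a b c d j) i

/-- the net at `x` -/
def netM {R : Type*} [CommRing R] (D a b c d x0 x1 : R) : Matrix (Fin 3) (Fin 3) R :=
  ![![n00 D a b c d x0 x1, n01 D a b c d x0 x1, n02 D a b c d x0 x1],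
    ![n10 D a b c d x0 x1, n11 D a b c d x0 x1, n12 D a b c d x0 x1],
    ![n20 D a b c d x0 x1, n21 D a b c d x0 x1, n22 D a b c d x0 x1]]

/-- the scalar in `A₀`, `A₁` -/
noncomputable def kap (D a b c d : ℂ) : ℂ :=
  -(4 * D ^ 4 * (D + 1) ^ 2 * (a * d - b * c) ^ 4)⁻¹

/-- the data -/
noncomputable def dat (D a b c d : ℂ) : Data where
  M0 := netM D a b c d b d
  M1 := netM D a b c d a c
  c := cT D a b c d
  a := aT D a b c d
  e := qf a b c d 1 (-(D ^ 2 + D + 2)) (D + 1)
  A0 := ![kap D a b c d * ((D + 1) * d - b) ^ 2,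
    kap D a b c d * ((D + 1) ^ 2 * (d - b) ^ 2 + ((D + 1) * c - a) * ((D + 1) * d - b)),
    kap D a b c d * -((D + 1) ^ 2 * (c - a) * (d - b))]
  A1 := ![kap D a b c d * (((D + 1) * c - a) * ((D + 1) * d - b)),
    kap D a b c d * ((D + 1) ^ 2 * (c - a) * (d - b) + ((D + 1) * c - a) ^ 2),
    kap D a b c d * -((D + 1) ^ 2 * (c - a) ^ 2)]
  lam := 0
  b := bT D a b c d

section

variable (D a b c d : ℂ) {R : Type*} [CommRing R] [Algebra ℂ R]


/-- `c(u;y,z)` in terms of `x` -/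
def cx {R : Type*} [CommRing R] (D b d x0 x1 y z : R) : R :=
  -(D ^ 2 * d * x1) * y ^ 3 +
  ((b + (D ^ 2 - 1) * d) * x0 + ((D ^ 2 - 1) * b + (1 + 3 * D ^ 2) * d) * x1 -
    (x0 - (D + 1) * x1) ^ 2) * y ^ 2 * z +
  (-((1 + 3 * D ^ 2) * b + (D - 1) * (D + 1) ^ 2 * d) * x0 -
    (D + 1) ^ 2 * ((D - 1) * b + d) * x1 +
    2 * D * x0 * ((D - 1) * x0 + (D + 1) ^ 2 * x1)) * y * z ^ 2 +
  D ^ 2 * (D + 1) ^ 2 * x0 * (b - x0) * z ^ 3

theorem sum3 (g : Fin (2 + 1) → R) : ∑ j, g j = g 0 + g 1 + g 2 := Fin.sum_univ_three g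

theorem sum4 (g : Fin (3 + 1) → R) : ∑ j, g j = g 0 + g 1 + g 2 + g 3 := Fin.sum_univ_four g

theorem sum7 (g : Fin (6 + 1) → R) :
    ∑ j, g j = g 0 + g 1 + g 2 + g 3 + g 4 + g 5 + g 6 := Fin.sum_univ_seven g

theorem hv3_eq (k : Fin 3 → Fin 4 → ℂ) (u y z : R) : hv (d := 3) k u y z =
    (algebraMap ℂ R (k 0 0) + algebraMap ℂ R (k 1 0) * u + algebraMap ℂ R (k 2 0) * u ^ 2) * z ^ 3 +
    (algebraMap ℂ R (k 0 1) + algebraMap ℂ R (k 1 1) * u + algebraMap ℂ R (k 2 1) * u ^ 2) *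
      (y * z ^ 2) +
    (algebraMap ℂ R (k 0 2) + algebraMap ℂ R (k 1 2) * u + algebraMap ℂ R (k 2 2) * u ^ 2) *
      (y ^ 2 * z) +
    (algebraMap ℂ R (k 0 3) + algebraMap ℂ R (k 1 3) * u + algebraMap ℂ R (k 2 3) * u ^ 2) *
      y ^ 3 := by
  simp only [hv, sum4, Fin.sum_univ_three]
  norm_num
  ring

theorem hv2_eq (k : Fin 4 → Fin 3 → ℂ) (u y z : R) : hv (d := 2) k u y z =
    (algebraMap ℂ R (k 0 0) + algebraMap ℂ R (k 1 0) * u + algebraMap ℂ R (k 2 0) * u ^ 2 +
      algebraMap ℂ R (k 3 0) * u ^ 3) * z ^ 2 +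
    (algebraMap ℂ R (k 0 1) + algebraMap ℂ R (k 1 1) * u + algebraMap ℂ R (k 2 1) * u ^ 2 +
      algebraMap ℂ R (k 3 1) * u ^ 3) * (y * z) +
    (algebraMap ℂ R (k 0 2) + algebraMap ℂ R (k 1 2) * u + algebraMap ℂ R (k 2 2) * u ^ 2 +
      algebraMap ℂ R (k 3 2) * u ^ 3) * y ^ 2 := by
  simp only [hv, sum3, Fin.sum_univ_four]
  norm_num
  ring

theorem hv6_eq (k : Fin 3 → Fin 7 → ℂ) (u y : R) : hv (d := 6) k u y 1 =
    (algebraMap ℂ R (k 0 0) + algebraMap ℂ R (k 1 0) * u + algebraMap ℂ R (k 2 0) * u ^ 2) +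
    (algebraMap ℂ R (k 0 1) + algebraMap ℂ R (k 1 1) * u + algebraMap ℂ R (k 2 1) * u ^ 2) * y +
    (algebraMap ℂ R (k 0 2) + algebraMap ℂ R (k 1 2) * u + algebraMap ℂ R (k 2 2) * u ^ 2) *
      y ^ 2 +
    (algebraMap ℂ R (k 0 3) + algebraMap ℂ R (k 1 3) * u + algebraMap ℂ R (k 2 3) * u ^ 2) *
      y ^ 3 +
    (algebraMap ℂ R (k 0 4) + algebraMap ℂ R (k 1 4) * u + algebraMap ℂ R (k 2 4) * u ^ 2) *
      y ^ 4 +
    (algebraMap ℂ R (k 0 5) + algebraMap ℂ R (k 1 5) * u + algebraMap ℂ R (k 2 5) * u ^ 2) *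
      y ^ 5 +
    (algebraMap ℂ R (k 0 6) + algebraMap ℂ R (k 1 6) * u + algebraMap ℂ R (k 2 6) * u ^ 2) *
      y ^ 6 := by
  simp only [hv, sum7, Fin.sum_univ_three]
  norm_num
  ring

theorem hv_c (u y z : R) : hv (d := 3) (dat D a b c d).c u y z =
    cx (algebraMap ℂ R D) (algebraMap ℂ R b) (algebraMap ℂ R d) ((algebraMap ℂ R a) * u + (algebraMap ℂ R b)) ((algebraMap ℂ R c) * u + (algebraMap ℂ R d)) y z := by
  rw [hv3_eq]
  simp only [dat, cT, qf, lf, cx, Matrix.cons_val_zero,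
    Matrix.cons_val_one, Matrix.cons_val, map_add, map_sub, map_neg, map_mul, map_pow, map_one,
    map_zero, map_ofNat]
  ring

theorem hv_a (u y z : R) : hv (d := 2) (dat D a b c d).a u y z =
    u * sh1 (algebraMap ℂ R D) ((algebraMap ℂ R a) * u + (algebraMap ℂ R b)) ((algebraMap ℂ R c) * u + (algebraMap ℂ R d)) y z + sh2 (algebraMap ℂ R D) ((algebraMap ℂ R a) * u + (algebraMap ℂ R b)) ((algebraMap ℂ R c) * u + (algebraMap ℂ R d)) y z := by
  rw [hv2_eq]
  simp only [dat, aT, aS1, aS2, qf, lf, sh1, sh2,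
    Matrix.cons_val_zero,
    Matrix.cons_val_one, Matrix.cons_val, map_add, map_sub, map_neg, map_mul, map_pow, map_one,
    map_zero, map_ofNat]
  ring

theorem pv_e (u : R) : pv (dat D a b c d).e u = eps (algebraMap ℂ R D) ((algebraMap ℂ R a) * u + (algebraMap ℂ R b)) ((algebraMap ℂ R c) * u + (algebraMap ℂ R d)) := by
  simp only [dat, pv, Fin.sum_univ_three, qf, eps,
    Matrix.cons_val_zero,
    Matrix.cons_val_one, Matrix.cons_val, map_add, map_sub, map_neg, map_mul, map_pow, map_one,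
    map_zero, map_ofNat, Fin.val_zero, Fin.val_one, Fin.val_two]
  ring

theorem mat_eq (u : R) (i j : Fin 3) : (dat D a b c d).mat u i j =
    netM (algebraMap ℂ R D) (algebraMap ℂ R a) (algebraMap ℂ R b) (algebraMap ℂ R c)
      (algebraMap ℂ R d) (algebraMap ℂ R a * u + algebraMap ℂ R b)
      (algebraMap ℂ R c * u + algebraMap ℂ R d) i j := by
  unfold Net.mat
  fin_cases i <;> fin_cases j <;>
    simp [dat, netM, n00, n01, n02, n10, n11, n12, n20, n21, n22, map_ofNat] <;> ring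

theorem bb0_eq (u : R) : (dat D a b c d).bb u 0 =
    u * (algebraMap ℂ R a * u + algebraMap ℂ R b - (algebraMap ℂ R D + 1) *
      (algebraMap ℂ R c * u + algebraMap ℂ R d)) ^ 2 +
    algebraMap ℂ R D ^ 2 * (algebraMap ℂ R c * u + algebraMap ℂ R d) ^ 2 := by
  simp only [Net.bb, mat_eq, netM, n00, n01, n02, Matrix.cons_val_zero,
    Matrix.cons_val_one, Matrix.cons_val]
  ring

theorem bb1_eq (u : R) : (dat D a b c d).bb u 1 =
    -2 * algebraMap ℂ R D * (u * ((algebraMap ℂ R a * u + algebraMap ℂ R b) *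
      (algebraMap ℂ R a * u + algebraMap ℂ R b - (algebraMap ℂ R D + 1) *
      (algebraMap ℂ R c * u + algebraMap ℂ R d))) +
    (algebraMap ℂ R c * u + algebraMap ℂ R d) * (algebraMap ℂ R a * u + algebraMap ℂ R b -
      (algebraMap ℂ R c * u + algebraMap ℂ R d))) := by
  simp only [Net.bb, mat_eq, netM, n10, n11, n12, Matrix.cons_val_zero,
    Matrix.cons_val_one, Matrix.cons_val]
  ring

theorem bb2_eq (u : R) : (dat D a b c d).bb u 2 =
    algebraMap ℂ R D ^ 2 * u * (algebraMap ℂ R a * u + algebraMap ℂ R b) ^ 2 +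
    (algebraMap ℂ R a * u + algebraMap ℂ R b -
      (algebraMap ℂ R c * u + algebraMap ℂ R d)) ^ 2 := by
  simp only [Net.bb, mat_eq, netM, n20, n21, n22, Matrix.cons_val_zero,
    Matrix.cons_val_one, Matrix.cons_val]
  ring

theorem hv_b (u ρ : R) : hv (d := 6) (dat D a b c d).b u ρ 1 =
    bx (algebraMap ℂ R D) (algebraMap ℂ R a) (algebraMap ℂ R b) (algebraMap ℂ R c)
      (algebraMap ℂ R d) (algebraMap ℂ R a * u + algebraMap ℂ R b)
      (algebraMap ℂ R c * u + algebraMap ℂ R d) ρ 1 := by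
  rw [hv6_eq]
  simp only [dat, bT, map_qf, qf_sum, bt0, bt1, bt2, bx, Matrix.cons_val_zero,
    Matrix.cons_val_one, Matrix.cons_val, map_b00, map_b01, map_b02, map_b03, map_b04, map_b05, map_b06, map_b10, map_b11, map_b12, map_b13, map_b14, map_b15, map_b16, map_b20, map_b21, map_b22, map_b23, map_b24, map_b25, map_b26]
  ring

theorem ff_eq (u ρ : R) : (dat D a b c d).ff u ρ 0 = -u *
    fx0 (algebraMap ℂ R D) (algebraMap ℂ R a) (algebraMap ℂ R b) (algebraMap ℂ R c)
      (algebraMap ℂ R d) (algebraMap ℂ R a * u + algebraMap ℂ R b)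
      (algebraMap ℂ R c * u + algebraMap ℂ R d) ρ 1 := by
  rw [Data.ff, hv_c, hv_a, bb0_eq]
  simp only [Net.ee, mat_eq, netM, Matrix.cons_val_zero,
    Matrix.cons_val_one, Matrix.cons_val, cx, sh1, sh2, n00, n02, fx0,
    fx02, fx01, fx00]
  ring

end

end Vale.Agent.P297.H424.Fam
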