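import Mathlib.Algebra.Ring.Defs

/-!
Equations of the family of numerical Godeaux surfaces with an involution.
-/

namespace Vale.Agent.P297.H424

/-- The form `S₁` in the chart `R₁ = r`, `R₂ = 1`. -/
def giS1 {K : Type*} [CommRing K] (D x₀ x₁ r s t : K) : K :=
  ((x₀ - (D + 1) * x₁) * s - D * x₀ * t) ^ 2 - ((x₀ - (D + 1) * x₁) * r) ^ 2 +
    2 * D * x₀ * ((D - 1) * x₀ + (D + 1) ^ 2 * x₁) * r - (D * (D + 1) * x₀) ^ 2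

/-- The form `S₂` in the chart `R₁ = r`, `R₂ = 1`. -/
def giS2 {K : Type*} [CommRing K] (D x₀ x₁ r s t : K) : K :=
  (D * x₁ * s - (x₀ - x₁) * t) ^ 2 - (D * x₁ * r) ^ 2 +
    2 * D * x₁ * ((D + 1) * x₀ + (D - 1) * x₁) * r - ((D + 1) * (x₀ - x₁)) ^ 2

/-- The form `T` in the chart `R₁ = r`, `R₂ = 1`. -/
def giT {K : Type*} [CommRing K] (D b d x₀ x₁ r s t : K) : K :=
  -(D ^ 2 * d * x₁ * r ^ 3) +
    ((b + (D ^ 2 - 1) * d) * x₀ + ((D ^ 2 - 1) * b + (3 * D ^ 2 + 1) * d) * x₁) * r ^ 2 -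
    (((3 * D ^ 2 + 1) * b + (D - 1) * (D + 1) ^ 2 * d) * x₀ +
      (D + 1) ^ 2 * ((D - 1) * b + d) * x₁) * r +
    (D * (D + 1)) ^ 2 * b * x₀ +
    (D ^ 2 * d * x₁ * r + (D + 1) ^ 2 * d * (x₀ - x₁) - b * (x₀ + (D ^ 2 - 1) * x₁)) * s ^ 2 +
    2 * D * (d * (x₁ - x₀) * r + b * (x₀ - (D + 1) * x₁)) * s * t +
    (((b + (D - 1) * d) * x₀ + (d - (D + 1) * b) * x₁) * r - D ^ 2 * b * x₀) * t ^ 2

end Vale.Agent.P297.H424
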