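import Vale.Agent.P297.H424.Fam.Base

/-!
The discriminant of the resultant for the family.
-/

namespace Vale.Agent.P297.H424.Fam

set_option linter.unusedVariables false

variable {R : Type*} [CommRing R]

set_option maxHeartbeats 1000000 in
theorem disc0 (D a b c d x0 x1 : R) :
    fx10 D a b c d x0 x1 ^ 2 =
    eps D x0 x1 ^ 2 *
    (b00 D a b c d * x0 ^ 2 + b10 D a b c d * (x0 * x1) + b20 D a b c d * x1 ^ 2) := by
  simp only [fx10, eps, b00, b10, b20]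
  ring

set_option maxHeartbeats 1000000 in
theorem disc1 (D a b c d x0 x1 : R) :
    2 * fx10 D a b c d x0 x1 * fx11 D a b c d x0 x1 - 4 * fx00 D a b c d x0 x1 * fx21 D a b c d
    x0 x1 =
    eps D x0 x1 ^ 2 *
    (b01 D a b c d * x0 ^ 2 + b11 D a b c d * (x0 * x1) + b21 D a b c d * x1 ^ 2) := by
  simp only [fx00, fx10, fx11, fx21, eps, b01, b11, b21]
  ring

set_option maxHeartbeats 1000000 in
theorem disc2 (D a b c d x0 x1 : R) :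
    fx11 D a b c d x0 x1 ^ 2 + 2 * fx10 D a b c d x0 x1 * fx12 D a b c d x0 x1 - 4 * fx01 D a b
    c d x0 x1 * fx21 D a b c d x0 x1 - 4 * fx00 D a b c d x0 x1 * fx22 D a b c d x0 x1 =
    eps D x0 x1 ^ 2 *
    (b02 D a b c d * x0 ^ 2 + b12 D a b c d * (x0 * x1) + b22 D a b c d * x1 ^ 2) := by
  simp only [fx00, fx01, fx10, fx11, fx12, fx21, fx22, eps, b02, b12, b22]
  ring

set_option maxHeartbeats 1000000 in
theorem disc3 (D a b c d x0 x1 : R) :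
    2 * fx11 D a b c d x0 x1 * fx12 D a b c d x0 x1 + 2 * fx10 D a b c d x0 x1 * fx13 D a b c d
    x0 x1 - 4 * fx02 D a b c d x0 x1 * fx21 D a b c d x0 x1 - 4 * fx01 D a b c d x0 x1 * fx22 D
    a b c d x0 x1 - 4 * fx00 D a b c d x0 x1 * fx23 D a b c d x0 x1 =
    eps D x0 x1 ^ 2 *
    (b03 D a b c d * x0 ^ 2 + b13 D a b c d * (x0 * x1) + b23 D a b c d * x1 ^ 2) := by
  simp only [fx00, fx01, fx02, fx10, fx11, fx12, fx13, fx21, fx22, fx23, eps, b03, b13, b23]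
  ring

set_option maxHeartbeats 1000000 in
theorem disc4 (D a b c d x0 x1 : R) :
    fx12 D a b c d x0 x1 ^ 2 + 2 * fx11 D a b c d x0 x1 * fx13 D a b c d x0 x1 - 4 * fx02 D a b
    c d x0 x1 * fx22 D a b c d x0 x1 - 4 * fx01 D a b c d x0 x1 * fx23 D a b c d x0 x1 =
    eps D x0 x1 ^ 2 *
    (b04 D a b c d * x0 ^ 2 + b14 D a b c d * (x0 * x1) + b24 D a b c d * x1 ^ 2) := by
  simp only [fx01, fx02, fx11, fx12, fx13, fx22, fx23, eps, b04, b14, b24]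
  ring

set_option maxHeartbeats 1000000 in
theorem disc5 (D a b c d x0 x1 : R) :
    2 * fx12 D a b c d x0 x1 * fx13 D a b c d x0 x1 - 4 * fx02 D a b c d x0 x1 * fx23 D a b c d
    x0 x1 =
    eps D x0 x1 ^ 2 *
    (b05 D a b c d * x0 ^ 2 + b15 D a b c d * (x0 * x1) + b25 D a b c d * x1 ^ 2) := by
  simp only [fx02, fx12, fx13, fx23, eps, b05, b15, b25]
  ring

set_option maxHeartbeats 1000000 in
theorem disc6 (D a b c d x0 x1 : R) :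
    fx13 D a b c d x0 x1 ^ 2 =
    eps D x0 x1 ^ 2 *
    (b06 D a b c d * x0 ^ 2 + b16 D a b c d * (x0 * x1) + b26 D a b c d * x1 ^ 2) := by
  simp only [fx13, eps, b06, b16, b26]
  ring

theorem disc_asm (ep y z f02 f01 f00 f13 f12 f11 f10 f23 f22 f21 be0 be1 be2 be3 be4 be5 be6 : R)
    (h0 : f10 ^ 2 = ep ^ 2 * be0)
    (h1 : 2 * f10 * f11 - 4 * f00 * f21 = ep ^ 2 * be1)
    (h2 : f11 ^ 2 + 2 * f10 * f12 - 4 * f01 * f21 - 4 * f00 * f22 = ep ^ 2 * be2)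
    (h3 : 2 * f11 * f12 + 2 * f10 * f13 - 4 * f02 * f21 - 4 * f01 * f22 - 4 * f00 * f23 = ep ^ 2 * be3)
    (h4 : f12 ^ 2 + 2 * f11 * f13 - 4 * f02 * f22 - 4 * f01 * f23 = ep ^ 2 * be4)
    (h5 : 2 * f12 * f13 - 4 * f02 * f23 = ep ^ 2 * be5)
    (h6 : f13 ^ 2 = ep ^ 2 * be6)
    :
    (f13 * y ^ 3 + f12 * (y ^ 2 * z) + f11 * (y * z ^ 2) + f10 * z ^ 3) ^ 2 -
    4 * (f02 * (y ^ 2 * z) + f01 * (y * z ^ 2) + f00 * z ^ 3) *
    (f23 * y ^ 3 + f22 * (y ^ 2 * z) + f21 * (y * z ^ 2)) =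
    ep ^ 2 * (be0 * z ^ 6 + be1 * y ^ 1 * z ^ 5 + be2 * y ^ 2 * z ^ 4 + be3 * y ^ 3 * z ^ 3 + be4 * y ^ 4 * z ^ 2 + be5 * y ^ 5 * z ^ 1 + be6 * y ^ 6) := by
  linear_combination z ^ 6 * h0 + y ^ 1 * z ^ 5 * h1 + y ^ 2 * z ^ 4 * h2 + y ^ 3 * z ^ 3 * h3 + y ^ 4 * z ^ 2 * h4 + y ^ 5 * z ^ 1 * h5 + y ^ 6 * h6

/-- the discriminant of the resultant -/
theorem disc_x (D a b c d x0 x1 y z : R) :
    fx1 D a b c d x0 x1 y z ^ 2 - 4 * fx0 D a b c d x0 x1 y z * fx2 D a b c d x0 x1 y z =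
    eps D x0 x1 ^ 2 * bx D a b c d x0 x1 y z := by
  exact disc_asm _ y z _ _ _ _ _ _ _ _ _ _ _ _ _ _ _ _ _
    (disc0 D a b c d x0 x1) (disc1 D a b c d x0 x1) (disc2 D a b c d x0 x1) (disc3 D a b c d x0 x1)
    (disc4 D a b c d x0 x1) (disc5 D a b c d x0 x1) (disc6 D a b c d x0 x1)

end Vale.Agent.P297.H424.Fam
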