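import Vale.Agent.P297.H424.Fam.Main
import Vale.Agent.P297.H2.Ex.Base
import Vale.Agent.P297.H600.CGDefs

/-!
The fields in the theorem on numerical Godeaux surfaces with an involution exist.
-/

open IntermediateField Vale.Agent.P297 Vale.Agent.P297.H839 Vale.Agent.P297.H600
  Vale.Agent.P297.H2.Ex

noncomputable section

namespace Vale.Agent.P297.H424.Fam

/-- a cubic equation has a solution -/
theorem exists_cubic {N : Type} [Field N] [IsAlgClosed N] (a b c d : N) (ha : a ≠ 0) :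
    ∃ z : N, a * z ^ 3 + b * z ^ 2 + c * z + d = 0 := by
  obtain ⟨z, hz⟩ := IsAlgClosed.exists_root
    (Polynomial.C a * Polynomial.X ^ 3 + Polynomial.C b * Polynomial.X ^ 2 +
      Polynomial.C c * Polynomial.X + Polynomial.C d)
    (by rw [Polynomial.degree_cubic ha]; norm_num)
  refine ⟨z, ?_⟩
  simpa [Polynomial.IsRoot.def] using hz

/-- a quadratic equation has a solution -/
theorem exists_quad {N : Type} [Field N] [IsAlgClosed N] (a b c : N) (ha : a ≠ 0) :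
    ∃ z : N, a * z ^ 2 + b * z + c = 0 := by
  obtain ⟨z, hz⟩ := IsAlgClosed.exists_root
    (Polynomial.C a * Polynomial.X ^ 2 + Polynomial.C b * Polynomial.X + Polynomial.C c)
    (by rw [Polynomial.degree_quadratic ha]; norm_num)
  refine ⟨z, ?_⟩
  simpa [Polynomial.IsRoot.def] using hz

/-- two quadratic equations in two variables without linear terms -/
theorem two_quad {N : Type} [Field N] [IsAlgClosed N] (A c b0 b1 b2 e0 e1 e2 : N)
    (hf : c * b0 - A * e0 ≠ 0)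
    (hg : (b0 * e2 - b2 * e0) ^ 2 - (b1 * e2 - b2 * e1) * (b0 * e1 - b1 * e0) ≠ 0) :
    ∃ s t : N, A + (b0 * s ^ 2 + b1 * (s * t) + b2 * t ^ 2) = 0 ∧
      c + (e0 * s ^ 2 + e1 * (s * t) + e2 * t ^ 2) = 0 := by
  obtain ⟨l, hl⟩ := exists_quad (c * b0 - A * e0) (c * b1 - A * e1) (c * b2 - A * e2) hf
  by_cases hB : b0 * l ^ 2 + b1 * l + b2 = 0
  · have hE : e0 * l ^ 2 + e1 * l + e2 ≠ 0 := by
      intro hE
      apply hg
      linear_combination ((b0 * e2 - b2 * e0) - (b0 * e1 - b1 * e0) * l) * (b0 * hE - e0 * hB) +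
        (b0 * e1 - b1 * e0) * (e1 * hB - b1 * hE)
    have hA : A = 0 := by
      have h1 : A * (e0 * l ^ 2 + e1 * l + e2) = 0 := by linear_combination c * hB - hl
      exact (mul_eq_zero.1 h1).resolve_right hE
    obtain ⟨t, ht⟩ := IsAlgClosed.exists_pow_nat_eq (-c / (e0 * l ^ 2 + e1 * l + e2))
      (show 0 < 2 by norm_num)
    have h2 : t ^ 2 * (e0 * l ^ 2 + e1 * l + e2) = -c := by
      rw [ht, div_mul_cancel₀ _ hE]
    refine ⟨l * t, t, ?_, ?_⟩
    · rw [hA]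
      linear_combination t ^ 2 * hB
    · linear_combination h2
  · obtain ⟨t, ht⟩ := IsAlgClosed.exists_pow_nat_eq (-A / (b0 * l ^ 2 + b1 * l + b2))
      (show 0 < 2 by norm_num)
    have h2 : t ^ 2 * (b0 * l ^ 2 + b1 * l + b2) = -A := by
      rw [ht, div_mul_cancel₀ _ hB]
    refine ⟨l * t, t, ?_, ?_⟩
    · linear_combination h2
    · have h3 : (b0 * l ^ 2 + b1 * l + b2) *
          (c + (e0 * (l * t) ^ 2 + e1 * (l * t * t) + e2 * t ^ 2)) = 0 := by
        linear_combination (e0 * l ^ 2 + e1 * l + e2) * h2 + hl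
      exact (mul_eq_zero.1 h3).resolve_left hB

theorem map_giS1 {R S : Type*} [CommRing R] [CommRing S] (f : R →+* S) (D x₀ x₁ r s t : R) :
    f (giS1 D x₀ x₁ r s t) = giS1 (f D) (f x₀) (f x₁) (f r) (f s) (f t) := by
  simp only [giS1, map_add, map_sub, map_mul, map_pow, map_one, map_ofNat]

theorem map_giS2 {R S : Type*} [CommRing R] [CommRing S] (f : R →+* S) (D x₀ x₁ r s t : R) :
    f (giS2 D x₀ x₁ r s t) = giS2 (f D) (f x₀) (f x₁) (f r) (f s) (f t) := by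
  simp only [giS2, map_add, map_sub, map_mul, map_pow, map_one, map_ofNat]

theorem map_giT {R S : Type*} [CommRing R] [CommRing S] (f : R →+* S) (D b d x₀ x₁ r s t : R) :
    f (giT D b d x₀ x₁ r s t) = giT (f D) (f b) (f d) (f x₀) (f x₁) (f r) (f s) (f t) := by
  simp only [giT, map_add, map_sub, map_neg, map_mul, map_pow, map_one, map_ofNat]

theorem map_cgForm {R S : Type*} [CommRing R] [CommRing S] (f : R →+* S) (c x y z w : R) :
    f (cgForm c x y z w) = cgForm (f c) (f x) (f y) (f z) (f w) := by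
  simp only [cgForm, map_add, map_sub, map_mul, map_pow, map_one, map_ofNat]

/-- The function field of the Craighero-Gattazzo quintic exists. -/
theorem exists_cg (c : ℂ) : ∃ (K : Type) (_ : Field K) (_ : Algebra ℂ K) (x y z : K),
    AlgebraicIndependent ℂ ![x, y] ∧ IntermediateField.adjoin ℂ {x, y, z} = ⊤ ∧
      cgForm (algebraMap ℂ K c) x y z 1 = 0 := by
  have hL : algebraMap ℂ Om (1 - c - 2 * c ^ 2) + a0 +
      algebraMap ℂ Om (c ^ 2 - 2 * c - 1) * a1 ≠ 0 := by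
    have h := ne_of_eval (MvPolynomial.C (1 - c - 2 * c ^ 2) + MvPolynomial.X 0 +
      MvPolynomial.C (c ^ 2 - 2 * c - 1) * MvPolynomial.X 1) ![1 - (1 - c - 2 * c ^ 2), 0]
      (by simp)
    simpa only [map_add, map_mul, MvPolynomial.aeval_C, MvPolynomial.aeval_X,
      Matrix.cons_val_zero, Matrix.cons_val_one] using h
  obtain ⟨x, hx⟩ : ∃ x : Om, x = a0 := ⟨_, rfl⟩
  obtain ⟨y, hy⟩ : ∃ y : Om, y = a1 := ⟨_, rfl⟩
  obtain ⟨k, hk⟩ : ∃ k : Om, k = algebraMap ℂ Om c := ⟨_, rfl⟩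
  rw [← hx, ← hy] at hL
  simp only [map_sub, map_mul, map_pow, map_one, map_ofNat, ← hk] at hL
  obtain ⟨z, hz⟩ := exists_cubic (((1 - k - 2 * k ^ 2) + x + (k ^ 2 - 2 * k - 1) * y) ^ 2)
    (x ^ 3 + (1 - k - 2 * k ^ 2) ^ 2 * y ^ 3 + (k ^ 2 - 2 * k - 1) ^ 2 +
      (2 - 10 * k - 9 * k ^ 2) * (y ^ 2 + x) + (9 - 8 * k ^ 2) * (x * y ^ 2 + y) +
      (3 + k + 4 * k ^ 2) * (x ^ 2 * y + x ^ 2) + (1 - 6 * k + 9 * k ^ 2) * (x * y))
    (2 * x ^ 3 * ((1 - k - 2 * k ^ 2) * y + (k ^ 2 - 2 * k - 1)) +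
      2 * (1 - k - 2 * k ^ 2) * y ^ 3 * (1 + (k ^ 2 - 2 * k - 1) * x) +
      2 * (k ^ 2 - 2 * k - 1) * ((1 - k - 2 * k ^ 2) * x + y) +
      (2 - 10 * k - 9 * k ^ 2) * (x ^ 2 * y ^ 2) + (9 - 8 * k ^ 2) * x ^ 2 +
      (3 + k + 4 * k ^ 2) * y ^ 2 + (1 - 6 * k + 9 * k ^ 2) * (x ^ 2 * y + x * y ^ 2 + x * y))
    (x ^ 3 * ((1 - k - 2 * k ^ 2) * y + (k ^ 2 - 2 * k - 1)) ^ 2 +
      y ^ 3 * (1 + (k ^ 2 - 2 * k - 1) * x) ^ 2 + ((1 - k - 2 * k ^ 2) * x + y) ^ 2 +
      (2 - 10 * k - 9 * k ^ 2) * (x ^ 2 * y) + (9 - 8 * k ^ 2) * (x ^ 2 * y ^ 2) +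
      (3 + k + 4 * k ^ 2) * (x * y ^ 2))
    (pow_ne_zero 2 hL)
  have hF : cgForm k x y z 1 = 0 := by
    unfold cgForm
    linear_combination hz
  let S : Set Om := {x, y, z}
  refine ⟨adjoin ℂ S, inferInstance, inferInstance,
    ⟨x, subset_adjoin ℂ S (by simp [S])⟩, ⟨y, subset_adjoin ℂ S (by simp [S])⟩,
    ⟨z, subset_adjoin ℂ S (by simp [S])⟩, ?_, ?_, ?_⟩
  · refine (AlgHom.algebraicIndependent_iff (adjoin ℂ S).val (RingHom.injective _)).1 ?_
    have e := indep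
    rw [← hx, ← hy] at e
    convert e using 1
    funext i
    fin_cases i <;> rfl
  · rw [← adjoin_top S]
    congr 1
    ext w
    simp [S, Subtype.ext_iff]
  · apply (RingHom.injective ((adjoin ℂ S).val : adjoin ℂ S →+* Om))
    rw [map_cgForm, map_zero, map_one]
    rw [hk] at hF
    exact hF

/-- The field in the theorem on numerical Godeaux surfaces with an involution exists. -/
theorem exists_fam {D a b c d : ℂ} (h : D * (D + 1) * (a * d - b * c) ≠ 0)
    (hex : ¬(D = -2 ∧ a = c ∧ b = -d)) :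
    ∃ (K : Type) (_ : Field K) (_ : Algebra ℂ K) (u r s t X Y : K),
      X = algebraMap ℂ K a * u + algebraMap ℂ K b ∧
      Y = algebraMap ℂ K c * u + algebraMap ℂ K d ∧
      AlgebraicIndependent ℂ ![u, r] ∧ IntermediateField.adjoin ℂ {u, r, s, t} = ⊤ ∧
      u * giS1 (algebraMap ℂ K D) X Y r s t + giS2 (algebraMap ℂ K D) X Y r s t = 0 ∧
      giS1 (algebraMap ℂ K D) X Y r s t +
        giT (algebraMap ℂ K D) (algebraMap ℂ K b) (algebraMap ℂ K d) X Y r s t = 0 := by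
  have hδ : a * d - b * c ≠ 0 := fun h0 => h (by rw [h0, mul_zero])
  have hP : D + 1 ≠ 0 := fun h0 => h (by rw [h0]; ring)
  have hD : D ≠ 0 := fun h0 => h (by rw [h0]; ring)
  have hg := genW hD hP hex hδ
  obtain ⟨u4, ρ4, hff4⟩ := hg.hff
  obtain ⟨u1, hu1, hdet1, hB1⟩ := hg.hu
  obtain ⟨u, hu⟩ : ∃ u : Om, u = a0 := ⟨_, rfl⟩
  obtain ⟨r, hr⟩ : ∃ r : Om, r = a1 := ⟨_, rfl⟩
  have hind : AlgebraicIndependent ℂ ![u, r] := by
    rw [hu, hr]
    exact indep
  have hff : (dat D a b c d).ff u r 0 ≠ 0 := nz hind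
    ((dat D a b c d).ff (MvPolynomial.X 0) (MvPolynomial.X 1) 0) u4 ρ4
    (by simp only [Data.ff, map_sub, map_mul, Net.map_bb, Net.map_ee, map_hv, MvPolynomial.aeval_X,
      Matrix.cons_val_zero, Matrix.cons_val_one, map_one])
    (by simp only [Data.ff, map_sub, map_mul, Net.map_bb, Net.map_ee, map_hv, MvPolynomial.aeval_X,
      Matrix.cons_val_zero, Matrix.cons_val_one, map_one])
    hff4
  have hgam : (dat D a b c d).gam u r ≠ 0 := by
    intro h0
    apply gam_not_square (dat D a b c d).toNet hind u1 hu1 hdet1 hB1 0 (zero_mem _)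
    rw [h0]
    ring
  obtain ⟨s, t, hQ, hC⟩ := two_quad (hv (d := 2) (dat D a b c d).a u r 1)
    (hv (d := 3) (dat D a b c d).c u r 1) ((dat D a b c d).bb u 0) ((dat D a b c d).bb u 1)
    ((dat D a b c d).bb u 2) ((dat D a b c d).ee u r 0) ((dat D a b c d).ee u r 1)
    ((dat D a b c d).ee u r 2) hff hgam
  rw [q_eq'] at hQ
  rw [c_eq'] at hC
  let S : Set Om := {u, r, s, t}
  refine ⟨adjoin ℂ S, inferInstance, inferInstance,
    ⟨u, subset_adjoin ℂ S (by simp [S])⟩, ⟨r, subset_adjoin ℂ S (by simp [S])⟩,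
    ⟨s, subset_adjoin ℂ S (by simp [S])⟩, ⟨t, subset_adjoin ℂ S (by simp [S])⟩, _, _,
    rfl, rfl, ?_, ?_, ?_, ?_⟩
  · refine (AlgHom.algebraicIndependent_iff (adjoin ℂ S).val (RingHom.injective _)).1 ?_
    convert hind using 1
    funext i
    fin_cases i <;> rfl
  · rw [← adjoin_top S]
    congr 1
    ext w
    simp [S, Subtype.ext_iff]
  · apply (RingHom.injective ((adjoin ℂ S).val : adjoin ℂ S →+* Om))
    rw [map_add, map_mul, map_giS1, map_giS2, map_zero]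
    simp only [map_add, map_mul]
    exact hQ
  · apply (RingHom.injective ((adjoin ℂ S).val : adjoin ℂ S →+* Om))
    rw [map_add, map_giS1, map_giT, map_zero]
    simp only [map_add, map_mul]
    exact hC

end Vale.Agent.P297.H424.Fam
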