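import Vale.Agent.P297.H424.Fam.Ids

/-!
Nonvanishing conditions for the family.
-/

namespace Vale.Agent.P297.H424.Fam

open Vale.Agent.P297 Vale.Agent.P297.H839 Polynomial

set_option linter.unusedVariables false
set_option linter.unusedSimpArgs false
set_option linter.unusedSectionVars false

/-- A homogeneous function that vanishes at `(a u + b, c u + d)` for all `u ≠ 0` vanishes. -/
theorem vanish {a b c d : ℂ} (hδ : a * d - b * c ≠ 0) (f : ℂ → ℂ → ℂ) (k : ℕ)
    (hom : ∀ t x y, f (t * x) (t * y) = t ^ k * f x y)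
    (hf : Continuous fun p : ℂ × ℂ => f p.1 p.2)
    (h : ∀ u, u ≠ 0 → f (a * u + b) (c * u + d) = 0) (X Y : ℂ) : f X Y = 0 := by
  have h1 : ∀ M N : ℂ, M ≠ 0 → N ≠ 0 → f (a * M + b * N) (c * M + d * N) = 0 := by
    intro M N hM hN
    have e1 : a * M + b * N = N * (a * (M / N) + b) := by field_simp
    have e2 : c * M + d * N = N * (c * (M / N) + d) := by field_simp
    rw [e1, e2, hom, h _ (div_ne_zero hM hN), mul_zero]
  have h2 : ∀ M N : ℂ, N ≠ 0 → f (a * M + b * N) (c * M + d * N) = 0 := by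
    intro M N hN
    have hc : Continuous fun M => f (a * M + b * N) (c * M + d * N) :=
      hf.comp (f := fun M : ℂ => (a * M + b * N, c * M + d * N)) (by fun_prop)
    have h3 := Continuous.ext_on (dense_compl_singleton (0 : ℂ)) hc continuous_const
      (fun M hM => h1 M N hM hN)
    exact congrFun h3 M
  have h3 : ∀ M N : ℂ, f (a * M + b * N) (c * M + d * N) = 0 := by
    intro M N
    have hc : Continuous fun N => f (a * M + b * N) (c * M + d * N) :=
      hf.comp (f := fun N : ℂ => (a * M + b * N, c * M + d * N)) (by fun_prop)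
    have h4 := Continuous.ext_on (dense_compl_singleton (0 : ℂ)) hc continuous_const
      (fun N hN => h2 M N hN)
    exact congrFun h4 N
  have h4 := h3 ((d * X - b * Y) / (a * d - b * c)) ((a * Y - c * X) / (a * d - b * c))
  have e1 : a * ((d * X - b * Y) / (a * d - b * c)) + b * ((a * Y - c * X) / (a * d - b * c)) =
      X := by
    rw [← mul_div_assoc, ← mul_div_assoc, ← add_div, div_eq_iff hδ]
    ring
  have e2 : c * ((d * X - b * Y) / (a * d - b * c)) + d * ((a * Y - c * X) / (a * d - b * c)) =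
      Y := by
    rw [← mul_div_assoc, ← mul_div_assoc, ← add_div, div_eq_iff hδ]
    ring
  rwa [e1, e2] at h4

section

variable {D a b c d : ℂ}

theorem matC (u : ℂ) (i j : Fin 3) : (dat D a b c d).mat u i j =
    netM D a b c d (a * u + b) (c * u + d) i j := by
  have h := mat_eq D a b c d u i j
  simpa using h

/-- the determinant of the net -/
def dt (D a b c d x y : ℂ) : ℂ :=
  n00 D a b c d x y * n11 D a b c d x y * n22 D a b c d x y -
  n00 D a b c d x y * n12 D a b c d x y * n21 D a b c d x y -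
  n01 D a b c d x y * n10 D a b c d x y * n22 D a b c d x y +
  n01 D a b c d x y * n12 D a b c d x y * n20 D a b c d x y +
  n02 D a b c d x y * n10 D a b c d x y * n21 D a b c d x y -
  n02 D a b c d x y * n11 D a b c d x y * n20 D a b c d x y

theorem detC (u : ℂ) : (dat D a b c d).det u = dt D a b c d (a * u + b) (c * u + d) := by
  rw [Net.det_eq]
  simp only [matC, netM, Matrix.cons_val_zero, Matrix.cons_val_one, Matrix.cons_val, dt]

theorem exists_det (hD : D ≠ 0) (hP : D + 1 ≠ 0) (hδ : a * d - b * c ≠ 0) :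
    ∃ u : ℂ, (dat D a b c d).det u ≠ 0 := by
  by_contra h
  push Not at h
  have h1 := vanish hδ (dt D a b c d) 3 (by
    intro t x y
    simp only [dt, n00, n01, n02, n10, n11, n12, n20, n21, n22]
    ring) (by
    simp only [dt, n00, n01, n02, n10, n11, n12, n20, n21, n22]
    fun_prop) (fun u _ => by rw [← detC]; exact h u)
  have e1 := h1 1 1
  have e2 := h1 (D + 1) 1
  have h2 : dt D a b c d 1 1 = -2 * D ^ 5 * (a * d - b * c) * a := by
    simp only [dt, n00, n01, n02, n10, n11, n12, n20, n21, n22]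
    ring
  have h3 : dt D a b c d (D + 1) 1 = 2 * D ^ 5 * (D + 1) ^ 3 * (a * d - b * c) * d := by
    simp only [dt, n00, n01, n02, n10, n11, n12, n20, n21, n22]
    ring
  rw [h2] at e1
  rw [h3] at e2
  have ha := (mul_eq_zero.1 e1).resolve_left
    (mul_ne_zero (mul_ne_zero (by norm_num) (pow_ne_zero 5 hD)) hδ)
  have hd := (mul_eq_zero.1 e2).resolve_left
    (mul_ne_zero (mul_ne_zero (mul_ne_zero (by norm_num) (pow_ne_zero 5 hD))
      (pow_ne_zero 3 hP)) hδ)
  have e3 := h1 1 0
  have e4 := h1 0 1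
  have h4 : dt D a b c d 1 0 = -2 * D * (a * d - b * c) * (D + 1) ^ 2 * (b + c) +
      2 * D * (a * d - b * c) * (a + d * (1 + D + D ^ 3 + D ^ 4)) := by
    simp only [dt, n00, n01, n02, n10, n11, n12, n20, n21, n22]
    ring
  have h5 : dt D a b c d 0 1 = 2 * D * (a * d - b * c) * (D + 1) ^ 3 * ((D + 1) * b + c) +
      2 * D * (D + 1) ^ 2 * (a * d - b * c) * (a * (D - D ^ 2 - 1) - d * (D + 1)) := by
    simp only [dt, n00, n01, n02, n10, n11, n12, n20, n21, n22]
    ring
  rw [h4, ha, hd, zero_mul, zero_mul, add_zero, mul_zero, add_zero] at e3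
  rw [h5, ha, hd, zero_mul, zero_mul, zero_mul, sub_zero, mul_zero, add_zero] at e4
  have hδ' : (0 : ℂ) - b * c ≠ 0 := by
    rw [ha, hd, mul_zero] at hδ
    exact hδ
  have f3 := (mul_eq_zero.1 e3).resolve_left (mul_ne_zero (mul_ne_zero (mul_ne_zero (by norm_num)
    hD) hδ') (pow_ne_zero 2 hP))
  have f4 := (mul_eq_zero.1 e4).resolve_left (mul_ne_zero (mul_ne_zero (mul_ne_zero (by norm_num)
    hD) hδ') (pow_ne_zero 3 hP))
  have f5 : D * b = 0 := by linear_combination f4 - f3
  have hb := (mul_eq_zero.1 f5).resolve_left hD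
  rw [hb, zero_mul, sub_zero] at hδ'
  exact hδ' rfl

theorem exists_eps (hD : D ≠ 0) (hδ : a * d - b * c ≠ 0) :
    ∃ u : ℂ, pv (dat D a b c d).e u ≠ 0 := by
  by_contra h
  push Not at h
  have h1 := vanish hδ (eps D) 2 (by
    intro t x y
    simp only [eps]
    ring) (by
    simp only [eps]
    fun_prop) (fun u _ => by
      have h2 := h u
      rw [pv_e] at h2
      simpa using h2) 1 1
  have h2 : eps D 1 1 = -D ^ 2 := by
    simp only [eps]
    ring
  rw [h2] at h1
  exact neg_ne_zero.2 (pow_ne_zero 2 hD) h1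

/-- `(a d - b c) B`, coefficient of `t²` -/
def B0 (D a b c d x y : ℂ) : ℂ :=
  (d * x - b * y) * (x - (D + 1) * y) ^ 2 + (a * y - c * x) * (D ^ 2 * y ^ 2)

/-- `(a d - b c) B`, coefficient of `t` -/
def B1 (D a b c d x y : ℂ) : ℂ :=
  -2 * D * ((d * x - b * y) * (x * (x - (D + 1) * y)) + (a * y - c * x) * (y * (x - y)))

/-- `(a d - b c) B`, coefficient of `1` -/
def B2 (D a b c d x y : ℂ) : ℂ :=
  (d * x - b * y) * (D ^ 2 * x ^ 2) + (a * y - c * x) * (x - y) ^ 2

theorem B0C (u : ℂ) : B0 D a b c d (a * u + b) (c * u + d) =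
    (a * d - b * c) * (dat D a b c d).bb u 0 := by
  rw [bb0_eq]
  simp only [B0, Algebra.algebraMap_self, RingHom.id_apply]
  ring

theorem B1C (u : ℂ) : B1 D a b c d (a * u + b) (c * u + d) =
    (a * d - b * c) * (dat D a b c d).bb u 1 := by
  rw [bb1_eq]
  simp only [B1, Algebra.algebraMap_self, RingHom.id_apply]
  ring

theorem B2C (u : ℂ) : B2 D a b c d (a * u + b) (c * u + d) =
    (a * d - b * c) * (dat D a b c d).bb u 2 := by
  rw [bb2_eq]
  simp only [B2, Algebra.algebraMap_self, RingHom.id_apply]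
  ring

theorem discBC (u : ℂ) : (dat D a b c d).discB u =
    -4 * u * eps D (a * u + b) (c * u + d) ^ 2 := by
  unfold Net.discB
  rw [bb0_eq, bb1_eq, bb2_eq]
  simp only [Algebra.algebraMap_self, RingHom.id_apply, eps]
  ring

theorem exists_discB (hD : D ≠ 0)
    (hδ : a * d - b * c ≠ 0) : ∃ u : ℂ, (dat D a b c d).discB u ≠ 0 := by
  by_contra h
  push Not at h
  have h1 := vanish hδ (eps D) 2 (by
    intro t x y
    simp only [eps]
    ring) (by
    simp only [eps]
    fun_prop) (fun u hu => by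
      have h2 := h u
      rw [discBC] at h2
      have h3 := (mul_eq_zero.1 h2).resolve_left (mul_ne_zero (by norm_num) hu)
      exact pow_eq_zero_iff (two_ne_zero) |>.1 h3) 1 1
  have h2 : eps D 1 1 = -D ^ 2 := by
    simp only [eps]
    ring
  rw [h2] at h1
  exact neg_ne_zero.2 (pow_ne_zero 2 hD) h1

theorem gen_hu (hD : D ≠ 0) (hP : D + 1 ≠ 0)
    (hδ : a * d - b * c ≠ 0) : ∃ u0 : ℂ, u0 ≠ 0 ∧ (dat D a b c d).det u0 ≠ 0 ∧
      (dat D a b c d).discB u0 ≠ 0 := by
  obtain ⟨u1, h1⟩ := exists_det hD hP hδ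
  obtain ⟨u2, h2⟩ := exists_discB hD hδ
  have k1 : (dat D a b c d).det (X : ℂ[X]) ≠ 0 := by
    intro h
    apply h1
    have h3 := congrArg (Polynomial.aeval u1) h
    rw [Net.map_det, Polynomial.aeval_X, map_zero] at h3
    exact h3
  have k2 : (dat D a b c d).discB (X : ℂ[X]) ≠ 0 := by
    intro h
    apply h2
    have h3 := congrArg (Polynomial.aeval u2) h
    rw [Net.map_discB, Polynomial.aeval_X, map_zero] at h3
    exact h3
  have k3 : (X : ℂ[X]) * ((dat D a b c d).det (X : ℂ[X]) * (dat D a b c d).discB (X : ℂ[X])) ≠ 0 :=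
    mul_ne_zero X_ne_zero (mul_ne_zero k1 k2)
  by_contra h
  apply k3
  apply Polynomial.funext
  intro z
  rw [eval_mul, eval_mul, eval_X, eval_zero]
  by_contra h5
  apply h
  have h6 : eval z ((dat D a b c d).det (X : ℂ[X])) = (dat D a b c d).det z := by
    have h7 := Net.map_det (dat D a b c d).toNet (Polynomial.aeval z) (X : ℂ[X])
    rw [Polynomial.aeval_X] at h7
    exact h7
  have h8 : eval z ((dat D a b c d).discB (X : ℂ[X])) = (dat D a b c d).discB z := by
    have h7 := Net.map_discB (dat D a b c d).toNet (Polynomial.aeval z) (X : ℂ[X])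
    rw [Polynomial.aeval_X] at h7
    exact h7
  rw [h6, h8] at h5
  exact ⟨z, fun h9 => h5 (by rw [h9, zero_mul]), fun h9 => h5 (by rw [h9, zero_mul, mul_zero]),
    fun h9 => h5 (by rw [h9, mul_zero, mul_zero])⟩

end

end Vale.Agent.P297.H424.Fam
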