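import Vale.Agent.P297.H424.Fam.Gen

/-!
Nonvanishing conditions for the family, continued.
-/

namespace Vale.Agent.P297.H424.Fam

open Vale.Agent.P297 Vale.Agent.P297.H839 Polynomial

set_option linter.unusedVariables false
set_option linter.unusedSimpArgs false
set_option linter.unusedSectionVars false

section

variable {D a b c d : ℂ}

/-- `(a d - b c) E`, coefficient of `t²` -/
def E0 (D a b c d ρ x y : ℂ) : ℂ :=
  (a * y - c * x) * ρ * n00 D a b c d x y - (d * x - b * y) * n02 D a b c d x y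

/-- `(a d - b c) E`, coefficient of `t` -/
def E1 (D a b c d ρ x y : ℂ) : ℂ :=
  (a * y - c * x) * ρ * n10 D a b c d x y - (d * x - b * y) * n12 D a b c d x y

theorem E0C (u ρ : ℂ) : E0 D a b c d ρ (a * u + b) (c * u + d) =
    (a * d - b * c) * (dat D a b c d).ee u ρ 0 := by
  simp only [Net.ee, matC, netM, Matrix.cons_val_zero, Matrix.cons_val_one, Matrix.cons_val, E0]
  ring

theorem E1C (u ρ : ℂ) : E1 D a b c d ρ (a * u + b) (c * u + d) =
    (a * d - b * c) * (dat D a b c d).ee u ρ 1 := by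
  simp only [Net.ee, matC, netM, Matrix.cons_val_zero, Matrix.cons_val_one, Matrix.cons_val, E1]
  ring

theorem exists_eval {p : ℂ[X]} (h : p ≠ 0) : ∃ t : ℂ, p.eval t ≠ 0 := by
  by_contra hcon
  push Not at hcon
  exact h (Polynomial.funext fun t => by rw [hcon t, eval_zero])

theorem gen_hdel (hD : D ≠ 0) (hP : D + 1 ≠ 0)
    (hδ : a * d - b * c ≠ 0) : ∃ u0 ρ0 : ℂ, (dat D a b c d).del u0 ρ0 0 1 ≠ 0 := by
  by_contra h
  push Not at h
  have h1 : ∀ ρ x y : ℂ, B0 D a b c d x y * E1 D a b c d ρ x y -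
      B1 D a b c d x y * E0 D a b c d ρ x y = 0 := fun ρ => vanish hδ
    (fun x y => B0 D a b c d x y * E1 D a b c d ρ x y - B1 D a b c d x y * E0 D a b c d ρ x y)
    5 (by
    intro t x y
    simp only [B0, B1, E0, E1, n00, n02, n10, n12]
    ring) (by
    simp only [B0, B1, E0, E1, n00, n02, n10, n12]
    fun_prop) (fun u _ => by
      rw [B0C, B1C, E0C, E1C]
      have h2 := h u ρ
      unfold Net.del at h2
      linear_combination (a * d - b * c) ^ 2 * h2)
  by_cases hd : d = 0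
  · have hb : b ≠ 0 := fun hb => hδ (by rw [hd, hb]; ring)
    have e1 := h1 0 (D + 1) 1
    have e2 := h1 0 1 1
    simp only [B0, B1, E0, E1, n00, n02, n10, n12, hd] at e1 e2
    have f1 : (2 * D ^ 3 * (D + 1) * b ^ 1) * (a - (D + 1) * c) ^ 2 = 0 := by
      linear_combination (-1 : ℂ) * e1
    have f2 : (2 * D ^ 4 * b) * (a * (a - c)) = 0 := by
      linear_combination (-1 : ℂ) * e2
    have g1 := (mul_eq_zero.1 f1).resolve_left (mul_ne_zero (mul_ne_zero (mul_ne_zero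
      (by norm_num) (pow_ne_zero 3 hD)) hP) (pow_ne_zero 1 hb))
    have g2 := (mul_eq_zero.1 f2).resolve_left (mul_ne_zero (mul_ne_zero (by norm_num)
      (pow_ne_zero 4 hD)) hb)
    have k1 : a - (D + 1) * c = 0 := pow_eq_zero_iff (two_ne_zero) |>.1 g1
    have k2 : (D * (D + 1)) * c ^ 2 = 0 := by
      linear_combination g2 - (a + D * c) * k1
    have k3 := (mul_eq_zero.1 k2).resolve_left (mul_ne_zero hD hP)
    have k4 : c = 0 := pow_eq_zero_iff (two_ne_zero) |>.1 k3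
    exact hδ (by rw [hd, k4]; ring)
  · have h2 : ∀ x y : ℂ, (d * x - b * y) * (a * y - c * x) * ((x - (D + 1) * y) * eps D x y) =
        0 := by
      intro x y
      have e1 := h1 1 x y
      have e2 := h1 0 x y
      have e3 : (2 * D * d) * ((d * x - b * y) * (a * y - c * x) *
          ((x - (D + 1) * y) * eps D x y)) = 0 := by
        simp only [B0, B1, E0, E1, n00, n02, n10, n12] at e1 e2
        unfold eps
        linear_combination e2 - e1
      exact (mul_eq_zero.1 e3).resolve_left (mul_ne_zero (mul_ne_zero (by norm_num) hD) hd)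
    have k1 : (C d * X - C b : ℂ[X]) ≠ 0 := by
      intro hk
      have h3 := congrArg (fun p => Polynomial.coeff p 1) hk
      simp [coeff_X] at h3
      exact hd h3
    have k2 : (C a - C c * X : ℂ[X]) ≠ 0 := by
      intro hk
      have h3 := congrArg (Polynomial.eval 0) hk
      have h4 := congrArg (Polynomial.eval 1) hk
      simp at h3 h4
      rw [h3, zero_sub, neg_eq_zero] at h4
      exact hδ (by rw [h3, h4]; ring)
    have k3 : (X - C (D + 1) : ℂ[X]) ≠ 0 := X_sub_C_ne_zero _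
    have k4 : (X ^ 2 - C (D ^ 2 + D + 2) * X + C (D + 1) : ℂ[X]) ≠ 0 := by
      intro hk
      have h3 := congrArg (Polynomial.eval 1) hk
      simp at h3
      apply pow_ne_zero 2 hD
      linear_combination -h3
    obtain ⟨t, ht⟩ := exists_eval (mul_ne_zero (mul_ne_zero k1 k2) (mul_ne_zero k3 k4))
    apply ht
    rw [← h2 t 1]
    simp only [eval_mul, eval_sub, eval_add, eval_C, eval_X, eval_pow, eps]
    ring

theorem gen_hff (hD : D ≠ 0) (hP : D + 1 ≠ 0)
    (hδ : a * d - b * c ≠ 0) : ∃ u0 ρ0 : ℂ, (dat D a b c d).ff u0 ρ0 0 ≠ 0 := by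
  by_contra h
  push Not at h
  have h1 : ∀ ρ x y : ℂ, fx0 D a b c d x y ρ 1 = 0 := fun ρ => vanish hδ
    (fun x y => fx0 D a b c d x y ρ 1) 3 (by
    intro t x y
    simp only [fx0, fx00, fx01, fx02]
    ring) (by
    simp only [fx0, fx00, fx01, fx02]
    fun_prop) (fun u hu => by
      have h2 := h u ρ
      rw [ff_eq] at h2
      simp only [Algebra.algebraMap_self, RingHom.id_apply] at h2
      exact (mul_eq_zero.1 h2).resolve_left (neg_ne_zero.2 hu))
  have e1 := h1 1 1 1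
  have e2 := h1 (-1) 1 1
  have e3 := h1 0 1 1
  simp only [fx0, fx00, fx01, fx02] at e1 e2 e3
  have f1 : (4 * (D ^ 4 * (D + 1))) * d = 0 := by linear_combination e1 + e2 - 2 * e3
  have f2 : (D ^ 4 * (D + 1) ^ 2) * a = 0 := by linear_combination e3
  have hd := (mul_eq_zero.1 f1).resolve_left (mul_ne_zero (by norm_num)
    (mul_ne_zero (pow_ne_zero 4 hD) hP))
  have ha := (mul_eq_zero.1 f2).resolve_left (mul_ne_zero (pow_ne_zero 4 hD) (pow_ne_zero 2 hP))
  have e4 := h1 1 1 0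
  have e5 := h1 (-1) 1 0
  simp only [fx0, fx00, fx01, fx02, hd, ha] at e4 e5
  have f3 : (2 * (D + 1) ^ 2) * b = 0 := by linear_combination e4 - e5
  have hb := (mul_eq_zero.1 f3).resolve_left (mul_ne_zero (by norm_num) (pow_ne_zero 2 hP))
  exact hδ (by rw [hd, hb]; ring)

theorem pv7_eq (k : Fin 7 → ℂ) (ρ : ℂ) : pv k ρ = k 0 + k 1 * ρ + k 2 * ρ ^ 2 + k 3 * ρ ^ 3 +
    k 4 * ρ ^ 4 + k 5 * ρ ^ 5 + k 6 * ρ ^ 6 := by
  simp only [pv, Algebra.algebraMap_self, RingHom.id_apply]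
  rw [Fin.sum_univ_seven]
  norm_num

theorem gen_hb (hD : D ≠ 0) (hP : D + 1 ≠ 0)
    (hδ : a * d - b * c ≠ 0) : ∃ ρ0 : ℂ,
    pv (fun j => (dat D a b c d).b 1 j) ρ0 ^ 2 - 4 * pv (fun j => (dat D a b c d).b 2 j) ρ0 *
      pv (fun j => (dat D a b c d).b 0 j) ρ0 ≠ 0 := by
  by_contra h
  push Not at h
  obtain ⟨β0, hβ0⟩ : ∃ β0 : Fin 7 → ℂ, β0 = bt0 D a b c d := ⟨_, rfl⟩
  obtain ⟨β1, hβ1⟩ : ∃ β1 : Fin 7 → ℂ, β1 = bt1 D a b c d := ⟨_, rfl⟩
  obtain ⟨β2, hβ2⟩ : ∃ β2 : Fin 7 → ℂ, β2 = bt2 D a b c d := ⟨_, rfl⟩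
  have h1 : ∀ ρ : ℂ, pv β1 ρ ^ 2 - 4 * pv β0 ρ * pv β2 ρ = 0 := by
    intro ρ
    have h2 := h ρ
    have h3 : (a * d - b * c) ^ 2 * (pv β1 ρ ^ 2 - 4 * pv β0 ρ * pv β2 ρ) = 0 := by
      rw [← h2]
      have k : ∀ i j, (dat D a b c d).b i j = qf a b c d (β0 j) (β1 j) (β2 j) i := by
        intro i j
        rw [hβ0, hβ1, hβ2]
        rfl
      simp only [pv7_eq, k]
      simp only [qf, Matrix.cons_val_zero, Matrix.cons_val_one, Matrix.cons_val]
      ring
    exact (mul_eq_zero.1 h3).resolve_left (pow_ne_zero 2 hδ)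
  -- the lowest coefficient
  have ha : a = 0 := by
    obtain ⟨γ, hγ⟩ : ∃ γ : (Fin 7 → ℂ) → ℂ → ℂ, γ = fun k s => k 1 + k 2 * s + k 3 * s ^ 2 +
      k 4 * s ^ 3 + k 5 * s ^ 4 + k 6 * s ^ 5 := ⟨_, rfl⟩
    have h2 : ∀ (k : Fin 7 → ℂ) (s : ℂ), pv k s = k 0 + s * γ k s := by
      intro k s
      rw [pv7_eq, hγ]
      ring
    have h3 : β1 0 ^ 2 - 4 * β0 0 * β2 0 = 0 := by
      rw [hβ0, hβ1, hβ2]
      simp only [bt0, bt1, bt2, b00, b10, b20, Matrix.cons_val_zero]
      ring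
    have h4 : ∀ s : ℂ, 2 * β1 0 * γ β1 s - 4 * (β0 0 * γ β2 s + β2 0 * γ β0 s) +
        s * (γ β1 s ^ 2 - 4 * γ β0 s * γ β2 s) = 0 := by
      have hc : Continuous fun s => 2 * β1 0 * γ β1 s - 4 * (β0 0 * γ β2 s + β2 0 * γ β0 s) +
        s * (γ β1 s ^ 2 - 4 * γ β0 s * γ β2 s) := by
        rw [hγ]
        fun_prop
      have h5 := Continuous.ext_on (dense_compl_singleton (0 : ℂ)) hc continuous_const
        (g := fun _ => 0) (fun s hs => by
          have hs' : s ≠ 0 := hs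
          apply mul_left_cancel₀ hs'
          have k4 := h1 s
          rw [h2, h2, h2] at k4
          linear_combination k4 - h3)
      intro s
      exact congrFun h5 s
    have h5 := h4 0
    rw [hγ, hβ0, hβ1, hβ2] at h5
    simp only [bt0, bt1, bt2, b00, b10, b20, b01, b11, b21, Matrix.cons_val_zero,
      Matrix.cons_val_one] at h5
    have h6 : (256 * (D ^ 6 * (D + 1) ^ 6)) * a ^ 4 = 0 := by linear_combination h5
    exact pow_eq_zero_iff (four_ne_zero) |>.1 ((mul_eq_zero.1 h6).resolve_left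
      (mul_ne_zero (by norm_num) (mul_ne_zero (pow_ne_zero 6 hD) (pow_ne_zero 6 hP))))
  -- the reversed polynomials
  have hd : d = 0 := by
    obtain ⟨γ, hγ⟩ : ∃ γ : (Fin 7 → ℂ) → ℂ → ℂ, γ = fun k s => k 5 + k 4 * s + k 3 * s ^ 2 +
      k 2 * s ^ 3 + k 1 * s ^ 4 + k 0 * s ^ 5 := ⟨_, rfl⟩
    have h2 : ∀ (k : Fin 7 → ℂ) (s : ℂ), s ≠ 0 → k 6 + s * γ k s = s ^ 6 * pv k s⁻¹ := by
      intro k s hs
      rw [pv7_eq, hγ]
      field_simp
      ring
    have h3 : β1 6 ^ 2 - 4 * β0 6 * β2 6 = 0 := by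
      rw [hβ0, hβ1, hβ2]
      simp only [bt0, bt1, bt2, b06, b16, b26, Matrix.cons_val]
      ring
    have h4 : ∀ s : ℂ, 2 * β1 6 * γ β1 s - 4 * (β0 6 * γ β2 s + β2 6 * γ β0 s) +
        s * (γ β1 s ^ 2 - 4 * γ β0 s * γ β2 s) = 0 := by
      have hc : Continuous fun s => 2 * β1 6 * γ β1 s - 4 * (β0 6 * γ β2 s + β2 6 * γ β0 s) +
        s * (γ β1 s ^ 2 - 4 * γ β0 s * γ β2 s) := by
        rw [hγ]
        fun_prop
      have h5 := Continuous.ext_on (dense_compl_singleton (0 : ℂ)) hc continuous_const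
        (g := fun _ => 0) (fun s hs => by
          have hs' : s ≠ 0 := hs
          apply mul_left_cancel₀ hs'
          have k0 := h2 β0 s hs'
          have k1 := h2 β1 s hs'
          have k2 := h2 β2 s hs'
          have k3 := h1 s⁻¹
          have k4 : (β1 6 + s * γ β1 s) ^ 2 - 4 * (β0 6 + s * γ β0 s) * (β2 6 + s * γ β2 s) =
              0 := by
            rw [k0, k1, k2]
            linear_combination s ^ 12 * k3
          linear_combination k4 - h3)
      intro s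
      exact congrFun h5 s
    have h5 := h4 0
    rw [hγ, hβ0, hβ1, hβ2] at h5
    simp only [bt0, bt1, bt2, b06, b16, b26, b05, b15, b25, Matrix.cons_val] at h5
    have h6 : (256 * (D ^ 6 * (D + 1) ^ 2)) * d ^ 4 = 0 := by linear_combination h5
    exact pow_eq_zero_iff (four_ne_zero) |>.1 ((mul_eq_zero.1 h6).resolve_left
      (mul_ne_zero (by norm_num) (mul_ne_zero (pow_ne_zero 6 hD) (pow_ne_zero 2 hP))))
  -- the middle coefficients
  have e1 := h1 1
  have e2 := h1 (-1)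
  rw [hβ0, hβ1, hβ2, ha, hd] at e1 e2
  simp only [pv7_eq, bt0, bt1, bt2, b00, b10, b20, b01, b11, b21, b02, b12, b22, b03, b13, b23,
    b04, b14, b24, b05, b15, b25, b06, b16, b26, Matrix.cons_val_zero, Matrix.cons_val_one,
    Matrix.cons_val] at e1 e2
  have k0 : (256 * (D ^ 2 * (D + 1) ^ 6)) ≠ 0 :=
    mul_ne_zero (by norm_num) (mul_ne_zero (pow_ne_zero 2 hD) (pow_ne_zero 6 hP))
  have f1 : (256 * (D ^ 2 * (D + 1) ^ 6)) * (c * ((D + 1) * b + c) + b * (b + c)) ^ 2 = 0 := by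
    linear_combination e1
  have f2 : (256 * (D ^ 2 * (D + 1) ^ 6)) * (c * ((D + 1) * b + c) - b * (b + c)) ^ 2 = 0 := by
    linear_combination -e2
  have g1 := pow_eq_zero_iff (two_ne_zero) |>.1 ((mul_eq_zero.1 f1).resolve_left k0)
  have g2 := pow_eq_zero_iff (two_ne_zero) |>.1 ((mul_eq_zero.1 f2).resolve_left k0)
  have hb : b ≠ 0 := fun hb => hδ (by rw [hd, hb]; ring)
  have hc : c ≠ 0 := fun hc => hδ (by rw [hd, hc]; ring)
  have m1 : (2 * b) * (b + c) = 0 := by linear_combination g1 - g2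
  have m2 : (2 * c) * ((D + 1) * b + c) = 0 := by linear_combination g1 + g2
  have n1 := (mul_eq_zero.1 m1).resolve_left (mul_ne_zero two_ne_zero hb)
  have n2 := (mul_eq_zero.1 m2).resolve_left (mul_ne_zero two_ne_zero hc)
  exact mul_ne_zero hD hb (by linear_combination n2 - n1)

end

end Vale.Agent.P297.H424.Fam
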