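import Vale.Agent.P297.H424.Fam.Gen2

/-!
Nonvanishing conditions for the family, continued.
-/

namespace Vale.Agent.P297.H424.Fam

open Vale.Agent.P297 Vale.Agent.P297.H839 Polynomial

set_option linter.unusedVariables false
set_option linter.unusedSimpArgs false
set_option linter.unusedSectionVars false

section

variable {D a b c d : ℂ}

/-- entry of the adjugate -/
def j00 (D a b c d x y : ℂ) : ℂ :=
  n11 D a b c d x y * n22 D a b c d x y - n12 D a b c d x y * n21 D a b c d x y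

/-- entry of the adjugate -/
def j01 (D a b c d x y : ℂ) : ℂ :=
  n02 D a b c d x y * n21 D a b c d x y - n01 D a b c d x y * n22 D a b c d x y

/-- entry of the adjugate -/
def j02 (D a b c d x y : ℂ) : ℂ :=
  n01 D a b c d x y * n12 D a b c d x y - n02 D a b c d x y * n11 D a b c d x y

/-- entry of the adjugate -/
def j10 (D a b c d x y : ℂ) : ℂ :=
  n12 D a b c d x y * n20 D a b c d x y - n10 D a b c d x y * n22 D a b c d x y

/-- entry of the adjugate -/
def j11 (D a b c d x y : ℂ) : ℂ :=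
  n00 D a b c d x y * n22 D a b c d x y - n02 D a b c d x y * n20 D a b c d x y

/-- entry of the adjugate -/
def j12 (D a b c d x y : ℂ) : ℂ :=
  n02 D a b c d x y * n10 D a b c d x y - n00 D a b c d x y * n12 D a b c d x y

/-- entry of the adjugate -/
def j20 (D a b c d x y : ℂ) : ℂ :=
  n10 D a b c d x y * n21 D a b c d x y - n11 D a b c d x y * n20 D a b c d x y

/-- entry of the adjugate -/
def j21 (D a b c d x y : ℂ) : ℂ :=
  n01 D a b c d x y * n20 D a b c d x y - n00 D a b c d x y * n21 D a b c d x y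

/-- entry of the adjugate -/
def j22 (D a b c d x y : ℂ) : ℂ :=
  n00 D a b c d x y * n11 D a b c d x y - n01 D a b c d x y * n10 D a b c d x y

theorem adjC (u : ℂ) : ((dat D a b c d).mat u).adjugate =
    !![j00 D a b c d (a * u + b) (c * u + d), j01 D a b c d (a * u + b) (c * u + d),
        j02 D a b c d (a * u + b) (c * u + d);
      j10 D a b c d (a * u + b) (c * u + d), j11 D a b c d (a * u + b) (c * u + d),
        j12 D a b c d (a * u + b) (c * u + d);
      j20 D a b c d (a * u + b) (c * u + d), j21 D a b c d (a * u + b) (c * u + d),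
        j22 D a b c d (a * u + b) (c * u + d)] := by
  rw [Matrix.adjugate_fin_three]
  simp only [matC]
  simp only [netM, Matrix.cons_val_zero, Matrix.cons_val_one, Matrix.cons_val, j00, j01, j02, j10,
    j11, j12, j20, j21, j22]
  ext i j
  fin_cases i <;> fin_cases j <;> simp <;> ring

/-- `X(x,l)` -/
def xi (D a b c d l x y : ℂ) : Fin 3 → ℂ :=
  ![j00 D a b c d x y - 2 * l * j01 D a b c d x y + l ^ 2 * j02 D a b c d x y,
    j10 D a b c d x y - 2 * l * j11 D a b c d x y + l ^ 2 * j12 D a b c d x y,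
    j20 D a b c d x y - 2 * l * j21 D a b c d x y + l ^ 2 * j22 D a b c d x y]

theorem xvC (u l : ℂ) (i : Fin 3) :
    (dat D a b c d).xv u l i = xi D a b c d l (a * u + b) (c * u + d) i := by
  unfold Net.xv
  rw [adjC]
  fin_cases i <;> simp [Matrix.mulVec, dotProduct, Fin.sum_univ_three, Net.sq, xi] <;> ring

theorem phiC (x : Fin 3 → ℂ) (M N : ℂ) :
    phi D a b c d (a * M + b * N) (c * M + d * N) (x 0) (x 1) (x 2) =
    (dat D a b c d).a2 x * M ^ 2 + (dat D a b c d).a1 x * (M * N) +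
      (dat D a b c d).a0 x * N ^ 2 := by
  have h := phi_eq D a b c d x M N
  simpa using h

theorem xi_11 : xi D a b c d (-1) 1 1 = ![0, 0, 2 * D ^ 3 * (a * d - b * c)] := by
  ext i
  fin_cases i <;> simp [xi, j00, j01, j02, j10, j11, j12, j20, j21, j22, n00, n01, n02, n10, n11,
    n12, n20, n21, n22] <;> ring

theorem xi_P1 : xi D a b c d 1 (D + 1) 1 = ![2 * D ^ 3 * (D + 1) ^ 3 * (a * d - b * c), 0, 0] := by
  ext i
  fin_cases i <;> simp [xi, j00, j01, j02, j10, j11, j12, j20, j21, j22, n00, n01, n02, n10, n11,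
    n12, n20, n21, n22] <;> ring

/-- the hypothesis of `keyP`, at `x` -/
theorem keyH (hδ : a * d - b * c ≠ 0) (X Y : ℂ)
    (h : ∀ u l : ℂ, phi D a b c d X Y ((dat D a b c d).xv u l 0) ((dat D a b c d).xv u l 1)
      ((dat D a b c d).xv u l 2) = 0) (l x y : ℂ) :
    phi D a b c d X Y (xi D a b c d l x y 0) (xi D a b c d l x y 1)
      (xi D a b c d l x y 2) = 0 :=
  vanish hδ
    (fun x y => phi D a b c d X Y (xi D a b c d l x y 0) (xi D a b c d l x y 1)
      (xi D a b c d l x y 2)) 4 (by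
    intro t x y
    have e : ∀ i, xi D a b c d l (t * x) (t * y) i = t ^ 2 * xi D a b c d l x y i := by
      intro i
      fin_cases i <;> simp [xi, j00, j01, j02, j10, j11, j12, j20, j21, j22, n00, n01, n02, n10,
        n11, n12, n20, n21, n22] <;> ring
    rw [e, e, e]
    unfold phi
    ring) (by
    simp only [phi, xi, j00, j01, j02, j10, j11, j12, j20, j21, j22, n00, n01, n02, n10,
        n11, n12, n20, n21, n22, Matrix.cons_val_zero, Matrix.cons_val_one, Matrix.cons_val]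
    fun_prop) (fun u _ => by
      have h2 := h u l
      rwa [xvC, xvC, xvC] at h2) x y

theorem keyP_ad (hD : D ≠ 0) (hP : D + 1 ≠ 0) (ha : a ≠ 0) (hd : d ≠ 0)
    (hδ : a * d - b * c ≠ 0) (X Y : ℂ)
    (h1 : ∀ l x y : ℂ, phi D a b c d X Y (xi D a b c d l x y 0) (xi D a b c d l x y 1)
      (xi D a b c d l x y 2) = 0) : X = 0 ∧ Y = 0 := by
  have e1 := h1 (-1) 1 1
  have e2 := h1 1 (D + 1) 1
  rw [xi_11] at e1
  rw [xi_P1] at e2
  simp only [phi, n00, n01, n02, n10, n11, n12, n20, n21, n22, Matrix.cons_val_zero,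
    Matrix.cons_val_one, Matrix.cons_val] at e1 e2
  have f1 : 16 * (D ^ 8 * (D + 1) ^ 2 * a * (a * d - b * c) ^ 2) *
      ((X - Y) * (c * X - a * Y)) = 0 := by linear_combination e1
  have f2 : 16 * (D ^ 8 * (D + 1) ^ 6 * d * (a * d - b * c) ^ 2) *
      ((X - (D + 1) * Y) * (d * X - b * Y)) = 0 := by linear_combination e2
  have g1 := (mul_eq_zero.1 f1).resolve_left (mul_ne_zero (by norm_num) (mul_ne_zero
    (mul_ne_zero (mul_ne_zero (pow_ne_zero 8 hD) (pow_ne_zero 2 hP)) ha) (pow_ne_zero 2 hδ)))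
  have g2 := (mul_eq_zero.1 f2).resolve_left (mul_ne_zero (by norm_num) (mul_ne_zero
    (mul_ne_zero (mul_ne_zero (pow_ne_zero 8 hD) (pow_ne_zero 6 hP)) hd) (pow_ne_zero 2 hδ)))
  have key : ∀ {Z : ℂ}, D ^ 11 * (D + 1) ^ 3 * (a * d) * (a * d - b * c) ^ 2 * Z ^ 2 = 0 →
      Z = 0 := by
    intro Z hZ
    have h5 := (mul_eq_zero.1 hZ).resolve_left (mul_ne_zero (mul_ne_zero (mul_ne_zero
      (pow_ne_zero 11 hD) (pow_ne_zero 3 hP)) (mul_ne_zero ha hd)) (pow_ne_zero 2 hδ))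
    exact pow_eq_zero_iff (two_ne_zero) |>.1 h5
  rcases mul_eq_zero.1 g1 with k1 | k1
  · have hX : X = Y := sub_eq_zero.1 k1
    have m1 := h1 1 (D + 1) 1
    have m2 := h1 (-1) (D + 1) 1
    have m3 := h1 2 (D + 1) 1
    have m4 := h1 (-2) (D + 1) 1
    rw [hX] at m1 m2 m3 m4
    simp only [phi, xi, j00, j01, j02, j10, j11, j12, j20, j21, j22, n00, n01, n02, n10,
        n11, n12, n20, n21, n22, Matrix.cons_val_zero, Matrix.cons_val_one, Matrix.cons_val]
      at m1 m2 m3 m4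
    have h5 : Y = 0 := by
      apply key
      linear_combination (-1 / 192) * (8 * (m1 - m2) - (m3 - m4))
    exact ⟨by rw [hX, h5], h5⟩
  · rcases mul_eq_zero.1 g2 with k2 | k2
    · have hX : X = (D + 1) * Y := sub_eq_zero.1 k2
      have m1 := h1 1 1 1
      have m2 := h1 (-1) 1 1
      have m3 := h1 2 1 1
      have m4 := h1 (-2) 1 1
      rw [hX] at m1 m2 m3 m4
      simp only [phi, xi, j00, j01, j02, j10, j11, j12, j20, j21, j22, n00, n01, n02, n10,
          n11, n12, n20, n21, n22, Matrix.cons_val_zero, Matrix.cons_val_one, Matrix.cons_val]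
        at m1 m2 m3 m4
      have h5 : Y = 0 := by
        apply key
        linear_combination ((D + 1) / 192) * ((m3 - m4) - 2 * (m1 - m2))
      exact ⟨by rw [hX, h5, mul_zero], h5⟩
    · constructor
      · have h5 : (a * d - b * c) * X = 0 := by linear_combination a * k2 - b * k1
        exact (mul_eq_zero.1 h5).resolve_left hδ
      · have h5 : (a * d - b * c) * Y = 0 := by linear_combination c * k2 - d * k1
        exact (mul_eq_zero.1 h5).resolve_left hδ

theorem keyP_d (hD : D ≠ 0) (hP : D + 1 ≠ 0) (ha : a = 0) (hd : d ≠ 0)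
    (hδ : a * d - b * c ≠ 0) (X Y : ℂ)
    (h1 : ∀ l x y : ℂ, phi D a b c d X Y (xi D a b c d l x y 0) (xi D a b c d l x y 1)
      (xi D a b c d l x y 2) = 0) : X = 0 ∧ Y = 0 := by
  subst ha
  have hY : Y = 0 := by
    have m0 := h1 0 1 0
    have m1 := h1 1 1 0
    have m2 := h1 (-1) 1 0
    have m3 := h1 2 1 0
    have m4 := h1 (-2) 1 0
    simp only [phi, xi, j00, j01, j02, j10, j11, j12, j20, j21, j22, n00, n01, n02, n10,
        n11, n12, n20, n21, n22, Matrix.cons_val_zero, Matrix.cons_val_one, Matrix.cons_val]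
      at m0 m1 m2 m3 m4
    have h5 : (16 * D ^ 6 * (D + 1) ^ 4 * (0 * d - b * c) ^ 2 * d ^ 2) * Y ^ 2 = 0 := by
      linear_combination (1 / 24) * (m3 - 4 * m1 + 6 * m0 - 4 * m2 + m4)
    exact pow_eq_zero_iff (two_ne_zero) |>.1 ((mul_eq_zero.1 h5).resolve_left (mul_ne_zero
      (mul_ne_zero (mul_ne_zero (mul_ne_zero (by norm_num) (pow_ne_zero 6 hD))
        (pow_ne_zero 4 hP)) (pow_ne_zero 2 hδ)) (pow_ne_zero 2 hd)))
  subst hY
  refine ⟨?_, rfl⟩
  have m0 := h1 0 0 1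
  have m1 := h1 1 0 1
  have m2 := h1 (-1) 0 1
  have m3 := h1 2 0 1
  have m4 := h1 (-2) 0 1
  have k1 := h1 1 (D + 1) 1
  have k2 := h1 (-1) (D + 1) 1
  have k3 := h1 2 (D + 1) 1
  have k4 := h1 (-2) (D + 1) 1
  simp only [phi, xi, j00, j01, j02, j10, j11, j12, j20, j21, j22, n00, n01, n02, n10,
      n11, n12, n20, n21, n22, Matrix.cons_val_zero, Matrix.cons_val_one, Matrix.cons_val]
    at m0 m1 m2 m3 m4 k1 k2 k3 k4
  have h5 : (16 * D ^ 8 * (D + 1) ^ 5 * (0 * d - b * c) ^ 2 * d ^ 2) * X ^ 2 = 0 := by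
    linear_combination (D ^ 2 * (D + 1) / 24) * (m3 - 4 * m1 + 6 * m0 - 4 * m2 + m4) -
      (1 / 12) * (8 * (k1 - k2) - (k3 - k4))
  exact pow_eq_zero_iff (two_ne_zero) |>.1 ((mul_eq_zero.1 h5).resolve_left (mul_ne_zero
    (mul_ne_zero (mul_ne_zero (mul_ne_zero (by norm_num) (pow_ne_zero 8 hD))
      (pow_ne_zero 5 hP)) (pow_ne_zero 2 hδ)) (pow_ne_zero 2 hd)))

theorem keyP_a (hD : D ≠ 0) (hP : D + 1 ≠ 0) (ha : a ≠ 0) (hd : d = 0)
    (hδ : a * d - b * c ≠ 0) (X Y : ℂ)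
    (h1 : ∀ l x y : ℂ, phi D a b c d X Y (xi D a b c d l x y 0) (xi D a b c d l x y 1)
      (xi D a b c d l x y 2) = 0) : X = 0 ∧ Y = 0 := by
  subst hd
  have hX : X = 0 := by
    have m0 := h1 0 0 1
    simp only [phi, xi, j00, j01, j02, j10, j11, j12, j20, j21, j22, n00, n01, n02, n10,
        n11, n12, n20, n21, n22, Matrix.cons_val_zero, Matrix.cons_val_one, Matrix.cons_val]
      at m0
    have h5 : (16 * D ^ 6 * (D + 1) ^ 2 * (a * 0 - b * c) ^ 2 * a ^ 2) * X ^ 2 = 0 := by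
      linear_combination m0
    exact pow_eq_zero_iff (two_ne_zero) |>.1 ((mul_eq_zero.1 h5).resolve_left (mul_ne_zero
      (mul_ne_zero (mul_ne_zero (mul_ne_zero (by norm_num) (pow_ne_zero 6 hD))
        (pow_ne_zero 2 hP)) (pow_ne_zero 2 hδ)) (pow_ne_zero 2 ha)))
  subst hX
  refine ⟨rfl, ?_⟩
  have m0 := h1 0 1 0
  have k1 := h1 1 1 1
  have k2 := h1 (-1) 1 1
  have k3 := h1 2 1 1
  have k4 := h1 (-2) 1 1
  simp only [phi, xi, j00, j01, j02, j10, j11, j12, j20, j21, j22, n00, n01, n02, n10,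
      n11, n12, n20, n21, n22, Matrix.cons_val_zero, Matrix.cons_val_one, Matrix.cons_val]
    at m0 k1 k2 k3 k4
  have h5 : (16 * D ^ 8 * (D + 1) * (a * 0 - b * c) ^ 2 * a ^ 2) * Y ^ 2 = 0 := by
    linear_combination D ^ 2 * (D + 1) * m0 + (1 / 12) * ((k3 - k4) - 2 * (k1 - k2))
  exact pow_eq_zero_iff (two_ne_zero) |>.1 ((mul_eq_zero.1 h5).resolve_left (mul_ne_zero
    (mul_ne_zero (mul_ne_zero (mul_ne_zero (by norm_num) (pow_ne_zero 8 hD))
      hP) (pow_ne_zero 2 hδ)) (pow_ne_zero 2 ha)))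

theorem keyP_0 (hD : D ≠ 0) (hP : D + 1 ≠ 0) (ha : a = 0) (hd : d = 0)
    (hδ : a * d - b * c ≠ 0) (X Y : ℂ)
    (h1 : ∀ l x y : ℂ, phi D a b c d X Y (xi D a b c d l x y 0) (xi D a b c d l x y 1)
      (xi D a b c d l x y 2) = 0) : X = 0 ∧ Y = 0 := by
  subst ha
  subst hd
  have hb : b ≠ 0 := fun hb => hδ (by rw [hb]; ring)
  have hc : c ≠ 0 := fun hc => hδ (by rw [hc]; ring)
  have m0 := h1 0 1 0
  have m1 := h1 1 1 0
  have m2 := h1 (-1) 1 0
  have m3 := h1 2 1 0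
  have m4 := h1 (-2) 1 0
  have k0 := h1 0 0 1
  have k1 := h1 1 0 1
  have k2 := h1 (-1) 0 1
  have k3 := h1 2 0 1
  have k4 := h1 (-2) 0 1
  simp only [phi, xi, j00, j01, j02, j10, j11, j12, j20, j21, j22, n00, n01, n02, n10,
      n11, n12, n20, n21, n22, Matrix.cons_val_zero, Matrix.cons_val_one, Matrix.cons_val]
    at m0 m1 m2 m3 m4 k0 k1 k2 k3 k4
  have hK : (16 * D ^ 3 * (D + 1) ^ 4 * (0 * 0 - b * c) ^ 2) ≠ 0 :=
    mul_ne_zero (mul_ne_zero (mul_ne_zero (by norm_num) (pow_ne_zero 3 hD))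
      (pow_ne_zero 4 hP)) (pow_ne_zero 2 hδ)
  have hK' : (16 * D ^ 3 * (D + 1) ^ 5 * (0 * 0 - b * c) ^ 2) ≠ 0 :=
    mul_ne_zero (mul_ne_zero (mul_ne_zero (by norm_num) (pow_ne_zero 3 hD))
      (pow_ne_zero 5 hP)) (pow_ne_zero 2 hδ)
  have f1 : (16 * D ^ 3 * (D + 1) ^ 4 * (0 * 0 - b * c) ^ 2) *
      (Y * (X - Y) * ((b + c) * ((D + 1) * b + c))) = 0 := by
    linear_combination (-1 / 12) * (8 * (m1 - m2) - (m3 - m4))
  have f3 : (16 * D ^ 3 * (D + 1) ^ 4 * (0 * 0 - b * c) ^ 2) *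
      (Y * (X - (D + 1) * Y) * (b + c) ^ 2) = 0 := by
    linear_combination (-1 / 12) * ((m3 - m4) - 2 * (m1 - m2))
  have f2 : (16 * D ^ 3 * (D + 1) ^ 4 * (0 * 0 - b * c) ^ 2) *
      (Y * (X * (c ^ 2 - b ^ 2) + Y * (b ^ 2 - c ^ 2 - 2 * D * b * c - D * c ^ 2 - D ^ 2 * b * c -
        D ^ 2 * b ^ 2))) = 0 := by
    linear_combination (1 / 24) * (16 * (m1 + m2) - (m3 + m4) - 30 * m0)
  have g1 : (16 * D ^ 3 * (D + 1) ^ 5 * (0 * 0 - b * c) ^ 2) *
      (X * (X - Y) * ((D + 1) * b + c) ^ 2) = 0 := by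
    linear_combination (-1 / 12) * (8 * (k1 - k2) - (k3 - k4))
  have g2 : (16 * D ^ 3 * (D + 1) ^ 5 * (0 * 0 - b * c) ^ 2) *
      (X * (X * (-2 * D * b * c - 2 * D * b ^ 2 - D * c ^ 2 - D ^ 2 * b * c - D ^ 2 * b ^ 2 -
        b ^ 2 + c ^ 2) + Y * (2 * D * b ^ 2 + D ^ 2 * b ^ 2 + b ^ 2 - c ^ 2))) = 0 := by
    linear_combination (1 / 24) * (16 * (k1 + k2) - (k3 + k4) - 30 * k0)
  replace f1 := (mul_eq_zero.1 f1).resolve_left hK
  replace f2 := (mul_eq_zero.1 f2).resolve_left hK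
  replace f3 := (mul_eq_zero.1 f3).resolve_left hK
  replace g1 := (mul_eq_zero.1 g1).resolve_left hK'
  replace g2 := (mul_eq_zero.1 g2).resolve_left hK'
  by_cases hs : b + c = 0
  · have hc' : c = -b := by linear_combination hs
    rw [hc'] at f2 g1
    have hY : Y = 0 := by
      have h5 : (D * b ^ 2) * Y ^ 2 = 0 := by linear_combination f2
      exact pow_eq_zero_iff (two_ne_zero) |>.1 ((mul_eq_zero.1 h5).resolve_left (mul_ne_zero
        hD (pow_ne_zero 2 hb)))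
    rw [hY] at g1
    have h5 : (D ^ 2 * b ^ 2) * X ^ 2 = 0 := by linear_combination g1
    exact ⟨pow_eq_zero_iff (two_ne_zero) |>.1 ((mul_eq_zero.1 h5).resolve_left (mul_ne_zero
      (pow_ne_zero 2 hD) (pow_ne_zero 2 hb))), hY⟩
  · by_cases hs' : (D + 1) * b + c = 0
    · have hc' : c = -((D + 1) * b) := by linear_combination hs'
      have hX : X = 0 := by
        rw [hc'] at g2
        have h5 : (D * (D + 1) * b ^ 2) * X ^ 2 = 0 := by linear_combination g2
        exact pow_eq_zero_iff (two_ne_zero) |>.1 ((mul_eq_zero.1 h5).resolve_left (mul_ne_zero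
          (mul_ne_zero hD hP) (pow_ne_zero 2 hb)))
      rw [hX] at f3
      have h5 : ((D + 1) * (b + c) ^ 2) * Y ^ 2 = 0 := by linear_combination -f3
      exact ⟨hX, pow_eq_zero_iff (two_ne_zero) |>.1 ((mul_eq_zero.1 h5).resolve_left
        (mul_ne_zero hP (pow_ne_zero 2 hs)))⟩
    · have q1 := (mul_eq_zero.1 f1).resolve_right (mul_ne_zero hs hs')
      have q3 := (mul_eq_zero.1 f3).resolve_right (pow_ne_zero 2 hs)
      have q2 := (mul_eq_zero.1 g1).resolve_right (pow_ne_zero 2 hs')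
      have hY : Y = 0 := by
        have h5 : D * Y ^ 2 = 0 := by linear_combination q1 - q3
        exact pow_eq_zero_iff (two_ne_zero) |>.1 ((mul_eq_zero.1 h5).resolve_left hD)
      rw [hY, sub_zero] at q2
      exact ⟨mul_self_eq_zero.1 q2, hY⟩

theorem keyP (hD : D ≠ 0) (hP : D + 1 ≠ 0)
    (hδ : a * d - b * c ≠ 0) (X Y : ℂ)
    (h : ∀ u l : ℂ, phi D a b c d X Y ((dat D a b c d).xv u l 0) ((dat D a b c d).xv u l 1)
      ((dat D a b c d).xv u l 2) = 0) : X = 0 ∧ Y = 0 := by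
  have h1 := keyH hδ X Y h
  by_cases ha : a = 0
  · by_cases hd : d = 0
    · exact keyP_0 hD hP ha hd hδ X Y h1
    · exact keyP_d hD hP ha hd hδ X Y h1
  · by_cases hd : d = 0
    · exact keyP_a hD hP ha hd hδ X Y h1
    · exact keyP_ad hD hP ha hd hδ X Y h1

end

end Vale.Agent.P297.H424.Fam
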