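import Vale.Agent.P297.H424.Fam.Gen3

/-!
Nonvanishing conditions for the family, continued.
-/

namespace Vale.Agent.P297.H424.Fam

open Vale.Agent.P297 Vale.Agent.P297.H839 Polynomial

set_option linter.unusedVariables false
set_option linter.unusedSimpArgs false
set_option linter.unusedSectionVars false

section

variable {D a b c d : ℂ}

theorem gen_ha2 (hD : D ≠ 0) (hP : D + 1 ≠ 0)
    (hδ : a * d - b * c ≠ 0) : ∃ u0 l0 : ℂ,
    (dat D a b c d).a2 ((dat D a b c d).xv u0 l0) ≠ 0 := by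
  by_contra h
  push Not at h
  have h1 := keyP hD hP hδ (a * 1 + b * 0) (c * 1 + d * 0) (fun u l => by
    rw [phiC, h u l]
    ring)
  apply hδ
  linear_combination d * h1.1 - b * h1.2

theorem gen_hk (hD : D ≠ 0) (hP : D + 1 ≠ 0)
    (hδ : a * d - b * c ≠ 0) (k : ℂ) : ∃ u0 l0 : ℂ,
    (dat D a b c d).a2 ((dat D a b c d).xv u0 l0) * k ^ 2 +
      (dat D a b c d).a1 ((dat D a b c d).xv u0 l0) * k +
      (dat D a b c d).a0 ((dat D a b c d).xv u0 l0) ≠ 0 := by
  by_contra h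
  push Not at h
  have h1 := keyP hD hP hδ (a * k + b * 1) (c * k + d * 1) (fun u l => by
    rw [phiC]
    linear_combination h u l)
  apply hδ
  linear_combination c * (-1) * h1.1 + a * h1.2

theorem a2C (x : Fin 3 → ℂ) : (dat D a b c d).a2 x = phi D a b c d a c (x 0) (x 1) (x 2) := by
  have h := phiC (D := D) (a := a) (b := b) (c := c) (d := d) x 1 0
  rw [mul_one, mul_zero, add_zero, mul_one, mul_zero, add_zero] at h
  rw [h]
  ring

theorem a1C (x : Fin 3 → ℂ) : (dat D a b c d).a1 x =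
    2 * (n10 D a b c d b d * x 0 + n11 D a b c d b d * x 1 + n12 D a b c d b d * x 2) *
      (n10 D a b c d a c * x 0 + n11 D a b c d a c * x 1 + n12 D a b c d a c * x 2) -
    4 * ((n00 D a b c d b d * x 0 + n01 D a b c d b d * x 1 + n02 D a b c d b d * x 2) *
      (n20 D a b c d a c * x 0 + n21 D a b c d a c * x 1 + n22 D a b c d a c * x 2) +
      (n20 D a b c d b d * x 0 + n21 D a b c d b d * x 1 + n22 D a b c d b d * x 2) *
      (n00 D a b c d a c * x 0 + n01 D a b c d a c * x 1 + n02 D a b c d a c * x 2)) := by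
  simp only [Net.a1, be_eq, al_eq, netM, Matrix.cons_val_zero,
    Matrix.cons_val_one, Matrix.cons_val, Algebra.algebraMap_self, RingHom.id_apply]

theorem be0C (x : Fin 3 → ℂ) : (dat D a b c d).be x 0 =
    n00 D a b c d a c * x 0 + n01 D a b c d a c * x 1 + n02 D a b c d a c * x 2 := by
  simp only [be_eq, netM, Matrix.cons_val_zero,
    Matrix.cons_val_one, Matrix.cons_val, Algebra.algebraMap_self, RingHom.id_apply]

theorem al0C (x : Fin 3 → ℂ) : (dat D a b c d).al x 0 =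
    n00 D a b c d b d * x 0 + n01 D a b c d b d * x 1 + n02 D a b c d b d * x 2 := by
  simp only [al_eq, netM, Matrix.cons_val_zero,
    Matrix.cons_val_one, Matrix.cons_val, Algebra.algebraMap_self, RingHom.id_apply]

theorem xi_hom (l t x y : ℂ) (i : Fin 3) :
    xi D a b c d l (t * x) (t * y) i = t ^ 2 * xi D a b c d l x y i := by
  fin_cases i <;> simp [xi, j00, j01, j02, j10, j11, j12, j20, j21, j22, n00, n01, n02, n10,
        n11, n12, n20, n21, n22] <;> ring

theorem xi_0 : xi D a b c d 0 1 1 = ![2 * D ^ 3 * (a * (c - a)), -(2 * D ^ 3 * (a * (d - b))),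
    -(2 * D ^ 3 * (b * (d - b)))] := by
  ext i
  fin_cases i <;> simp [xi, j00, j01, j02, j10, j11, j12, j20, j21, j22, n00, n01, n02, n10, n11,
    n12, n20, n21, n22] <;> ring

/-- the expression of `hm`, at `x` -/
def hmx (D a b c d u x0 x1 x2 : ℂ) : ℂ :=
  phi D a b c d a c x0 x1 x2 *
    (n00 D a b c d b d * x0 + n01 D a b c d b d * x1 + n02 D a b c d b d * x2) +
  (-(2 * (n10 D a b c d b d * x0 + n11 D a b c d b d * x1 + n12 D a b c d b d * x2) *
      (n10 D a b c d a c * x0 + n11 D a b c d a c * x1 + n12 D a b c d a c * x2) -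
    4 * ((n00 D a b c d b d * x0 + n01 D a b c d b d * x1 + n02 D a b c d b d * x2) *
      (n20 D a b c d a c * x0 + n21 D a b c d a c * x1 + n22 D a b c d a c * x2) +
      (n20 D a b c d b d * x0 + n21 D a b c d b d * x1 + n22 D a b c d b d * x2) *
      (n00 D a b c d a c * x0 + n01 D a b c d a c * x1 + n02 D a b c d a c * x2))) -
      u * phi D a b c d a c x0 x1 x2) *
    (n00 D a b c d a c * x0 + n01 D a b c d a c * x1 + n02 D a b c d a c * x2)

theorem hmx_hom (u t x0 x1 x2 : ℂ) :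
    hmx D a b c d u (t * x0) (t * x1) (t * x2) = t ^ 3 * hmx D a b c d u x0 x1 x2 := by
  unfold hmx phi
  ring

theorem hmx_P (u : ℂ) : hmx D a b c d u 1 0 0 = 4 * D ^ 4 * d ^ 3 * (a - (D + 1) * c) *
    (a * d - b * c) -
    4 * D ^ 4 * d ^ 2 * c * (a * d - b * c) * (u * (a - (D + 1) * c) - ((D + 1) * d - b)) := by
  simp only [hmx, phi, n00, n01, n02, n10, n11, n12, n20, n21, n22]
  ring

theorem hmx_1 (u : ℂ) : (a - c) * hmx D a b c d u (a * (c - a)) (-(a * (d - b)))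
    (-(b * (d - b))) = -4 * (D ^ 4 * a ^ 3 * ((a - c) ^ 2 * (a * d - b * c) ^ 4)) -
    phi D a b c d a c (a * (c - a)) (-(a * (d - b))) (-(b * (d - b))) *
      (n00 D a b c d a c * (a * (c - a)) + n01 D a b c d a c * (-(a * (d - b))) +
        n02 D a b c d a c * (-(b * (d - b)))) * (u * (a - c) - (d - b)) := by
  simp only [hmx, phi, n00, n01, n02, n10, n11, n12, n20, n21, n22]
  ring

theorem hmC (u l : ℂ) : (dat D a b c d).a2 ((dat D a b c d).xv u l) *
      (dat D a b c d).al ((dat D a b c d).xv u l) 0 +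
    (-((dat D a b c d).a1 ((dat D a b c d).xv u l)) -
      u * (dat D a b c d).a2 ((dat D a b c d).xv u l)) *
      (dat D a b c d).be ((dat D a b c d).xv u l) 0 =
      hmx D a b c d u (xi D a b c d l (a * u + b) (c * u + d) 0)
        (xi D a b c d l (a * u + b) (c * u + d) 1) (xi D a b c d l (a * u + b) (c * u + d) 2) := by
  rw [a2C, a1C, be0C, al0C, xvC, xvC, xvC]
  rfl

/-- the point `(1, 1)` -/
theorem hm_one (hD : D ≠ 0) (ha : a ≠ 0) (hs' : a - c ≠ 0)
    (hδ : a * d - b * c ≠ 0) : ∃ u0 l0 : ℂ,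
    (dat D a b c d).a2 ((dat D a b c d).xv u0 l0) *
      (dat D a b c d).al ((dat D a b c d).xv u0 l0) 0 +
    (-((dat D a b c d).a1 ((dat D a b c d).xv u0 l0)) -
      u0 * (dat D a b c d).a2 ((dat D a b c d).xv u0 l0)) *
      (dat D a b c d).be ((dat D a b c d).xv u0 l0) 0 ≠ 0 := by
    obtain ⟨u, hu⟩ : ∃ u, u = (d - b) / (a - c) := ⟨_, rfl⟩
    obtain ⟨t, ht⟩ : ∃ t, t = (a * d - b * c) / (a - c) := ⟨_, rfl⟩
    have hu' : u * (a - c) = d - b := by rw [hu]; exact div_mul_cancel₀ _ hs'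
    have ht' : t * (a - c) = a * d - b * c := by rw [ht]; exact div_mul_cancel₀ _ hs'
    have ht0 : t ≠ 0 := by rw [ht]; exact div_ne_zero hδ hs'
    have hx : a * u + b = t * 1 := by
      apply mul_right_cancel₀ hs'
      linear_combination a * hu' - ht'
    have hy : c * u + d = t * 1 := by
      apply mul_right_cancel₀ hs'
      linear_combination c * hu' - ht'
    refine ⟨u, 0, ?_⟩
    rw [hmC, hx, hy, xi_hom, xi_hom, xi_hom, xi_0]
    simp only [Matrix.cons_val_zero, Matrix.cons_val_one, Matrix.cons_val]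
    intro h
    have e0 : t ^ 2 * (2 * D ^ 3 * (a * (c - a))) = (2 * t ^ 2 * D ^ 3) * (a * (c - a)) := by ring
    have e1 : t ^ 2 * -(2 * D ^ 3 * (a * (d - b))) = (2 * t ^ 2 * D ^ 3) * (-(a * (d - b))) := by
      ring
    have e2 : t ^ 2 * -(2 * D ^ 3 * (b * (d - b))) = (2 * t ^ 2 * D ^ 3) * (-(b * (d - b))) := by
      ring
    rw [e0, e1, e2, hmx_hom] at h
    have h2 := (mul_eq_zero.1 h).resolve_left (pow_ne_zero 3 (mul_ne_zero (mul_ne_zero
      two_ne_zero (pow_ne_zero 2 ht0)) (pow_ne_zero 3 hD)))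
    have h3 := hmx_1 (D := D) (a := a) (b := b) (c := c) (d := d) u
    rw [h2, hu', sub_self, mul_zero, mul_zero, sub_zero] at h3
    exact mul_ne_zero (by norm_num) (mul_ne_zero (mul_ne_zero (pow_ne_zero 4 hD)
      (pow_ne_zero 3 ha)) (mul_ne_zero (pow_ne_zero 2 hs') (pow_ne_zero 4 hδ))) h3.symm

/-- the case `d ≠ 0` -/
theorem hm_d (hD : D ≠ 0) (hP : D + 1 ≠ 0) (hd : d ≠ 0)
    (hδ : a * d - b * c ≠ 0) : ∃ u0 l0 : ℂ,
    (dat D a b c d).a2 ((dat D a b c d).xv u0 l0) *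
      (dat D a b c d).al ((dat D a b c d).xv u0 l0) 0 +
    (-((dat D a b c d).a1 ((dat D a b c d).xv u0 l0)) -
      u0 * (dat D a b c d).a2 ((dat D a b c d).xv u0 l0)) *
      (dat D a b c d).be ((dat D a b c d).xv u0 l0) 0 ≠ 0 := by
  by_cases hs : a - (D + 1) * c = 0
  · have ha : a ≠ 0 := by
      intro ha
      have h1 : (D + 1) * c = 0 := by linear_combination ha - hs
      have hc := (mul_eq_zero.1 h1).resolve_left hP
      exact hδ (by rw [ha, hc]; ring)
    have hs' : a - c ≠ 0 := by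
      intro h
      have h2 : D * a = 0 := by linear_combination (D + 1) * h - hs
      exact mul_ne_zero hD ha h2
    exact hm_one hD ha hs' hδ
  · obtain ⟨u, hu⟩ : ∃ u, u = ((D + 1) * d - b) / (a - (D + 1) * c) := ⟨_, rfl⟩
    obtain ⟨t, ht⟩ : ∃ t, t = (a * d - b * c) / (a - (D + 1) * c) := ⟨_, rfl⟩
    have hu' : u * (a - (D + 1) * c) = (D + 1) * d - b := by rw [hu]; exact div_mul_cancel₀ _ hs
    have ht' : t * (a - (D + 1) * c) = a * d - b * c := by rw [ht]; exact div_mul_cancel₀ _ hs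
    have ht0 : t ≠ 0 := by rw [ht]; exact div_ne_zero hδ hs
    have hx : a * u + b = t * (D + 1) := by
      apply mul_right_cancel₀ hs
      linear_combination a * hu' - (D + 1) * ht'
    have hy : c * u + d = t * 1 := by
      apply mul_right_cancel₀ hs
      linear_combination c * hu' - ht'
    refine ⟨u, 1, ?_⟩
    rw [hmC, hx, hy, xi_hom, xi_hom, xi_hom, xi_P1]
    simp only [Matrix.cons_val_zero, Matrix.cons_val_one, Matrix.cons_val]
    intro h
    have e0 : t ^ 2 * (2 * D ^ 3 * (D + 1) ^ 3 * (a * d - b * c)) =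
      (2 * t ^ 2 * D ^ 3 * (D + 1) ^ 3 * (a * d - b * c)) * 1 := by ring
    have e1 : t ^ 2 * 0 = (2 * t ^ 2 * D ^ 3 * (D + 1) ^ 3 * (a * d - b * c)) * 0 := by ring
    rw [e0, e1, hmx_hom, hmx_P, hu', sub_self, mul_zero, sub_zero] at h
    exact mul_ne_zero (pow_ne_zero 3 (mul_ne_zero (mul_ne_zero (mul_ne_zero (mul_ne_zero
      two_ne_zero (pow_ne_zero 2 ht0)) (pow_ne_zero 3 hD)) (pow_ne_zero 3 hP)) hδ))
      (mul_ne_zero (mul_ne_zero (mul_ne_zero (mul_ne_zero (by norm_num) (pow_ne_zero 4 hD))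
      (pow_ne_zero 3 hd)) hs) hδ) h

/-- the case `d = 0`, `a ≠ 0` -/
theorem hm_a (hD : D ≠ 0) (hP : D + 1 ≠ 0) (ha : a ≠ 0) (hd : d = 0)
    (hδ : a * d - b * c ≠ 0) : ∃ u0 l0 : ℂ,
    (dat D a b c d).a2 ((dat D a b c d).xv u0 l0) *
      (dat D a b c d).al ((dat D a b c d).xv u0 l0) 0 +
    (-((dat D a b c d).a1 ((dat D a b c d).xv u0 l0)) -
      u0 * (dat D a b c d).a2 ((dat D a b c d).xv u0 l0)) *
      (dat D a b c d).be ((dat D a b c d).xv u0 l0) 0 ≠ 0 := by
  by_cases hs' : a - c = 0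
  · subst hd
    have hac : a = c := sub_eq_zero.1 hs'
    subst hac
    have hb : b ≠ 0 := fun hb => hδ (by rw [hb]; ring)
    by_cases hq : (D + 1) ^ 2 * (b + a) - a = 0
    · -- the point `(0, 1)`
      obtain ⟨u, hu⟩ : ∃ u, u = -b / a := ⟨_, rfl⟩
      have hu' : a * u = -b := by rw [hu]; field_simp
      have hx : a * u + b = (-b) * 0 := by rw [hu']; ring
      have hy : a * u + 0 = (-b) * 1 := by rw [hu']; ring
      refine ⟨u, 0, ?_⟩
      rw [hmC, hx, hy, xi_hom, xi_hom, xi_hom, hmx_hom]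
      intro h
      have h2 := (mul_eq_zero.1 h).resolve_left (pow_ne_zero 3 (pow_ne_zero 2
        (neg_ne_zero.2 hb)))
      have h3 : (32 * D ^ 7 * (D + 1) ^ 4 * (a * 0 - b * a) ^ 4 * a ^ 4) *
          ((D + 1) ^ 2 * b + (D + 1) * a - a * (D ^ 2 - D + 1)) = 0 := by
        have h4 : a * hmx D a b a 0 u (xi D a b a 0 0 0 1 0) (xi D a b a 0 0 0 1 1)
            (xi D a b a 0 0 0 1 2) = (32 * D ^ 7 * (D + 1) ^ 4 * (a * 0 - b * a) ^ 4 * a ^ 4) *
          ((D + 1) ^ 2 * b + (D + 1) * a - a * (D ^ 2 - D + 1)) -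
            phi D a b a 0 a a (xi D a b a 0 0 0 1 0) (xi D a b a 0 0 0 1 1)
            (xi D a b a 0 0 0 1 2) * (n00 D a b a 0 a a * xi D a b a 0 0 0 1 0 +
              n01 D a b a 0 a a * xi D a b a 0 0 0 1 1 +
              n02 D a b a 0 a a * xi D a b a 0 0 0 1 2) * (a * u + b) := by
          simp only [hmx, phi, xi, j00, j01, j02, j10, j11, j12, j20, j21, j22, n00, n01, n02, n10,
            n11, n12, n20, n21, n22, Matrix.cons_val_zero, Matrix.cons_val_one, Matrix.cons_val]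
          ring
        rw [h2, hu'] at h4
        linear_combination -h4
      have h5 := (mul_eq_zero.1 h3).resolve_left (mul_ne_zero (mul_ne_zero (mul_ne_zero
        (mul_ne_zero (by norm_num) (pow_ne_zero 7 hD)) (pow_ne_zero 4 hP)) (pow_ne_zero 4 hδ))
        (pow_ne_zero 4 ha))
      have h6 : (2 * D ^ 2) * a = 0 := by linear_combination hq - h5
      exact mul_ne_zero (mul_ne_zero two_ne_zero (pow_ne_zero 2 hD)) ha h6
    · -- the point `(1, 0)`
      have hx : a * 0 + b = b * 1 := by ring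
      have hy : a * 0 + 0 = b * 0 := by ring
      refine ⟨0, 0, ?_⟩
      rw [hmC, hx, hy, xi_hom, xi_hom, xi_hom, hmx_hom]
      intro h
      have h2 := (mul_eq_zero.1 h).resolve_left (pow_ne_zero 3 (pow_ne_zero 2 hb))
      have h3 : (32 * D ^ 7 * (a * 0 - b * a) ^ 4 * a ^ 3) *
          ((D + 1) ^ 2 * (b + a) - a) = 0 := by
        refine Eq.trans ?_ h2
        simp only [hmx, phi, xi, j00, j01, j02, j10, j11, j12, j20, j21, j22, n00, n01, n02, n10,
          n11, n12, n20, n21, n22, Matrix.cons_val_zero, Matrix.cons_val_one, Matrix.cons_val]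
        ring
      exact mul_ne_zero (mul_ne_zero (mul_ne_zero (mul_ne_zero (by norm_num) (pow_ne_zero 7 hD))
        (pow_ne_zero 4 hδ)) (pow_ne_zero 3 ha)) hq h3
  · exact hm_one hD ha hs' hδ

/-- the case `a = d = 0` -/
theorem hm_0 (hD : D ≠ 0) (hP : D + 1 ≠ 0) (ha : a = 0) (hd : d = 0)
    (hδ : a * d - b * c ≠ 0) : ∃ u0 l0 : ℂ,
    (dat D a b c d).a2 ((dat D a b c d).xv u0 l0) *
      (dat D a b c d).al ((dat D a b c d).xv u0 l0) 0 +
    (-((dat D a b c d).a1 ((dat D a b c d).xv u0 l0)) -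
      u0 * (dat D a b c d).a2 ((dat D a b c d).xv u0 l0)) *
      (dat D a b c d).be ((dat D a b c d).xv u0 l0) 0 ≠ 0 := by
  subst ha
  subst hd
  have hb : b ≠ 0 := fun hb => hδ (by rw [hb]; ring)
  have hc : c ≠ 0 := fun hc => hδ (by rw [hc]; ring)
  by_cases hs : b + c = 0
  · have hc' : c = -b := by linear_combination hs
    subst hc'
    have key : ∀ u : ℂ, hmx D 0 b (-b) 0 u (xi D 0 b (-b) 0 1 1 (-u) 0)
        (xi D 0 b (-b) 0 1 1 (-u) 1) (xi D 0 b (-b) 0 1 1 (-u) 2) =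
        (-32 * D ^ 6 * (D + 1) ^ 6 * b ^ 12) * (u * (1 + u) * (1 + (D + 1) * u) ^ 3) := by
      intro u
      simp only [hmx, phi, xi, j00, j01, j02, j10, j11, j12, j20, j21, j22, n00, n01, n02, n10,
          n11, n12, n20, n21, n22, Matrix.cons_val_zero, Matrix.cons_val_one, Matrix.cons_val]
      ring
    obtain ⟨u, hu⟩ : ∃ u : ℂ, u * (1 + u) * (1 + (D + 1) * u) ^ 3 ≠ 0 := by
      by_cases h2 : D + 2 = 0
      · refine ⟨2, ?_⟩
        have h3 : 1 + (D + 1) * 2 = (-1 : ℂ) := by linear_combination 2 * h2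
        rw [h3]
        norm_num
      · refine ⟨1, ?_⟩
        have h3 : 1 + (D + 1) * 1 = D + 2 := by ring
        rw [h3]
        exact mul_ne_zero (by norm_num) (pow_ne_zero 3 h2)
    refine ⟨u, 1, ?_⟩
    have hx : 0 * u + b = b * 1 := by ring
    have hy : -b * u + 0 = b * (-u) := by ring
    rw [hmC, hx, hy, xi_hom, xi_hom, xi_hom, hmx_hom, key]
    exact mul_ne_zero (pow_ne_zero 3 (pow_ne_zero 2 hb)) (mul_ne_zero (mul_ne_zero (mul_ne_zero
      (mul_ne_zero (by norm_num) (pow_ne_zero 6 hD)) (pow_ne_zero 6 hP)) (pow_ne_zero 12 hb)) hu)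
  · have hx : 0 * 0 + b = b * 1 := by ring
    have hy : c * 0 + 0 = b * 0 := by ring
    refine ⟨0, -1, ?_⟩
    rw [hmC, hx, hy, xi_hom, xi_hom, xi_hom, hmx_hom]
    intro h
    have h2 := (mul_eq_zero.1 h).resolve_left (pow_ne_zero 3 (pow_ne_zero 2 hb))
    have h3 : (32 * D ^ 5 * (D + 1) ^ 6 * (0 * 0 - b * c) ^ 4 * c ^ 3) * (b + c) = 0 := by
      refine Eq.trans ?_ h2
      simp only [hmx, phi, xi, j00, j01, j02, j10, j11, j12, j20, j21, j22, n00, n01, n02, n10,
        n11, n12, n20, n21, n22, Matrix.cons_val_zero, Matrix.cons_val_one, Matrix.cons_val]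
      ring
    exact mul_ne_zero (mul_ne_zero (mul_ne_zero (mul_ne_zero (mul_ne_zero (by norm_num)
      (pow_ne_zero 5 hD)) (pow_ne_zero 6 hP)) (pow_ne_zero 4 hδ)) (pow_ne_zero 3 hc)) hs h3

theorem gen_hm (hD : D ≠ 0) (hP : D + 1 ≠ 0)
    (hδ : a * d - b * c ≠ 0) : ∃ u0 l0 : ℂ,
    (dat D a b c d).a2 ((dat D a b c d).xv u0 l0) *
      (dat D a b c d).al ((dat D a b c d).xv u0 l0) 0 +
    (-((dat D a b c d).a1 ((dat D a b c d).xv u0 l0)) -
      u0 * (dat D a b c d).a2 ((dat D a b c d).xv u0 l0)) *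
      (dat D a b c d).be ((dat D a b c d).xv u0 l0) 0 ≠ 0 := by
  by_cases hd : d = 0
  · by_cases ha : a = 0
    · exact hm_0 hD hP ha hd hδ
    · exact hm_a hD hP ha hd hδ
  · exact hm_d hD hP hd hδ

end

end Vale.Agent.P297.H424.Fam
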