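import Vale.Agent.P297.H424.Fam.Gen4

/-!
Nonvanishing conditions for the family, end.
-/

namespace Vale.Agent.P297.H424.Fam

open Vale.Agent.P297 Vale.Agent.P297.H839 Polynomial

set_option linter.unusedVariables false
set_option linter.unusedSimpArgs false
set_option linter.unusedSectionVars false

section

variable {D a b c d : ℂ}

/-- first coefficient of `A` at `x` -/
def t0 (D a b c d x y : ℂ) : ℂ := ((D + 1) * y - x) * ((D + 1) * d - b)

/-- second coefficient of `A` at `x` -/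
def t1 (D a b c d x y : ℂ) : ℂ :=
  ((D + 1) * y - x) * ((D + 1) * c - a) + (D + 1) ^ 2 * (y - x) * (d - b)

/-- third coefficient of `A` at `x` -/
def t2 (D a b c d x y : ℂ) : ℂ := -((D + 1) ^ 2 * (y - x) * (c - a))

/-- `W₀` -/
def w0 (D a b c d x y : ℂ) : ℂ := t0 D a b c d x y * j00 D a b c d x y +
  t1 D a b c d x y * j10 D a b c d x y + t2 D a b c d x y * j20 D a b c d x y

/-- `W₁` -/
def w1 (D a b c d x y : ℂ) : ℂ := t0 D a b c d x y * j01 D a b c d x y +
  t1 D a b c d x y * j11 D a b c d x y + t2 D a b c d x y * j21 D a b c d x y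

/-- `W₂` -/
def w2 (D a b c d x y : ℂ) : ℂ := t0 D a b c d x y * j02 D a b c d x y +
  t1 D a b c d x y * j12 D a b c d x y + t2 D a b c d x y * j22 D a b c d x y

/-- coefficient of `x²` -/
def θ0 (D a b c d : ℂ) : ℂ :=
  -16 * D ^ 3 * a ^ 2 + 16 * D ^ 2 * (D + 1) ^ 3 * a * b + 16 * D ^ 3 * (D + 1) ^ 2 * a * c -
    16 * D ^ 2 * (D + 1) ^ 2 * (D ^ 3 + 3 * D ^ 2 + D + 1) * a * d - 16 * D ^ 2 * (D + 1) ^ 4 *
    b * c + 16 * D ^ 3 * (D + 1) ^ 5 * b * d + 16 * D ^ 2 * (D + 1) ^ 4 * c * d - 16 * D ^ 3 *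
    (D + 1) ^ 4 * d ^ 2

/-- coefficient of `x y` -/
def θ1 (D a b c d : ℂ) : ℂ :=
  32 * D ^ 3 * (D + 1) * a ^ 2 - 16 * D ^ 2 * (D + 1) ^ 3 * (D + 2) * a * b - 32 * D ^ 3 * (D
    + 1) ^ 3 * a * c + 16 * D ^ 2 * (D + 1) ^ 2 * (D ^ 4 + 5 * D ^ 3 + 7 * D ^ 2 + 3 * D + 2) *
    a * d + 16 * D ^ 2 * (D + 1) ^ 4 * (D + 2) * b * c - 32 * D ^ 3 * (D + 1) ^ 5 * b * d - 16
    * D ^ 2 * (D + 1) ^ 4 * (D + 2) * c * d + 32 * D ^ 3 * (D + 1) ^ 4 * d ^ 2

/-- coefficient of `y²` -/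
def θ2 (D a b c d : ℂ) : ℂ :=
  -16 * D ^ 3 * (D + 1) ^ 2 * a ^ 2 + 16 * D ^ 2 * (D + 1) ^ 4 * a * b + 16 * D ^ 3 * (D + 1)
    ^ 4 * a * c - 16 * D ^ 2 * (D + 1) ^ 3 * (D ^ 3 + 3 * D ^ 2 + D + 1) * a * d - 16 * D ^ 2 *
    (D + 1) ^ 5 * b * c + 16 * D ^ 3 * (D + 1) ^ 5 * b * d + 16 * D ^ 2 * (D + 1) ^ 5 * c * d -
    16 * D ^ 3 * (D + 1) ^ 4 * d ^ 2

theorem w_10 : w1 D a b c d 1 0 ^ 2 - w0 D a b c d 1 0 * w2 D a b c d 1 0 =
    (a * d - b * c) ^ 2 * θ0 D a b c d := by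
  simp only [w0, w1, w2, t0, t1, t2, j00, j01, j02, j10, j11, j12, j20, j21, j22, n00, n01, n02,
    n10, n11, n12, n20, n21, n22, θ0]
  ring

theorem w_01 : w1 D a b c d 0 1 ^ 2 - w0 D a b c d 0 1 * w2 D a b c d 0 1 =
    (D + 1) ^ 2 * (a * d - b * c) ^ 2 * θ2 D a b c d := by
  simp only [w0, w1, w2, t0, t1, t2, j00, j01, j02, j10, j11, j12, j20, j21, j22, n00, n01, n02,
    n10, n11, n12, n20, n21, n22, θ2]
  ring

set_option maxHeartbeats 1000000 in
theorem w_m1 : w1 D a b c d (-1) 1 ^ 2 - w0 D a b c d (-1) 1 * w2 D a b c d (-1) 1 =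
    4 * (D + 2) ^ 2 * (a * d - b * c) ^ 2 * (θ0 D a b c d - θ1 D a b c d + θ2 D a b c d) := by
  simp only [w0, w1, w2, t0, t1, t2, j00, j01, j02, j10, j11, j12, j20, j21, j22, n00, n01, n02,
    n10, n11, n12, n20, n21, n22, θ0, θ1, θ2]
  ring

theorem w_21 : w1 (-2) a b c d 2 1 ^ 2 - w0 (-2) a b c d 2 1 * w2 (-2) a b c d 2 1 =
    9 * (a * d - b * c) ^ 2 * (4 * θ0 (-2) a b c d + 2 * θ1 (-2) a b c d + θ2 (-2) a b c d) := by
  simp only [w0, w1, w2, t0, t1, t2, j00, j01, j02, j10, j11, j12, j20, j21, j22, n00, n01, n02,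
    n10, n11, n12, n20, n21, n22, θ0, θ1, θ2]
  ring

theorem wvC (v : ℂ) : wv (dat D a b c d).toNet (dat D a b c d).A0 (dat D a b c d).A1 v 0 =
      kap D a b c d * w0 D a b c d (a * v + b) (c * v + d) ∧
    wv (dat D a b c d).toNet (dat D a b c d).A0 (dat D a b c d).A1 v 1 =
      kap D a b c d * w1 D a b c d (a * v + b) (c * v + d) ∧
    wv (dat D a b c d).toNet (dat D a b c d).A0 (dat D a b c d).A1 v 2 =
      kap D a b c d * w2 D a b c d (a * v + b) (c * v + d) := by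
  have h0 : (dat D a b c d).A0 0 + v * (dat D a b c d).A1 0 =
      kap D a b c d * t0 D a b c d (a * v + b) (c * v + d) := by
    simp only [dat, t0, Matrix.cons_val_zero]
    ring
  have h1 : (dat D a b c d).A0 1 + v * (dat D a b c d).A1 1 =
      kap D a b c d * t1 D a b c d (a * v + b) (c * v + d) := by
    simp only [dat, t1, Matrix.cons_val_one, Matrix.cons_val_zero]
    ring
  have h2 : (dat D a b c d).A0 2 + v * (dat D a b c d).A1 2 =
      kap D a b c d * t2 D a b c d (a * v + b) (c * v + d) := by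
    simp only [dat, t2, Matrix.cons_val]
    ring
  refine ⟨?_, ?_, ?_⟩
  · unfold wv
    rw [Fin.sum_univ_three, adjC]
    simp only [Algebra.algebraMap_self, RingHom.id_apply]
    rw [h0, h1, h2]
    simp [w0]
    ring
  · unfold wv
    rw [Fin.sum_univ_three, adjC]
    simp only [Algebra.algebraMap_self, RingHom.id_apply]
    rw [h0, h1, h2]
    simp [w1]
    ring
  · unfold wv
    rw [Fin.sum_univ_three, adjC]
    simp only [Algebra.algebraMap_self, RingHom.id_apply]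
    rw [h0, h1, h2]
    simp [w2]
    ring

theorem gen_hwv (hD : D ≠ 0) (hP : D + 1 ≠ 0) (hex : ¬(D = -2 ∧ a = c ∧ b = -d))
    (hδ : a * d - b * c ≠ 0) : ∃ v0 : ℂ,
    wv (dat D a b c d).toNet (dat D a b c d).A0 (dat D a b c d).A1 v0 1 ^ 2 -
    wv (dat D a b c d).toNet (dat D a b c d).A0 (dat D a b c d).A1 v0 0 *
      wv (dat D a b c d).toNet (dat D a b c d).A0 (dat D a b c d).A1 v0 2 ≠ 0 := by
  have hk : kap D a b c d ≠ 0 := by
    unfold kap
    exact neg_ne_zero.2 (inv_ne_zero (mul_ne_zero (mul_ne_zero (mul_ne_zero (by norm_num)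
      (pow_ne_zero 4 hD)) (pow_ne_zero 2 hP)) (pow_ne_zero 4 hδ)))
  by_contra h
  push Not at h
  have h1 := vanish hδ (fun x y => w1 D a b c d x y ^ 2 - w0 D a b c d x y * w2 D a b c d x y)
    6 (by
    intro t x y
    have e0 : ∀ t x y : ℂ, w0 D a b c d (t * x) (t * y) = t ^ 3 * w0 D a b c d x y := by
      intro t x y
      simp only [w0, w1, w2, t0, t1, t2, j00, j01, j02, j10, j11, j12, j20, j21, j22, n00, n01,
        n02, n10, n11, n12, n20, n21, n22]
      ring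
    have e1 : ∀ t x y : ℂ, w1 D a b c d (t * x) (t * y) = t ^ 3 * w1 D a b c d x y := by
      intro t x y
      simp only [w0, w1, w2, t0, t1, t2, j00, j01, j02, j10, j11, j12, j20, j21, j22, n00, n01,
        n02, n10, n11, n12, n20, n21, n22]
      ring
    have e2 : ∀ t x y : ℂ, w2 D a b c d (t * x) (t * y) = t ^ 3 * w2 D a b c d x y := by
      intro t x y
      simp only [w0, w1, w2, t0, t1, t2, j00, j01, j02, j10, j11, j12, j20, j21, j22, n00, n01,
        n02, n10, n11, n12, n20, n21, n22]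
      ring
    rw [e0, e1, e2]
    ring) (by
    simp only [w0, w1, w2, t0, t1, t2, j00, j01, j02, j10, j11, j12, j20, j21, j22, n00, n01,
        n02, n10, n11, n12, n20, n21, n22]
    fun_prop) (fun u _ => by
      have h3 := h u
      rw [(wvC u).1, (wvC u).2.1, (wvC u).2.2] at h3
      have h4 : kap D a b c d ^ 2 * (w1 D a b c d (a * u + b) (c * u + d) ^ 2 -
        w0 D a b c d (a * u + b) (c * u + d) * w2 D a b c d (a * u + b) (c * u + d)) = 0 := by
        linear_combination h3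
      exact (mul_eq_zero.1 h4).resolve_left (pow_ne_zero 2 hk))
  have k1 := h1 1 0
  have k2 := h1 0 1
  rw [w_10] at k1
  rw [w_01] at k2
  have m1 := (mul_eq_zero.1 k1).resolve_left (pow_ne_zero 2 hδ)
  have m2 := (mul_eq_zero.1 k2).resolve_left (mul_ne_zero (pow_ne_zero 2 hP) (pow_ne_zero 2 hδ))
  have m3 : θ0 D a b c d - θ1 D a b c d + θ2 D a b c d = 0 := by
    by_cases h2 : D + 2 = 0
    · have hD2 : D = -2 := by linear_combination h2
      subst hD2
      have k3 := h1 2 1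
      rw [w_21] at k3
      have m3 := (mul_eq_zero.1 k3).resolve_left (mul_ne_zero (by norm_num) (pow_ne_zero 2 hδ))
      linear_combination 3 * m1 + (3 / 2) * m2 - (1 / 2) * m3
    · have k3 := h1 (-1) 1
      rw [w_m1] at k3
      exact (mul_eq_zero.1 k3).resolve_left (mul_ne_zero (mul_ne_zero (by norm_num)
        (pow_ne_zero 2 h2)) (pow_ne_zero 2 hδ))
  have n1 : (16 * D ^ 5) * (a * (a - (D + 1) ^ 2 * c)) = 0 := by
    simp only [θ0, θ1, θ2] at m1 m2 m3
    linear_combination (-2) * m1 - 2 * m2 + m3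
  have n2 : (16 * (D ^ 5 * (D + 1) ^ 4)) * (d * ((D + 1) * b - d)) = 0 := by
    simp only [θ0, θ1, θ2] at m1 m2 m3
    linear_combination ((D + 1) ^ 2 + (D + 1)) * m1 + ((D + 1) + 1) * m2 - (D + 1) * m3
  have p1 := (mul_eq_zero.1 n1).resolve_left (mul_ne_zero (by norm_num) (pow_ne_zero 5 hD))
  have p2 := (mul_eq_zero.1 n2).resolve_left (mul_ne_zero (by norm_num)
    (mul_ne_zero (pow_ne_zero 5 hD) (pow_ne_zero 4 hP)))
  have hK3 : (16 * D ^ 3 * (D + 1) ^ 4) ≠ 0 :=
    mul_ne_zero (mul_ne_zero (by norm_num) (pow_ne_zero 3 hD)) (pow_ne_zero 4 hP)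
  rcases mul_eq_zero.1 p1 with ha | ha
  · rcases mul_eq_zero.1 p2 with hd | hd
    · have q : (16 * D ^ 2 * (D + 1) ^ 4) * (a * d - b * c) = 0 := by
        simp only [θ0, ha, hd] at m1
        rw [ha, hd]
        linear_combination m1
      exact mul_ne_zero (mul_ne_zero (mul_ne_zero (by norm_num) (pow_ne_zero 2 hD))
        (pow_ne_zero 4 hP)) hδ q
    · have hd' : d = (D + 1) * b := by linear_combination -hd
      have q : (16 * D ^ 3 * (D + 1) ^ 4) * (a * d - b * c) = 0 := by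
        simp only [θ0, ha, hd'] at m1
        rw [ha]
        linear_combination -m1
      exact mul_ne_zero hK3 hδ q
  · have ha' : a = (D + 1) ^ 2 * c := by linear_combination ha
    rcases mul_eq_zero.1 p2 with hd | hd
    · have q : (16 * D ^ 3 * (D + 1) ^ 4) * (a * d - b * c) = 0 := by
        simp only [θ0, ha', hd] at m1
        rw [hd]
        linear_combination -m1
      exact mul_ne_zero hK3 hδ q
    · have hd' : d = (D + 1) * b := by linear_combination -hd
      have q : (16 * (D ^ 4 * (D + 1) ^ 4)) * ((D + 2) ^ 2 * (b * c)) = 0 := by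
        simp only [θ0, ha', hd'] at m1
        linear_combination -m1
      have q2 := (mul_eq_zero.1 q).resolve_left (mul_ne_zero (by norm_num)
        (mul_ne_zero (pow_ne_zero 4 hD) (pow_ne_zero 4 hP)))
      have hbc : b * c ≠ 0 := by
        intro h0
        apply hδ
        rw [ha', hd']
        linear_combination ((D + 1) ^ 3 - 1) * h0
      have q3 := (mul_eq_zero.1 q2).resolve_right hbc
      have h2 : D + 2 = 0 := pow_eq_zero_iff (two_ne_zero) |>.1 q3
      have hD2 : D = -2 := by linear_combination h2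
      apply hex
      refine ⟨hD2, ?_, ?_⟩
      · rw [ha', hD2]
        ring
      · rw [hd', hD2]
        ring

/-- All conditions hold. -/
theorem genW (hD : D ≠ 0) (hP : D + 1 ≠ 0) (hex : ¬(D = -2 ∧ a = c ∧ b = -d))
    (hδ : a * d - b * c ≠ 0) : (dat D a b c d).GenW where
  hu := gen_hu hD hP hδ
  he := exists_eps hD hδ
  hdel := gen_hdel hD hP hδ
  hff := gen_hff hD hP hδ
  hb := gen_hb hD hP hδ
  ha2 := gen_ha2 hD hP hδ
  hk := gen_hk hD hP hδ
  hm := gen_hm hD hP hδ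
  hwv := gen_hwv hD hP hex hδ

end

end Vale.Agent.P297.H424.Fam
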