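import Vale.Agent.P297.H424.Fam.Base

/-!
The identity for the twin of the family of numerical Godeaux surfaces with an involution.
-/

namespace Vale.Agent.P297.H424.Fam

set_option linter.unusedVariables false

variable {R : Type*} [CommRing R]

set_option maxHeartbeats 1000000 in
theorem tw300 (D a b c d x0 x1 : R) :
    4 * ((D + 1) ^ 2 * D ^ 4) * ((D + 1) * x1 - x0) * (x1 - x0) * ((d * x0 - b * x1) ^ 3 * (-(D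
    ^ 2 * d * x1))) = (d * x0 - b * x1) * (-4 * (d * x0 - b * x1) * ((D + 1) ^ 2 * D ^ 4) * (x1
    - x0) * n00 D a b c d x0 x1 * n20 D a b c d x0 x1 * x1 + (d * x0 - b * x1) * ((D + 1) ^ 2 *
    D ^ 4) * (x1 - x0) * n10 D a b c d x0 x1 ^ 2 * x1 + 4 * ((D + 1) * d - b) * eps D x0 x1 ^ 2
    * (x1 - x0) * n00 D a b c d (D + 1) 1 * n20 D a b c d (D + 1) 1 - ((D + 1) * d - b) * eps D
    x0 x1 ^ 2 * (x1 - x0) * n10 D a b c d (D + 1) 1 ^ 2) := by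
  simp only [n00, n10, n20, eps]
  ring

set_option maxHeartbeats 1000000 in
theorem tw210 (D a b c d x0 x1 : R) :
    4 * ((D + 1) ^ 2 * D ^ 4) * ((D + 1) * x1 - x0) * (x1 - x0) * (-3 * (d * x0 - b * x1) ^ 2 *
    (a * x1 - c * x0) * (-(D ^ 2 * d * x1)) + (d * x0 - b * x1) ^ 2 * (a * d - b * c) * (-D ^ 2
    * x1 ^ 2) - (d * x0 - b * x1) ^ 3 * ((b + (D ^ 2 - 1) * d) * x0 + ((D ^ 2 - 1) * b + (1 + 3
    * D ^ 2) * d) * x1)) = (d * x0 - b * x1) * (-4 * (d * x0 - b * x1) * ((D + 1) ^ 2 * D ^ 4) *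
    ((D + 1) * x1 - x0) * n00 D a b c d x0 x1 * n20 D a b c d x0 x1 * x0 + (d * x0 - b * x1) *
    ((D + 1) ^ 2 * D ^ 4) * ((D + 1) * x1 - x0) * n10 D a b c d x0 x1 ^ 2 * x0 - 4 * (d * x0 - b
    * x1) * ((D + 1) ^ 2 * D ^ 4) * (x1 - x0) * n00 D a b c d x0 x1 * n21 D a b c d x0 x1 * x1 -
    4 * (d * x0 - b * x1) * ((D + 1) ^ 2 * D ^ 4) * (x1 - x0) * n01 D a b c d x0 x1 * n20 D a b
    c d x0 x1 * x1 + 2 * (d * x0 - b * x1) * ((D + 1) ^ 2 * D ^ 4) * (x1 - x0) * n10 D a b c d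
    x0 x1 * n11 D a b c d x0 x1 * x1 + 4 * (a * x1 - c * x0) * ((D + 1) ^ 2 * D ^ 4) * (x1 - x0)
    * n00 D a b c d x0 x1 * n20 D a b c d x0 x1 * x1 - (a * x1 - c * x0) * ((D + 1) ^ 2 * D ^ 4)
    * (x1 - x0) * n10 D a b c d x0 x1 ^ 2 * x1 + 4 * ((D + 1) ^ 2) * (d - b) * eps D x0 x1 ^ 2 *
    ((D + 1) * x1 - x0) * n00 D a b c d 1 1 * n20 D a b c d 1 1 - ((D + 1) ^ 2) * (d - b) * eps
    D x0 x1 ^ 2 * ((D + 1) * x1 - x0) * n10 D a b c d 1 1 ^ 2 + 4 * ((D + 1) * c - a) * eps D x0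
    x1 ^ 2 * (x1 - x0) * n00 D a b c d (D + 1) 1 * n20 D a b c d (D + 1) 1 - ((D + 1) * c - a) *
    eps D x0 x1 ^ 2 * (x1 - x0) * n10 D a b c d (D + 1) 1 ^ 2 + 4 * ((D + 1) * d - b) * eps D x0
    x1 ^ 2 * (x1 - x0) * n00 D a b c d (D + 1) 1 * n21 D a b c d (D + 1) 1 + 4 * ((D + 1) * d -
    b) * eps D x0 x1 ^ 2 * (x1 - x0) * n01 D a b c d (D + 1) 1 * n20 D a b c d (D + 1) 1 - 2 *
    ((D + 1) * d - b) * eps D x0 x1 ^ 2 * (x1 - x0) * n10 D a b c d (D + 1) 1 * n11 D a b c d (D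
    + 1) 1) := by
  simp only [n00, n01, n10, n11, n20, n21, eps]
  ring

set_option maxHeartbeats 1000000 in
theorem tw201 (D a b c d x0 x1 : R) :
    4 * ((D + 1) ^ 2 * D ^ 4) * ((D + 1) * x1 - x0) * (x1 - x0) * (-(d * x0 - b * x1) ^ 2 * (a *
    x1 - c * x0) * ((b + (D ^ 2 - 1) * d) * x0 + ((D ^ 2 - 1) * b + (1 + 3 * D ^ 2) * d) * x1) -
    (d * x0 - b * x1) ^ 2 * (a * d - b * c) * (-(x0 - (D + 1) * x1) ^ 2)) = (d * x0 - b * x1) *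
    (-4 * (d * x0 - b * x1) * ((D + 1) ^ 2 * D ^ 4) * (x1 - x0) * n00 D a b c d x0 x1 * n22 D a
    b c d x0 x1 * x1 - 4 * (d * x0 - b * x1) * ((D + 1) ^ 2 * D ^ 4) * (x1 - x0) * n02 D a b c d
    x0 x1 * n20 D a b c d x0 x1 * x1 + 2 * (d * x0 - b * x1) * ((D + 1) ^ 2 * D ^ 4) * (x1 - x0)
    * n10 D a b c d x0 x1 * n12 D a b c d x0 x1 * x1 - 4 * (a * x1 - c * x0) * ((D + 1) ^ 2 * D
    ^ 4) * ((D + 1) * x1 - x0) * n00 D a b c d x0 x1 * n20 D a b c d x0 x1 * x0 + (a * x1 - c *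
    x0) * ((D + 1) ^ 2 * D ^ 4) * ((D + 1) * x1 - x0) * n10 D a b c d x0 x1 ^ 2 * x0 - 4 * ((D +
    1) ^ 2) * (c - a) * eps D x0 x1 ^ 2 * ((D + 1) * x1 - x0) * n00 D a b c d 1 1 * n20 D a b c
    d 1 1 + ((D + 1) ^ 2) * (c - a) * eps D x0 x1 ^ 2 * ((D + 1) * x1 - x0) * n10 D a b c d 1 1
    ^ 2 + 4 * ((D + 1) * d - b) * eps D x0 x1 ^ 2 * (x1 - x0) * n00 D a b c d (D + 1) 1 * n22 D
    a b c d (D + 1) 1 + 4 * ((D + 1) * d - b) * eps D x0 x1 ^ 2 * (x1 - x0) * n02 D a b c d (D +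
    1) 1 * n20 D a b c d (D + 1) 1 - 2 * ((D + 1) * d - b) * eps D x0 x1 ^ 2 * (x1 - x0) * n10 D
    a b c d (D + 1) 1 * n12 D a b c d (D + 1) 1) := by
  simp only [n00, n02, n10, n12, n20, n22, eps]
  ring

set_option maxHeartbeats 1000000 in
theorem tw120 (D a b c d x0 x1 : R) :
    4 * ((D + 1) ^ 2 * D ^ 4) * ((D + 1) * x1 - x0) * (x1 - x0) * (-2 * (d * x0 - b * x1) * (a *
    x1 - c * x0) * (a * d - b * c) * (-D ^ 2 * x1 ^ 2) + 3 * (d * x0 - b * x1) * (a * x1 - c *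
    x0) ^ 2 * (-(D ^ 2 * d * x1)) + 2 * (d * x0 - b * x1) ^ 2 * (a * x1 - c * x0) * ((b + (D ^ 2
    - 1) * d) * x0 + ((D ^ 2 - 1) * b + (1 + 3 * D ^ 2) * d) * x1) - (d * x0 - b * x1) ^ 2 * (a
    * d - b * c) * (2 * D * x1 * ((D + 1) * x0 + (D - 1) * x1)) - (d * x0 - b * x1) ^ 3 * (((1 +
    3 * D ^ 2) * b + (D - 1) * (D + 1) ^ 2 * d) * x0 + (D + 1) ^ 2 * ((D - 1) * b + d) * x1)) =
    (d * x0 - b * x1) * (-4 * (d * x0 - b * x1) * ((D + 1) ^ 2 * D ^ 4) * ((D + 1) * x1 - x0) *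
    n00 D a b c d x0 x1 * n21 D a b c d x0 x1 * x0 - 4 * (d * x0 - b * x1) * ((D + 1) ^ 2 * D ^
    4) * ((D + 1) * x1 - x0) * n01 D a b c d x0 x1 * n20 D a b c d x0 x1 * x0 + 2 * (d * x0 - b
    * x1) * ((D + 1) ^ 2 * D ^ 4) * ((D + 1) * x1 - x0) * n10 D a b c d x0 x1 * n11 D a b c d x0
    x1 * x0 - 4 * (d * x0 - b * x1) * ((D + 1) ^ 2 * D ^ 4) * (x1 - x0) * n01 D a b c d x0 x1 *
    n21 D a b c d x0 x1 * x1 + (d * x0 - b * x1) * ((D + 1) ^ 2 * D ^ 4) * (x1 - x0) * n11 D a b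
    c d x0 x1 ^ 2 * x1 + 4 * (a * x1 - c * x0) * ((D + 1) ^ 2 * D ^ 4) * (x1 - x0) * n00 D a b c
    d x0 x1 * n21 D a b c d x0 x1 * x1 + 4 * (a * x1 - c * x0) * ((D + 1) ^ 2 * D ^ 4) * (x1 -
    x0) * n01 D a b c d x0 x1 * n20 D a b c d x0 x1 * x1 - 2 * (a * x1 - c * x0) * ((D + 1) ^ 2
    * D ^ 4) * (x1 - x0) * n10 D a b c d x0 x1 * n11 D a b c d x0 x1 * x1 + 4 * ((D + 1) ^ 2) *
    (d - b) * eps D x0 x1 ^ 2 * ((D + 1) * x1 - x0) * n00 D a b c d 1 1 * n21 D a b c d 1 1 + 4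
    * ((D + 1) ^ 2) * (d - b) * eps D x0 x1 ^ 2 * ((D + 1) * x1 - x0) * n01 D a b c d 1 1 * n20
    D a b c d 1 1 - 2 * ((D + 1) ^ 2) * (d - b) * eps D x0 x1 ^ 2 * ((D + 1) * x1 - x0) * n10 D
    a b c d 1 1 * n11 D a b c d 1 1 + 4 * ((D + 1) * c - a) * eps D x0 x1 ^ 2 * (x1 - x0) * n00
    D a b c d (D + 1) 1 * n21 D a b c d (D + 1) 1 + 4 * ((D + 1) * c - a) * eps D x0 x1 ^ 2 *
    (x1 - x0) * n01 D a b c d (D + 1) 1 * n20 D a b c d (D + 1) 1 - 2 * ((D + 1) * c - a) * eps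
    D x0 x1 ^ 2 * (x1 - x0) * n10 D a b c d (D + 1) 1 * n11 D a b c d (D + 1) 1 + 4 * ((D + 1) *
    d - b) * eps D x0 x1 ^ 2 * (x1 - x0) * n01 D a b c d (D + 1) 1 * n21 D a b c d (D + 1) 1 -
    ((D + 1) * d - b) * eps D x0 x1 ^ 2 * (x1 - x0) * n11 D a b c d (D + 1) 1 ^ 2) := by
  simp only [n00, n01, n10, n11, n20, n21, eps]
  ring

set_option maxHeartbeats 1000000 in
theorem tw111 (D a b c d x0 x1 : R) :
    4 * ((D + 1) ^ 2 * D ^ 4) * ((D + 1) * x1 - x0) * (x1 - x0) * (-(d * x0 - b * x1) * (a * x1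
    - c * x0) * (a * d - b * c) * (2 * D * x1 * ((D + 1) * x0 + (D - 1) * x1)) + 2 * (d * x0 - b
    * x1) * (a * x1 - c * x0) * (a * d - b * c) * (-(x0 - (D + 1) * x1) ^ 2) + 2 * (d * x0 - b *
    x1) * (a * x1 - c * x0) ^ 2 * ((b + (D ^ 2 - 1) * d) * x0 + ((D ^ 2 - 1) * b + (1 + 3 * D ^
    2) * d) * x1) - 2 * (d * x0 - b * x1) ^ 2 * (a * x1 - c * x0) * (((1 + 3 * D ^ 2) * b + (D -
    1) * (D + 1) ^ 2 * d) * x0 + (D + 1) ^ 2 * ((D - 1) * b + d) * x1) + (d * x0 - b * x1) ^ 2 *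
    (a * d - b * c) * (2 * D * x0 * ((D - 1) * x0 + (D + 1) ^ 2 * x1))) = (d * x0 - b * x1) *
    (-4 * (d * x0 - b * x1) * ((D + 1) ^ 2 * D ^ 4) * ((D + 1) * x1 - x0) * n00 D a b c d x0 x1
    * n22 D a b c d x0 x1 * x0 - 4 * (d * x0 - b * x1) * ((D + 1) ^ 2 * D ^ 4) * ((D + 1) * x1 -
    x0) * n02 D a b c d x0 x1 * n20 D a b c d x0 x1 * x0 + 2 * (d * x0 - b * x1) * ((D + 1) ^ 2
    * D ^ 4) * ((D + 1) * x1 - x0) * n10 D a b c d x0 x1 * n12 D a b c d x0 x1 * x0 - 4 * (d *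
    x0 - b * x1) * ((D + 1) ^ 2 * D ^ 4) * (x1 - x0) * n01 D a b c d x0 x1 * n22 D a b c d x0 x1
    * x1 - 4 * (d * x0 - b * x1) * ((D + 1) ^ 2 * D ^ 4) * (x1 - x0) * n02 D a b c d x0 x1 * n21
    D a b c d x0 x1 * x1 + 2 * (d * x0 - b * x1) * ((D + 1) ^ 2 * D ^ 4) * (x1 - x0) * n11 D a b
    c d x0 x1 * n12 D a b c d x0 x1 * x1 - 4 * (a * x1 - c * x0) * ((D + 1) ^ 2 * D ^ 4) * ((D +
    1) * x1 - x0) * n00 D a b c d x0 x1 * n21 D a b c d x0 x1 * x0 - 4 * (a * x1 - c * x0) * ((D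
    + 1) ^ 2 * D ^ 4) * ((D + 1) * x1 - x0) * n01 D a b c d x0 x1 * n20 D a b c d x0 x1 * x0 + 2
    * (a * x1 - c * x0) * ((D + 1) ^ 2 * D ^ 4) * ((D + 1) * x1 - x0) * n10 D a b c d x0 x1 *
    n11 D a b c d x0 x1 * x0 + 4 * (a * x1 - c * x0) * ((D + 1) ^ 2 * D ^ 4) * (x1 - x0) * n00 D
    a b c d x0 x1 * n22 D a b c d x0 x1 * x1 + 4 * (a * x1 - c * x0) * ((D + 1) ^ 2 * D ^ 4) *
    (x1 - x0) * n02 D a b c d x0 x1 * n20 D a b c d x0 x1 * x1 - 2 * (a * x1 - c * x0) * ((D +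
    1) ^ 2 * D ^ 4) * (x1 - x0) * n10 D a b c d x0 x1 * n12 D a b c d x0 x1 * x1 - 4 * ((D + 1)
    ^ 2) * (c - a) * eps D x0 x1 ^ 2 * ((D + 1) * x1 - x0) * n00 D a b c d 1 1 * n21 D a b c d 1
    1 - 4 * ((D + 1) ^ 2) * (c - a) * eps D x0 x1 ^ 2 * ((D + 1) * x1 - x0) * n01 D a b c d 1 1
    * n20 D a b c d 1 1 + 2 * ((D + 1) ^ 2) * (c - a) * eps D x0 x1 ^ 2 * ((D + 1) * x1 - x0) *
    n10 D a b c d 1 1 * n11 D a b c d 1 1 + 4 * ((D + 1) ^ 2) * (d - b) * eps D x0 x1 ^ 2 * ((D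
    + 1) * x1 - x0) * n00 D a b c d 1 1 * n22 D a b c d 1 1 + 4 * ((D + 1) ^ 2) * (d - b) * eps
    D x0 x1 ^ 2 * ((D + 1) * x1 - x0) * n02 D a b c d 1 1 * n20 D a b c d 1 1 - 2 * ((D + 1) ^
    2) * (d - b) * eps D x0 x1 ^ 2 * ((D + 1) * x1 - x0) * n10 D a b c d 1 1 * n12 D a b c d 1 1
    + 4 * ((D + 1) * c - a) * eps D x0 x1 ^ 2 * (x1 - x0) * n00 D a b c d (D + 1) 1 * n22 D a b
    c d (D + 1) 1 + 4 * ((D + 1) * c - a) * eps D x0 x1 ^ 2 * (x1 - x0) * n02 D a b c d (D + 1)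
    1 * n20 D a b c d (D + 1) 1 - 2 * ((D + 1) * c - a) * eps D x0 x1 ^ 2 * (x1 - x0) * n10 D a
    b c d (D + 1) 1 * n12 D a b c d (D + 1) 1 + 4 * ((D + 1) * d - b) * eps D x0 x1 ^ 2 * (x1 -
    x0) * n01 D a b c d (D + 1) 1 * n22 D a b c d (D + 1) 1 + 4 * ((D + 1) * d - b) * eps D x0
    x1 ^ 2 * (x1 - x0) * n02 D a b c d (D + 1) 1 * n21 D a b c d (D + 1) 1 - 2 * ((D + 1) * d -
    b) * eps D x0 x1 ^ 2 * (x1 - x0) * n11 D a b c d (D + 1) 1 * n12 D a b c d (D + 1) 1) := by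
  simp only [n00, n01, n02, n10, n11, n12, n20, n21, n22, eps]
  ring

set_option maxHeartbeats 1000000 in
theorem tw102 (D a b c d x0 x1 : R) :
    4 * ((D + 1) ^ 2 * D ^ 4) * ((D + 1) * x1 - x0) * (x1 - x0) * ((d * x0 - b * x1) * (a * x1 -
    c * x0) * (a * d - b * c) * (2 * D * x0 * ((D - 1) * x0 + (D + 1) ^ 2 * x1)) - (d * x0 - b *
    x1) * (a * x1 - c * x0) ^ 2 * (((1 + 3 * D ^ 2) * b + (D - 1) * (D + 1) ^ 2 * d) * x0 + (D +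
    1) ^ 2 * ((D - 1) * b + d) * x1)) = (d * x0 - b * x1) * (-4 * (d * x0 - b * x1) * ((D + 1) ^
    2 * D ^ 4) * (x1 - x0) * n02 D a b c d x0 x1 * n22 D a b c d x0 x1 * x1 + (d * x0 - b * x1)
    * ((D + 1) ^ 2 * D ^ 4) * (x1 - x0) * n12 D a b c d x0 x1 ^ 2 * x1 - 4 * (a * x1 - c * x0) *
    ((D + 1) ^ 2 * D ^ 4) * ((D + 1) * x1 - x0) * n00 D a b c d x0 x1 * n22 D a b c d x0 x1 * x0
    - 4 * (a * x1 - c * x0) * ((D + 1) ^ 2 * D ^ 4) * ((D + 1) * x1 - x0) * n02 D a b c d x0 x1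
    * n20 D a b c d x0 x1 * x0 + 2 * (a * x1 - c * x0) * ((D + 1) ^ 2 * D ^ 4) * ((D + 1) * x1 -
    x0) * n10 D a b c d x0 x1 * n12 D a b c d x0 x1 * x0 - 4 * ((D + 1) ^ 2) * (c - a) * eps D
    x0 x1 ^ 2 * ((D + 1) * x1 - x0) * n00 D a b c d 1 1 * n22 D a b c d 1 1 - 4 * ((D + 1) ^ 2)
    * (c - a) * eps D x0 x1 ^ 2 * ((D + 1) * x1 - x0) * n02 D a b c d 1 1 * n20 D a b c d 1 1 +
    2 * ((D + 1) ^ 2) * (c - a) * eps D x0 x1 ^ 2 * ((D + 1) * x1 - x0) * n10 D a b c d 1 1 *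
    n12 D a b c d 1 1 + 4 * ((D + 1) * d - b) * eps D x0 x1 ^ 2 * (x1 - x0) * n02 D a b c d (D +
    1) 1 * n22 D a b c d (D + 1) 1 - ((D + 1) * d - b) * eps D x0 x1 ^ 2 * (x1 - x0) * n12 D a b
    c d (D + 1) 1 ^ 2) := by
  simp only [n00, n02, n10, n12, n20, n22, eps]
  ring

set_option maxHeartbeats 1000000 in
theorem tw030 (D a b c d x0 x1 : R) :
    4 * ((D + 1) ^ 2 * D ^ 4) * ((D + 1) * x1 - x0) * (x1 - x0) * ((d * x0 - b * x1) * (a * x1 -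
    c * x0) * (a * d - b * c) * (2 * D * x1 * ((D + 1) * x0 + (D - 1) * x1)) - (d * x0 - b * x1)
    * (a * x1 - c * x0) ^ 2 * ((b + (D ^ 2 - 1) * d) * x0 + ((D ^ 2 - 1) * b + (1 + 3 * D ^ 2) *
    d) * x1) + (d * x0 - b * x1) ^ 2 * (a * x1 - c * x0) * (((1 + 3 * D ^ 2) * b + (D - 1) * (D
    + 1) ^ 2 * d) * x0 + (D + 1) ^ 2 * ((D - 1) * b + d) * x1) - (d * x0 - b * x1) ^ 2 * (a * d
    - b * c) * ((D + 1) ^ 2 * (x0 - x1) ^ 2) - (d * x0 - b * x1) ^ 3 * (D ^ 2 * (D + 1) ^ 2 * x0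
    * b) + (a * x1 - c * x0) ^ 2 * (a * d - b * c) * (-D ^ 2 * x1 ^ 2) - (a * x1 - c * x0) ^ 3 *
    (-(D ^ 2 * d * x1))) = (d * x0 - b * x1) * (-4 * (d * x0 - b * x1) * ((D + 1) ^ 2 * D ^ 4) *
    ((D + 1) * x1 - x0) * n01 D a b c d x0 x1 * n21 D a b c d x0 x1 * x0 + (d * x0 - b * x1) *
    ((D + 1) ^ 2 * D ^ 4) * ((D + 1) * x1 - x0) * n11 D a b c d x0 x1 ^ 2 * x0 + 4 * (a * x1 - c
    * x0) * ((D + 1) ^ 2 * D ^ 4) * (x1 - x0) * n01 D a b c d x0 x1 * n21 D a b c d x0 x1 * x1 -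
    (a * x1 - c * x0) * ((D + 1) ^ 2 * D ^ 4) * (x1 - x0) * n11 D a b c d x0 x1 ^ 2 * x1 + 4 *
    ((D + 1) ^ 2) * (d - b) * eps D x0 x1 ^ 2 * ((D + 1) * x1 - x0) * n01 D a b c d 1 1 * n21 D
    a b c d 1 1 - ((D + 1) ^ 2) * (d - b) * eps D x0 x1 ^ 2 * ((D + 1) * x1 - x0) * n11 D a b c
    d 1 1 ^ 2 + 4 * ((D + 1) * c - a) * eps D x0 x1 ^ 2 * (x1 - x0) * n01 D a b c d (D + 1) 1 *
    n21 D a b c d (D + 1) 1 - ((D + 1) * c - a) * eps D x0 x1 ^ 2 * (x1 - x0) * n11 D a b c d (D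
    + 1) 1 ^ 2) := by
  simp only [n01, n11, n21, eps]
  ring

set_option maxHeartbeats 1000000 in
theorem tw021 (D a b c d x0 x1 : R) :
    4 * ((D + 1) ^ 2 * D ^ 4) * ((D + 1) * x1 - x0) * (x1 - x0) * (-2 * (d * x0 - b * x1) * (a *
    x1 - c * x0) * (a * d - b * c) * ((D + 1) ^ 2 * (x0 - x1) ^ 2) - (d * x0 - b * x1) * (a * x1
    - c * x0) * (a * d - b * c) * (2 * D * x0 * ((D - 1) * x0 + (D + 1) ^ 2 * x1)) + 2 * (d * x0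
    - b * x1) * (a * x1 - c * x0) ^ 2 * (((1 + 3 * D ^ 2) * b + (D - 1) * (D + 1) ^ 2 * d) * x0
    + (D + 1) ^ 2 * ((D - 1) * b + d) * x1) - 3 * (d * x0 - b * x1) ^ 2 * (a * x1 - c * x0) * (D
    ^ 2 * (D + 1) ^ 2 * x0 * b) + (d * x0 - b * x1) ^ 2 * (a * d - b * c) * (D ^ 2 * (D + 1) ^ 2
    * x0 ^ 2) + (a * x1 - c * x0) ^ 2 * (a * d - b * c) * (2 * D * x1 * ((D + 1) * x0 + (D - 1)
    * x1)) - (a * x1 - c * x0) ^ 2 * (a * d - b * c) * (-(x0 - (D + 1) * x1) ^ 2) - (a * x1 - c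
    * x0) ^ 3 * ((b + (D ^ 2 - 1) * d) * x0 + ((D ^ 2 - 1) * b + (1 + 3 * D ^ 2) * d) * x1)) =
    (d * x0 - b * x1) * (-4 * (d * x0 - b * x1) * ((D + 1) ^ 2 * D ^ 4) * ((D + 1) * x1 - x0) *
    n01 D a b c d x0 x1 * n22 D a b c d x0 x1 * x0 - 4 * (d * x0 - b * x1) * ((D + 1) ^ 2 * D ^
    4) * ((D + 1) * x1 - x0) * n02 D a b c d x0 x1 * n21 D a b c d x0 x1 * x0 + 2 * (d * x0 - b
    * x1) * ((D + 1) ^ 2 * D ^ 4) * ((D + 1) * x1 - x0) * n11 D a b c d x0 x1 * n12 D a b c d x0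
    x1 * x0 - 4 * (a * x1 - c * x0) * ((D + 1) ^ 2 * D ^ 4) * ((D + 1) * x1 - x0) * n01 D a b c
    d x0 x1 * n21 D a b c d x0 x1 * x0 + (a * x1 - c * x0) * ((D + 1) ^ 2 * D ^ 4) * ((D + 1) *
    x1 - x0) * n11 D a b c d x0 x1 ^ 2 * x0 + 4 * (a * x1 - c * x0) * ((D + 1) ^ 2 * D ^ 4) *
    (x1 - x0) * n01 D a b c d x0 x1 * n22 D a b c d x0 x1 * x1 + 4 * (a * x1 - c * x0) * ((D +
    1) ^ 2 * D ^ 4) * (x1 - x0) * n02 D a b c d x0 x1 * n21 D a b c d x0 x1 * x1 - 2 * (a * x1 -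
    c * x0) * ((D + 1) ^ 2 * D ^ 4) * (x1 - x0) * n11 D a b c d x0 x1 * n12 D a b c d x0 x1 * x1
    - 4 * ((D + 1) ^ 2) * (c - a) * eps D x0 x1 ^ 2 * ((D + 1) * x1 - x0) * n01 D a b c d 1 1 *
    n21 D a b c d 1 1 + ((D + 1) ^ 2) * (c - a) * eps D x0 x1 ^ 2 * ((D + 1) * x1 - x0) * n11 D
    a b c d 1 1 ^ 2 + 4 * ((D + 1) ^ 2) * (d - b) * eps D x0 x1 ^ 2 * ((D + 1) * x1 - x0) * n01
    D a b c d 1 1 * n22 D a b c d 1 1 + 4 * ((D + 1) ^ 2) * (d - b) * eps D x0 x1 ^ 2 * ((D + 1)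
    * x1 - x0) * n02 D a b c d 1 1 * n21 D a b c d 1 1 - 2 * ((D + 1) ^ 2) * (d - b) * eps D x0
    x1 ^ 2 * ((D + 1) * x1 - x0) * n11 D a b c d 1 1 * n12 D a b c d 1 1 + 4 * ((D + 1) * c - a)
    * eps D x0 x1 ^ 2 * (x1 - x0) * n01 D a b c d (D + 1) 1 * n22 D a b c d (D + 1) 1 + 4 * ((D
    + 1) * c - a) * eps D x0 x1 ^ 2 * (x1 - x0) * n02 D a b c d (D + 1) 1 * n21 D a b c d (D +
    1) 1 - 2 * ((D + 1) * c - a) * eps D x0 x1 ^ 2 * (x1 - x0) * n11 D a b c d (D + 1) 1 * n12 D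
    a b c d (D + 1) 1) := by
  simp only [n01, n02, n11, n12, n21, n22, eps]
  ring

set_option maxHeartbeats 1000000 in
theorem tw012 (D a b c d x0 x1 : R) :
    4 * ((D + 1) ^ 2 * D ^ 4) * ((D + 1) * x1 - x0) * (x1 - x0) * (2 * (d * x0 - b * x1) * (a *
    x1 - c * x0) * (a * d - b * c) * (D ^ 2 * (D + 1) ^ 2 * x0 ^ 2) - 3 * (d * x0 - b * x1) * (a
    * x1 - c * x0) ^ 2 * (D ^ 2 * (D + 1) ^ 2 * x0 * b) - (a * x1 - c * x0) ^ 2 * (a * d - b *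
    c) * ((D + 1) ^ 2 * (x0 - x1) ^ 2) - (a * x1 - c * x0) ^ 2 * (a * d - b * c) * (2 * D * x0 *
    ((D - 1) * x0 + (D + 1) ^ 2 * x1)) + (a * x1 - c * x0) ^ 3 * (((1 + 3 * D ^ 2) * b + (D - 1)
    * (D + 1) ^ 2 * d) * x0 + (D + 1) ^ 2 * ((D - 1) * b + d) * x1)) = (d * x0 - b * x1) * (-4 *
    (d * x0 - b * x1) * ((D + 1) ^ 2 * D ^ 4) * ((D + 1) * x1 - x0) * n02 D a b c d x0 x1 * n22
    D a b c d x0 x1 * x0 + (d * x0 - b * x1) * ((D + 1) ^ 2 * D ^ 4) * ((D + 1) * x1 - x0) * n12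
    D a b c d x0 x1 ^ 2 * x0 - 4 * (a * x1 - c * x0) * ((D + 1) ^ 2 * D ^ 4) * ((D + 1) * x1 -
    x0) * n01 D a b c d x0 x1 * n22 D a b c d x0 x1 * x0 - 4 * (a * x1 - c * x0) * ((D + 1) ^ 2
    * D ^ 4) * ((D + 1) * x1 - x0) * n02 D a b c d x0 x1 * n21 D a b c d x0 x1 * x0 + 2 * (a *
    x1 - c * x0) * ((D + 1) ^ 2 * D ^ 4) * ((D + 1) * x1 - x0) * n11 D a b c d x0 x1 * n12 D a b
    c d x0 x1 * x0 + 4 * (a * x1 - c * x0) * ((D + 1) ^ 2 * D ^ 4) * (x1 - x0) * n02 D a b c d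
    x0 x1 * n22 D a b c d x0 x1 * x1 - (a * x1 - c * x0) * ((D + 1) ^ 2 * D ^ 4) * (x1 - x0) *
    n12 D a b c d x0 x1 ^ 2 * x1 - 4 * ((D + 1) ^ 2) * (c - a) * eps D x0 x1 ^ 2 * ((D + 1) * x1
    - x0) * n01 D a b c d 1 1 * n22 D a b c d 1 1 - 4 * ((D + 1) ^ 2) * (c - a) * eps D x0 x1 ^
    2 * ((D + 1) * x1 - x0) * n02 D a b c d 1 1 * n21 D a b c d 1 1 + 2 * ((D + 1) ^ 2) * (c -
    a) * eps D x0 x1 ^ 2 * ((D + 1) * x1 - x0) * n11 D a b c d 1 1 * n12 D a b c d 1 1 + 4 * ((D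
    + 1) ^ 2) * (d - b) * eps D x0 x1 ^ 2 * ((D + 1) * x1 - x0) * n02 D a b c d 1 1 * n22 D a b
    c d 1 1 - ((D + 1) ^ 2) * (d - b) * eps D x0 x1 ^ 2 * ((D + 1) * x1 - x0) * n12 D a b c d 1
    1 ^ 2 + 4 * ((D + 1) * c - a) * eps D x0 x1 ^ 2 * (x1 - x0) * n02 D a b c d (D + 1) 1 * n22
    D a b c d (D + 1) 1 - ((D + 1) * c - a) * eps D x0 x1 ^ 2 * (x1 - x0) * n12 D a b c d (D +
    1) 1 ^ 2) := by
  simp only [n01, n02, n11, n12, n21, n22, eps]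
  ring

set_option maxHeartbeats 1000000 in
theorem tw003 (D a b c d x0 x1 : R) :
    4 * ((D + 1) ^ 2 * D ^ 4) * ((D + 1) * x1 - x0) * (x1 - x0) * ((a * x1 - c * x0) ^ 2 * (a *
    d - b * c) * (D ^ 2 * (D + 1) ^ 2 * x0 ^ 2) - (a * x1 - c * x0) ^ 3 * (D ^ 2 * (D + 1) ^ 2 *
    x0 * b)) = (d * x0 - b * x1) * (-4 * (a * x1 - c * x0) * ((D + 1) ^ 2 * D ^ 4) * ((D + 1) *
    x1 - x0) * n02 D a b c d x0 x1 * n22 D a b c d x0 x1 * x0 + (a * x1 - c * x0) * ((D + 1) ^ 2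
    * D ^ 4) * ((D + 1) * x1 - x0) * n12 D a b c d x0 x1 ^ 2 * x0 - 4 * ((D + 1) ^ 2) * (c - a)
    * eps D x0 x1 ^ 2 * ((D + 1) * x1 - x0) * n02 D a b c d 1 1 * n22 D a b c d 1 1 + ((D + 1) ^
    2) * (c - a) * eps D x0 x1 ^ 2 * ((D + 1) * x1 - x0) * n12 D a b c d 1 1 ^ 2) := by
  simp only [n02, n12, n22, eps]
  ring

set_option maxHeartbeats 1000000 in
theorem twin_asm (e0 e1 e2 L M n00 n01 n02 n10 n11 n12 n20 n21 n22 p00 p01 p02 p10 p11 p12 p20 p21 p22 q00 q01 q02 q10 q11 q12 q20 q21 q22 y0 y1 y2 y3 s0 s1 s2 r0 r1 r2 dl g h ep PD PP x0 x1 PdB PcA dB cA : R)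
    (htw300 : 4 * PD * g * h * (L ^ 3 * y3) = L * (-4 * L * PD * h * n00 * n20 * x1 + L * PD * h
    * n10 ^ 2 * x1 + 4 * PdB * ep ^ 2 * h * p00 * p20 - PdB * ep ^ 2 * h * p10 ^ 2))
    (htw210 : 4 * PD * g * h * (-3 * L ^ 2 * M * y3 + L ^ 2 * dl * r2 - L ^ 3 * y2) = L * (-4 *
    L * PD * g * n00 * n20 * x0 + L * PD * g * n10 ^ 2 * x0 - 4 * L * PD * h * n00 * n21 * x1 -
    4 * L * PD * h * n01 * n20 * x1 + 2 * L * PD * h * n10 * n11 * x1 + 4 * M * PD * h * n00 *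
    n20 * x1 - M * PD * h * n10 ^ 2 * x1 + 4 * PP * dB * ep ^ 2 * g * q00 * q20 - PP * dB * ep ^
    2 * g * q10 ^ 2 + 4 * PcA * ep ^ 2 * h * p00 * p20 - PcA * ep ^ 2 * h * p10 ^ 2 + 4 * PdB *
    ep ^ 2 * h * p00 * p21 + 4 * PdB * ep ^ 2 * h * p01 * p20 - 2 * PdB * ep ^ 2 * h * p10 *
    p11))
    (htw201 : 4 * PD * g * h * (-L ^ 2 * M * y2 - L ^ 2 * dl * s2) = L * (-4 * L * PD * h * n00
    * n22 * x1 - 4 * L * PD * h * n02 * n20 * x1 + 2 * L * PD * h * n10 * n12 * x1 - 4 * M * PD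
    * g * n00 * n20 * x0 + M * PD * g * n10 ^ 2 * x0 - 4 * PP * cA * ep ^ 2 * g * q00 * q20 + PP
    * cA * ep ^ 2 * g * q10 ^ 2 + 4 * PdB * ep ^ 2 * h * p00 * p22 + 4 * PdB * ep ^ 2 * h * p02
    * p20 - 2 * PdB * ep ^ 2 * h * p10 * p12))
    (htw120 : 4 * PD * g * h * (-2 * L * M * dl * r2 + 3 * L * M ^ 2 * y3 + 2 * L ^ 2 * M * y2 -
    L ^ 2 * dl * r1 - L ^ 3 * y1) = L * (-4 * L * PD * g * n00 * n21 * x0 - 4 * L * PD * g * n01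
    * n20 * x0 + 2 * L * PD * g * n10 * n11 * x0 - 4 * L * PD * h * n01 * n21 * x1 + L * PD * h
    * n11 ^ 2 * x1 + 4 * M * PD * h * n00 * n21 * x1 + 4 * M * PD * h * n01 * n20 * x1 - 2 * M *
    PD * h * n10 * n11 * x1 + 4 * PP * dB * ep ^ 2 * g * q00 * q21 + 4 * PP * dB * ep ^ 2 * g *
    q01 * q20 - 2 * PP * dB * ep ^ 2 * g * q10 * q11 + 4 * PcA * ep ^ 2 * h * p00 * p21 + 4 *
    PcA * ep ^ 2 * h * p01 * p20 - 2 * PcA * ep ^ 2 * h * p10 * p11 + 4 * PdB * ep ^ 2 * h * p01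
    * p21 - PdB * ep ^ 2 * h * p11 ^ 2))
    (htw111 : 4 * PD * g * h * (-L * M * dl * r1 + 2 * L * M * dl * s2 + 2 * L * M ^ 2 * y2 - 2
    * L ^ 2 * M * y1 + L ^ 2 * dl * s1) = L * (-4 * L * PD * g * n00 * n22 * x0 - 4 * L * PD * g
    * n02 * n20 * x0 + 2 * L * PD * g * n10 * n12 * x0 - 4 * L * PD * h * n01 * n22 * x1 - 4 * L
    * PD * h * n02 * n21 * x1 + 2 * L * PD * h * n11 * n12 * x1 - 4 * M * PD * g * n00 * n21 *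
    x0 - 4 * M * PD * g * n01 * n20 * x0 + 2 * M * PD * g * n10 * n11 * x0 + 4 * M * PD * h *
    n00 * n22 * x1 + 4 * M * PD * h * n02 * n20 * x1 - 2 * M * PD * h * n10 * n12 * x1 - 4 * PP
    * cA * ep ^ 2 * g * q00 * q21 - 4 * PP * cA * ep ^ 2 * g * q01 * q20 + 2 * PP * cA * ep ^ 2
    * g * q10 * q11 + 4 * PP * dB * ep ^ 2 * g * q00 * q22 + 4 * PP * dB * ep ^ 2 * g * q02 *
    q20 - 2 * PP * dB * ep ^ 2 * g * q10 * q12 + 4 * PcA * ep ^ 2 * h * p00 * p22 + 4 * PcA * ep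
    ^ 2 * h * p02 * p20 - 2 * PcA * ep ^ 2 * h * p10 * p12 + 4 * PdB * ep ^ 2 * h * p01 * p22 +
    4 * PdB * ep ^ 2 * h * p02 * p21 - 2 * PdB * ep ^ 2 * h * p11 * p12))
    (htw102 : 4 * PD * g * h * (L * M * dl * s1 - L * M ^ 2 * y1) = L * (-4 * L * PD * h * n02 *
    n22 * x1 + L * PD * h * n12 ^ 2 * x1 - 4 * M * PD * g * n00 * n22 * x0 - 4 * M * PD * g *
    n02 * n20 * x0 + 2 * M * PD * g * n10 * n12 * x0 - 4 * PP * cA * ep ^ 2 * g * q00 * q22 - 4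
    * PP * cA * ep ^ 2 * g * q02 * q20 + 2 * PP * cA * ep ^ 2 * g * q10 * q12 + 4 * PdB * ep ^ 2
    * h * p02 * p22 - PdB * ep ^ 2 * h * p12 ^ 2))
    (htw030 : 4 * PD * g * h * (L * M * dl * r1 - L * M ^ 2 * y2 + L ^ 2 * M * y1 - L ^ 2 * dl *
    r0 - L ^ 3 * y0 + M ^ 2 * dl * r2 - M ^ 3 * y3) = L * (-4 * L * PD * g * n01 * n21 * x0 + L
    * PD * g * n11 ^ 2 * x0 + 4 * M * PD * h * n01 * n21 * x1 - M * PD * h * n11 ^ 2 * x1 + 4 *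
    PP * dB * ep ^ 2 * g * q01 * q21 - PP * dB * ep ^ 2 * g * q11 ^ 2 + 4 * PcA * ep ^ 2 * h *
    p01 * p21 - PcA * ep ^ 2 * h * p11 ^ 2))
    (htw021 : 4 * PD * g * h * (-2 * L * M * dl * r0 - L * M * dl * s1 + 2 * L * M ^ 2 * y1 - 3
    * L ^ 2 * M * y0 + L ^ 2 * dl * s0 + M ^ 2 * dl * r1 - M ^ 2 * dl * s2 - M ^ 3 * y2) = L *
    (-4 * L * PD * g * n01 * n22 * x0 - 4 * L * PD * g * n02 * n21 * x0 + 2 * L * PD * g * n11 *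
    n12 * x0 - 4 * M * PD * g * n01 * n21 * x0 + M * PD * g * n11 ^ 2 * x0 + 4 * M * PD * h *
    n01 * n22 * x1 + 4 * M * PD * h * n02 * n21 * x1 - 2 * M * PD * h * n11 * n12 * x1 - 4 * PP
    * cA * ep ^ 2 * g * q01 * q21 + PP * cA * ep ^ 2 * g * q11 ^ 2 + 4 * PP * dB * ep ^ 2 * g *
    q01 * q22 + 4 * PP * dB * ep ^ 2 * g * q02 * q21 - 2 * PP * dB * ep ^ 2 * g * q11 * q12 + 4
    * PcA * ep ^ 2 * h * p01 * p22 + 4 * PcA * ep ^ 2 * h * p02 * p21 - 2 * PcA * ep ^ 2 * h *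
    p11 * p12))
    (htw012 : 4 * PD * g * h * (2 * L * M * dl * s0 - 3 * L * M ^ 2 * y0 - M ^ 2 * dl * r0 - M ^
    2 * dl * s1 + M ^ 3 * y1) = L * (-4 * L * PD * g * n02 * n22 * x0 + L * PD * g * n12 ^ 2 *
    x0 - 4 * M * PD * g * n01 * n22 * x0 - 4 * M * PD * g * n02 * n21 * x0 + 2 * M * PD * g *
    n11 * n12 * x0 + 4 * M * PD * h * n02 * n22 * x1 - M * PD * h * n12 ^ 2 * x1 - 4 * PP * cA *
    ep ^ 2 * g * q01 * q22 - 4 * PP * cA * ep ^ 2 * g * q02 * q21 + 2 * PP * cA * ep ^ 2 * g *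
    q11 * q12 + 4 * PP * dB * ep ^ 2 * g * q02 * q22 - PP * dB * ep ^ 2 * g * q12 ^ 2 + 4 * PcA
    * ep ^ 2 * h * p02 * p22 - PcA * ep ^ 2 * h * p12 ^ 2))
    (htw003 : 4 * PD * g * h * (M ^ 2 * dl * s0 - M ^ 3 * y0) = L * (-4 * M * PD * g * n02 * n22
    * x0 + M * PD * g * n12 ^ 2 * x0 - 4 * PP * cA * ep ^ 2 * g * q02 * q22 + PP * cA * ep ^ 2 *
    g * q12 ^ 2))
    :
    4 * PD * g * h * ((y3 * (L * e0 - M * e1) ^ 3 + y2 * ((L * e0 - M * e1) ^ 2 * (-(L * e1 + M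
    * e2))) - y1 * ((L * e0 - M * e1) * (-(L * e1 + M * e2)) ^ 2) + y0 * (-(L * e1 + M * e2)) ^
    3) + dl * (e1 * (r2 * (L * e0 - M * e1) ^ 2 + r1 * ((L * e0 - M * e1) * (-(L * e1 + M *
    e2))) - r0 * (-(L * e1 + M * e2)) ^ 2) - e2 * (s2 * (L * e0 - M * e1) ^ 2 + s1 * ((L * e0 -
    M * e1) * (-(L * e1 + M * e2))) - s0 * (-(L * e1 + M * e2)) ^ 2))) = L * (PD * ((n10 * e0 +
    n11 * e1 + n12 * e2) ^ 2 - 4 * (n00 * e0 + n01 * e1 + n02 * e2) * (n20 * e0 + n21 * e1 + n22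
    * e2)) * (x1 * h * (L * e0 - M * e1) - x0 * g * (-(L * e1 + M * e2))) - ep ^ 2 * (h * ((p10
    * e0 + p11 * e1 + p12 * e2) ^ 2 - 4 * (p00 * e0 + p01 * e1 + p02 * e2) * (p20 * e0 + p21 *
    e1 + p22 * e2)) * (PdB * e0 + PcA * e1) + PP * g * ((q10 * e0 + q11 * e1 + q12 * e2) ^ 2 - 4
    * (q00 * e0 + q01 * e1 + q02 * e2) * (q20 * e0 + q21 * e1 + q22 * e2)) * (dB * e1 - cA *
    e2))) := by
  linear_combination e0 ^ 3 * htw300 + e0 ^ 2 * e1 * htw210 + e0 ^ 2 * e2 * htw201 + e0 * e1 ^ 2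
  * htw120 + e0 * e1 * e2 * htw111 + e0 * e2 ^ 2 * htw102 + e1 ^ 3 * htw030 + e1 ^ 2 * e2 *
  htw021 + e1 * e2 ^ 2 * htw012 + e2 ^ 3 * htw003

/-- the identity for the twin -/
theorem twin_x (D a b c d x0 x1 e0 e1 e2 : R) :
    4 * ((D + 1) ^ 2 * D ^ 4) * ((D + 1) * x1 - x0) * (x1 - x0) * (ya D b d x0 x1
        (yy a b c d x0 x1 e0 e1)
        (zz a b c d x0 x1 e1 e2) + (a * d - b * c) *
        (e1 * sh2 D x0 x1 (yy a b c d x0 x1 e0 e1) (zz a b c d x0 x1 e1 e2) -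
          e2 * sh1 D x0 x1 (yy a b c d x0 x1 e0 e1) (zz a b c d x0 x1 e1 e2))) =
    (d * x0 - b * x1) * ((D + 1) ^ 2 * D ^ 4 * phi D a b c d x0 x1 e0 e1 e2 *
      (x1 * (x1 - x0) * yy a b c d x0 x1 e0 e1 -
        x0 * ((D + 1) * x1 - x0) * zz a b c d x0 x1 e1 e2) -
      eps D x0 x1 ^ 2 * ((x1 - x0) * phi D a b c d (D + 1) 1 e0 e1 e2 *
        (((D + 1) * d - b) * e0 + ((D + 1) * c - a) * e1) +
        (D + 1) ^ 2 * ((D + 1) * x1 - x0) * phi D a b c d 1 1 e0 e1 e2 *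
        ((d - b) * e1 - (c - a) * e2))) := by
  exact twin_asm e0 e1 e2
    (d * x0 - b * x1) (a * x1 - c * x0) (n00 D a b c d x0 x1) (n01 D a b c d x0 x1) (n02 D a b c
    d x0 x1) (n10 D a b c d x0 x1) (n11 D a b c d x0 x1) (n12 D a b c d x0 x1) (n20 D a b c d x0
    x1) (n21 D a b c d x0 x1) (n22 D a b c d x0 x1) (n00 D a b c d (D + 1) 1) (n01 D a b c d (D
    + 1) 1) (n02 D a b c d (D + 1) 1) (n10 D a b c d (D + 1) 1) (n11 D a b c d (D + 1) 1) (n12 D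
    a b c d (D + 1) 1) (n20 D a b c d (D + 1) 1) (n21 D a b c d (D + 1) 1) (n22 D a b c d (D +
    1) 1) (n00 D a b c d 1 1) (n01 D a b c d 1 1) (n02 D a b c d 1 1) (n10 D a b c d 1 1) (n11 D
    a b c d 1 1) (n12 D a b c d 1 1) (n20 D a b c d 1 1) (n21 D a b c d 1 1) (n22 D a b c d 1 1)
    (D ^ 2 * (D + 1) ^ 2 * x0 * b) (((1 + 3 * D ^ 2) * b + (D - 1) * (D + 1) ^ 2 * d) * x0 + (D
    + 1) ^ 2 * ((D - 1) * b + d) * x1) ((b + (D ^ 2 - 1) * d) * x0 + ((D ^ 2 - 1) * b + (1 + 3 *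
    D ^ 2) * d) * x1) (-(D ^ 2 * d * x1)) (D ^ 2 * (D + 1) ^ 2 * x0 ^ 2) (2 * D * x0 * ((D - 1)
    * x0 + (D + 1) ^ 2 * x1)) (-(x0 - (D + 1) * x1) ^ 2) ((D + 1) ^ 2 * (x0 - x1) ^ 2) (2 * D *
    x1 * ((D + 1) * x0 + (D - 1) * x1)) (-D ^ 2 * x1 ^ 2) (a * d - b * c) ((D + 1) * x1 - x0)
    (x1 - x0) (eps D x0 x1) ((D + 1) ^ 2 * D ^ 4) ((D + 1) ^ 2) x0 x1 ((D + 1) * d - b) ((D + 1)
    * c - a) (d - b) (c - a)
    (tw300 D a b c d x0 x1) (tw210 D a b c d x0 x1) (tw201 D a b c d x0 x1) (tw120 D a b c d x0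
    x1) (tw111 D a b c d x0 x1) (tw102 D a b c d x0 x1) (tw030 D a b c d x0 x1) (tw021 D a b c d
    x0 x1) (tw012 D a b c d x0 x1) (tw003 D a b c d x0 x1)

end Vale.Agent.P297.H424.Fam
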