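import Vale.Agent.P297.H424.Fam.Data
import Vale.Agent.P297.H424.Fam.Disc
import Vale.Agent.P297.H424.Fam.Twin

/-!
The identities `DiscId` and `TwinV` for the family.
-/

namespace Vale.Agent.P297.H424.Fam

open Vale.Agent.P297 Vale.Agent.P297.H839

set_option linter.unusedVariables false
set_option linter.unusedSimpArgs false
set_option linter.unusedSectionVars false

section

variable (D a b c d : ℂ) {R : Type*} [CommRing R] [Algebra ℂ R]

theorem ff1_eq (u ρ : R) : (dat D a b c d).ff u ρ 1 = -u *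
    fx1 (algebraMap ℂ R D) (algebraMap ℂ R a) (algebraMap ℂ R b) (algebraMap ℂ R c)
      (algebraMap ℂ R d) (algebraMap ℂ R a * u + algebraMap ℂ R b)
      (algebraMap ℂ R c * u + algebraMap ℂ R d) ρ 1 := by
  rw [Data.ff, hv_c, hv_a, bb1_eq]
  simp only [Net.ee, mat_eq, netM, Matrix.cons_val_zero,
    Matrix.cons_val_one, Matrix.cons_val, cx, sh1, sh2, n10, n12, fx1,
    fx13, fx12, fx11, fx10]
  ring

theorem ff2_eq (u ρ : R) : (dat D a b c d).ff u ρ 2 = -u *
    fx2 (algebraMap ℂ R D) (algebraMap ℂ R a) (algebraMap ℂ R b) (algebraMap ℂ R c)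
      (algebraMap ℂ R d) (algebraMap ℂ R a * u + algebraMap ℂ R b)
      (algebraMap ℂ R c * u + algebraMap ℂ R d) ρ 1 := by
  rw [Data.ff, hv_c, hv_a, bb2_eq]
  simp only [Net.ee, mat_eq, netM, Matrix.cons_val_zero,
    Matrix.cons_val_one, Matrix.cons_val, cx, sh1, sh2, n20, n22, fx2,
    fx23, fx22, fx21]
  ring

theorem discId (u ρ : R) : (dat D a b c d).DiscId R u ρ := by
  unfold Data.DiscId
  rw [ff_eq, ff1_eq, ff2_eq, pv_e, hv_b]
  linear_combination u ^ 2 * disc_x (algebraMap ℂ R D) (algebraMap ℂ R a) (algebraMap ℂ R b)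
      (algebraMap ℂ R c)
      (algebraMap ℂ R d) (algebraMap ℂ R a * u + algebraMap ℂ R b)
      (algebraMap ℂ R c * u + algebraMap ℂ R d) ρ 1

theorem map_netM {S : Type*} [CommRing S] (f : R →+* S) (D a b c d x0 x1 : R) (i j : Fin 3) :
    f (netM D a b c d x0 x1 i j) = netM (f D) (f a) (f b) (f c) (f d) (f x0) (f x1) i j := by
  fin_cases i <;> fin_cases j <;>
    simp [netM, map_n00, map_n01, map_n02, map_n10, map_n11, map_n12, map_n20, map_n21, map_n22]

theorem be_eq (x : Fin 3 → R) (i : Fin 3) : (dat D a b c d).be x i =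
    netM (algebraMap ℂ R D) (algebraMap ℂ R a) (algebraMap ℂ R b) (algebraMap ℂ R c)
      (algebraMap ℂ R d) (algebraMap ℂ R a) (algebraMap ℂ R c) i 0 * x 0 +
    netM (algebraMap ℂ R D) (algebraMap ℂ R a) (algebraMap ℂ R b) (algebraMap ℂ R c)
      (algebraMap ℂ R d) (algebraMap ℂ R a) (algebraMap ℂ R c) i 1 * x 1 +
    netM (algebraMap ℂ R D) (algebraMap ℂ R a) (algebraMap ℂ R b) (algebraMap ℂ R c)
      (algebraMap ℂ R d) (algebraMap ℂ R a) (algebraMap ℂ R c) i 2 * x 2 := by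
  simp only [Net.be, Matrix.mulVec, dotProduct, Fin.sum_univ_three, Matrix.map_apply, dat,
    map_netM]

theorem al_eq (x : Fin 3 → R) (i : Fin 3) : (dat D a b c d).al x i =
    netM (algebraMap ℂ R D) (algebraMap ℂ R a) (algebraMap ℂ R b) (algebraMap ℂ R c)
      (algebraMap ℂ R d) (algebraMap ℂ R b) (algebraMap ℂ R d) i 0 * x 0 +
    netM (algebraMap ℂ R D) (algebraMap ℂ R a) (algebraMap ℂ R b) (algebraMap ℂ R c)
      (algebraMap ℂ R d) (algebraMap ℂ R b) (algebraMap ℂ R d) i 1 * x 1 +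
    netM (algebraMap ℂ R D) (algebraMap ℂ R a) (algebraMap ℂ R b) (algebraMap ℂ R c)
      (algebraMap ℂ R d) (algebraMap ℂ R b) (algebraMap ℂ R d) i 2 * x 2 := by
  simp only [Net.al, Matrix.mulVec, dotProduct, Fin.sum_univ_three, Matrix.map_apply, dat,
    map_netM]

/-- the discriminant at a point of the pencil -/
theorem phi_eq (x : Fin 3 → R) (M N : R) :
    phi (algebraMap ℂ R D) (algebraMap ℂ R a) (algebraMap ℂ R b) (algebraMap ℂ R c)
      (algebraMap ℂ R d) (algebraMap ℂ R a * M + algebraMap ℂ R b * N)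
      (algebraMap ℂ R c * M + algebraMap ℂ R d * N) (x 0) (x 1) (x 2) =
    (dat D a b c d).a2 x * M ^ 2 + (dat D a b c d).a1 x * (M * N) +
      (dat D a b c d).a0 x * N ^ 2 := by
  simp only [Net.a2, Net.a1, Net.a0, be_eq, al_eq, netM, Matrix.cons_val_zero,
    Matrix.cons_val_one, Matrix.cons_val, phi, n00, n01, n02, n10, n11, n12, n20, n21, n22]
  ring

/-- the left side of the identity for the twin -/
theorem lhs_eq (u : R) (x : Fin 3 → R) :
    ((algebraMap ℂ R a) * (algebraMap ℂ R d) - (algebraMap ℂ R b) * (algebraMap ℂ R c)) ^ 3 *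
    (hv (d := 3) (dat D a b c d).c u (u * x 0 - x 1) (-(x 2 + u * x 1)) +
      x 1 * hv (d := 2) (dat D a b c d).a u (u * x 0 - x 1) (-(x 2 + u * x 1))) =
    ya (algebraMap ℂ R D) (algebraMap ℂ R b) (algebraMap ℂ R d)
      (algebraMap ℂ R a * u + algebraMap ℂ R b) (algebraMap ℂ R c * u + algebraMap ℂ R d)
      (yy (algebraMap ℂ R a) (algebraMap ℂ R b) (algebraMap ℂ R c)
      (algebraMap ℂ R d) (algebraMap ℂ R a * u + algebraMap ℂ R b)
      (algebraMap ℂ R c * u + algebraMap ℂ R d) (x 0) (x 1))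
      (zz (algebraMap ℂ R a) (algebraMap ℂ R b) (algebraMap ℂ R c)
      (algebraMap ℂ R d) (algebraMap ℂ R a * u + algebraMap ℂ R b)
      (algebraMap ℂ R c * u + algebraMap ℂ R d) (x 1) (x 2)) +
    ((algebraMap ℂ R a) * (algebraMap ℂ R d) - (algebraMap ℂ R b) * (algebraMap ℂ R c)) *
      (x 1 * sh2 (algebraMap ℂ R D)
      (algebraMap ℂ R a * u + algebraMap ℂ R b) (algebraMap ℂ R c * u + algebraMap ℂ R d)
      (yy (algebraMap ℂ R a) (algebraMap ℂ R b) (algebraMap ℂ R c)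
      (algebraMap ℂ R d) (algebraMap ℂ R a * u + algebraMap ℂ R b)
      (algebraMap ℂ R c * u + algebraMap ℂ R d) (x 0) (x 1))
      (zz (algebraMap ℂ R a) (algebraMap ℂ R b) (algebraMap ℂ R c)
      (algebraMap ℂ R d) (algebraMap ℂ R a * u + algebraMap ℂ R b)
      (algebraMap ℂ R c * u + algebraMap ℂ R d) (x 1) (x 2)) -
      x 2 * sh1 (algebraMap ℂ R D)
      (algebraMap ℂ R a * u + algebraMap ℂ R b) (algebraMap ℂ R c * u + algebraMap ℂ R d)
      (yy (algebraMap ℂ R a) (algebraMap ℂ R b) (algebraMap ℂ R c)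
      (algebraMap ℂ R d) (algebraMap ℂ R a * u + algebraMap ℂ R b)
      (algebraMap ℂ R c * u + algebraMap ℂ R d) (x 0) (x 1))
      (zz (algebraMap ℂ R a) (algebraMap ℂ R b) (algebraMap ℂ R c)
      (algebraMap ℂ R d) (algebraMap ℂ R a * u + algebraMap ℂ R b)
      (algebraMap ℂ R c * u + algebraMap ℂ R d) (x 1) (x 2))) := by
  have hy : yy (algebraMap ℂ R a) (algebraMap ℂ R b) (algebraMap ℂ R c)
      (algebraMap ℂ R d) (algebraMap ℂ R a * u + algebraMap ℂ R b)
      (algebraMap ℂ R c * u + algebraMap ℂ R d) (x 0) (x 1) =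
      ((algebraMap ℂ R a) * (algebraMap ℂ R d) -
      (algebraMap ℂ R b) * (algebraMap ℂ R c)) * (u * x 0 - x 1) := by
    unfold yy
    ring
  have hz : zz (algebraMap ℂ R a) (algebraMap ℂ R b) (algebraMap ℂ R c)
      (algebraMap ℂ R d) (algebraMap ℂ R a * u + algebraMap ℂ R b)
      (algebraMap ℂ R c * u + algebraMap ℂ R d) (x 1) (x 2) =
      ((algebraMap ℂ R a) * (algebraMap ℂ R d) -
      (algebraMap ℂ R b) * (algebraMap ℂ R c)) * (-(x 2 + u * x 1)) := by
    unfold zz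
    ring
  rw [hy, hz, hv_c, hv_a]
  simp only [cx, sh1, sh2, ya]
  ring

end

theorem twin_alg {N : Type*} [Field N]
    {u eps2 L g h g' h' PD PP δ kap a2 a1 a0 φP φ1 Y1 Y2 : N}
    (htw : 4 * PD * (g * u + h) * (g' * u + h') * (δ ^ 3 * L) =
      -(δ * u * (eps2 * ((g' * u + h') * φP * Y1 + PP * (g * u + h) * φ1 * Y2))))
    (h0 : a2 * u ^ 2 + a1 * u + a0 = 0)
    (hP : δ ^ 2 * φP = a2 * h ^ 2 - a1 * (g * h) + a0 * g ^ 2)
    (h1 : δ ^ 2 * φ1 = a2 * h' ^ 2 - a1 * (g' * h') + a0 * g' ^ 2)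
    (hk : kap * (4 * PD * δ ^ 4) = -1)
    (hPD : 4 * PD ≠ 0) (hδ : δ ≠ 0) (hg : g * u + h ≠ 0) (hg' : g' * u + h' ≠ 0) :
    L = u * (eps2 * (a2 * (kap * (h * Y1 + PP * h' * Y2)) -
      (a1 + u * a2) * (kap * (g * Y1 + PP * g' * Y2)))) := by
  have hK : 4 * PD * (g * u + h) * (g' * u + h') * δ ^ 3 ≠ 0 := by
    exact mul_ne_zero (mul_ne_zero (mul_ne_zero hPD hg) hg') (pow_ne_zero 3 hδ)
  apply mul_left_cancel₀ hK
  linear_combination htw -
    δ * u * eps2 * ((g' * u + h') * Y1 * φP + PP * (g * u + h) * Y2 * φ1) * hk +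
    δ * u * eps2 * (4 * PD * δ ^ 2 * kap) *
      ((g' * u + h') * Y1 * g ^ 2 + PP * (g * u + h) * Y2 * g' ^ 2) * h0 +
    δ * u * eps2 * (4 * PD * δ ^ 2 * kap) *
      ((g' * u + h') * Y1 * hP + PP * (g * u + h) * Y2 * h1)

theorem lin_ne {N : Type} [Field N] [Algebra ℂ N] {u ρ : N} (h : AlgebraicIndependent ℂ ![u, ρ])
    (g k : ℂ) (hgk : ¬(g = 0 ∧ k = 0)) : algebraMap ℂ N g * u + algebraMap ℂ N k ≠ 0 := by
  by_cases hk : k = 0
  · have hg : g ≠ 0 := fun h => hgk ⟨h, hk⟩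
    refine nz h (MvPolynomial.C g * MvPolynomial.X 0 + MvPolynomial.C k) 1 0 ?_ (gC := g) ?_ hg
    · simp
    · simp [hk]
  · refine nz h (MvPolynomial.C g * MvPolynomial.X 0 + MvPolynomial.C k) 0 0 ?_ (gC := k) ?_ hk
    · simp
    · simp

theorem twinV {D a b c d : ℂ} (hD : D ≠ 0) (hP : D + 1 ≠ 0)
    (hδ : a * d - b * c ≠ 0) {N : Type} [Field N] [Algebra ℂ N] {u ρ : N}
    (hind : AlgebraicIndependent ℂ ![u, ρ]) (x : Fin 3 → N) : (dat D a b c d).TwinV u x := by
  intro h0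
  have hinj := (algebraMap ℂ N).injective
  have hne : ∀ {z : ℂ}, z ≠ 0 → algebraMap ℂ N z ≠ 0 := fun {z} hz => by
    intro h
    exact hz (hinj (by rw [h, map_zero]))
  have hphi := phi_eq D a b c d x u 1
  rw [mul_one, mul_one, mul_one, one_pow, mul_one, h0] at hphi
  have hphiP := phi_eq D a b c d x (-(algebraMap ℂ N ((D + 1) * d - b)))
    (algebraMap ℂ N ((D + 1) * c - a))
  have hphi1 := phi_eq D a b c d x (-(algebraMap ℂ N (d - b))) (algebraMap ℂ N (c - a))
  have hL := lhs_eq D a b c d u x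
  have hT := twin_x (algebraMap ℂ N D) (algebraMap ℂ N a) (algebraMap ℂ N b) (algebraMap ℂ N c)
      (algebraMap ℂ N d) (algebraMap ℂ N a * u + algebraMap ℂ N b)
      (algebraMap ℂ N c * u + algebraMap ℂ N d) (x 0) (x 1) (x 2)
  rw [hphi] at hT
  have hA0 : lin (dat D a b c d).A0 x = algebraMap ℂ N (kap D a b c d) *
      (algebraMap ℂ N ((D + 1) * d - b) * (algebraMap ℂ N ((D + 1) * d - b) * x 0 +
        algebraMap ℂ N ((D + 1) * c - a) * x 1) + algebraMap ℂ N ((D + 1) ^ 2) *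
      algebraMap ℂ N (d - b) * (algebraMap ℂ N (d - b) * x 1 - algebraMap ℂ N (c - a) * x 2)) := by
    simp only [lin, dat, Fin.sum_univ_three, Matrix.cons_val_zero, Matrix.cons_val_one,
      Matrix.cons_val, map_add, map_sub, map_neg, map_mul, map_pow, map_one]
    ring
  have hA1 : lin (dat D a b c d).A1 x = algebraMap ℂ N (kap D a b c d) *
      (algebraMap ℂ N ((D + 1) * c - a) * (algebraMap ℂ N ((D + 1) * d - b) * x 0 +
        algebraMap ℂ N ((D + 1) * c - a) * x 1) + algebraMap ℂ N ((D + 1) ^ 2) *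
      algebraMap ℂ N (c - a) * (algebraMap ℂ N (d - b) * x 1 - algebraMap ℂ N (c - a) * x 2)) := by
    simp only [lin, dat, Fin.sum_univ_three, Matrix.cons_val_zero, Matrix.cons_val_one,
      Matrix.cons_val, map_add, map_sub, map_neg, map_mul, map_pow, map_one]
    ring
  rw [pv_e, hA0, hA1]
  refine twin_alg (PD := algebraMap ℂ N ((D + 1) ^ 2 * D ^ 4))
    (δ := algebraMap ℂ N (a * d - b * c))
    (φP := phi (algebraMap ℂ N D) (algebraMap ℂ N a) (algebraMap ℂ N b) (algebraMap ℂ N c)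
      (algebraMap ℂ N d) (algebraMap ℂ N D + 1) 1 (x 0) (x 1) (x 2))
    (φ1 := phi (algebraMap ℂ N D) (algebraMap ℂ N a) (algebraMap ℂ N b) (algebraMap ℂ N c)
      (algebraMap ℂ N d) 1 1 (x 0) (x 1) (x 2))
    ?_ h0 ?_ ?_ ?_ ?_ (hne hδ) ?_ ?_
  · simp only [map_add, map_sub, map_mul, map_pow, map_one]
    rw [hL]
    linear_combination hT
  · have h5 : phi (algebraMap ℂ N D) (algebraMap ℂ N a) (algebraMap ℂ N b) (algebraMap ℂ N c)
      (algebraMap ℂ N d) (algebraMap ℂ N a * -(algebraMap ℂ N ((D + 1) * d - b)) +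
        algebraMap ℂ N b * algebraMap ℂ N ((D + 1) * c - a))
      (algebraMap ℂ N c * -(algebraMap ℂ N ((D + 1) * d - b)) +
        algebraMap ℂ N d * algebraMap ℂ N ((D + 1) * c - a)) (x 0) (x 1) (x 2) =
      algebraMap ℂ N (a * d - b * c) ^ 2 * phi (algebraMap ℂ N D) (algebraMap ℂ N a)
      (algebraMap ℂ N b) (algebraMap ℂ N c)
      (algebraMap ℂ N d) (algebraMap ℂ N D + 1) 1 (x 0) (x 1) (x 2) := by
      simp only [phi, n00, n01, n02, n10, n11, n12, n20, n21, n22, map_add, map_sub, map_mul,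
        map_one]
      ring
    rw [← h5, hphiP]
    ring
  · have h5 : phi (algebraMap ℂ N D) (algebraMap ℂ N a) (algebraMap ℂ N b) (algebraMap ℂ N c)
      (algebraMap ℂ N d) (algebraMap ℂ N a * -(algebraMap ℂ N (d - b)) +
        algebraMap ℂ N b * algebraMap ℂ N (c - a))
      (algebraMap ℂ N c * -(algebraMap ℂ N (d - b)) +
        algebraMap ℂ N d * algebraMap ℂ N (c - a)) (x 0) (x 1) (x 2) =
      algebraMap ℂ N (a * d - b * c) ^ 2 * phi (algebraMap ℂ N D) (algebraMap ℂ N a)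
      (algebraMap ℂ N b) (algebraMap ℂ N c)
      (algebraMap ℂ N d) 1 1 (x 0) (x 1) (x 2) := by
      simp only [phi, n00, n01, n02, n10, n11, n12, n20, n21, n22, map_add, map_sub, map_mul,
        map_one]
      ring
    rw [← h5, hphi1]
    ring
  · have h5 : kap D a b c d * (4 * ((D + 1) ^ 2 * D ^ 4) * (a * d - b * c) ^ 4) = -1 := by
      unfold kap
      field_simp
    have h6 := congrArg (algebraMap ℂ N) h5
    rw [map_mul, map_mul, map_mul, map_pow, map_neg, map_one, map_ofNat] at h6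
    exact h6
  · have h5 : (4 : ℂ) * ((D + 1) ^ 2 * D ^ 4) ≠ 0 :=
      mul_ne_zero (by norm_num) (mul_ne_zero (pow_ne_zero 2 hP) (pow_ne_zero 4 hD))
    have h6 := hne h5
    rw [map_mul, map_ofNat] at h6
    exact h6
  · apply lin_ne hind
    rintro ⟨h3, h4⟩
    apply hδ
    linear_combination (-d) * h3 + c * h4
  · apply lin_ne hind
    rintro ⟨h3, h4⟩
    apply hδ
    linear_combination (-d) * h3 + c * h4

end Vale.Agent.P297.H424.Fam
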