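import Vale.Agent.P297.H424.Fam.Gen5
import Vale.Agent.P297.H424.Fam.Defs

/-!
The theorem for the family of numerical Godeaux surfaces with an involution.
-/

namespace Vale.Agent.P297.H424.Fam

open Vale.Agent.P297 Vale.Agent.P297.H839 IntermediateField

set_option linter.unusedVariables false
set_option linter.unusedSimpArgs false
set_option linter.unusedSectionVars false

section

variable {D a b c d : ℂ} {K : Type} [Field K] [Algebra ℂ K]

theorem q_eq (u r s t : K) (ht : t ≠ 0) :
    hv (d := 2) (dat D a b c d).a u r 1 + t ^ 2 * ((dat D a b c d).bb u 0 * (s / t) ^ 2 +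
      (dat D a b c d).bb u 1 * (s / t) + (dat D a b c d).bb u 2) =
    u * giS1 (algebraMap ℂ K D) (algebraMap ℂ K a * u + algebraMap ℂ K b)
      (algebraMap ℂ K c * u + algebraMap ℂ K d) r s t +
    giS2 (algebraMap ℂ K D) (algebraMap ℂ K a * u + algebraMap ℂ K b)
      (algebraMap ℂ K c * u + algebraMap ℂ K d) r s t := by
  have h : t ^ 2 * ((dat D a b c d).bb u 0 * (s / t) ^ 2 +
      (dat D a b c d).bb u 1 * (s / t) + (dat D a b c d).bb u 2) =
      (dat D a b c d).bb u 0 * s ^ 2 +
      (dat D a b c d).bb u 1 * (s * t) + (dat D a b c d).bb u 2 * t ^ 2 := by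
    field_simp
  rw [h, hv_a, bb0_eq, bb1_eq, bb2_eq]
  unfold sh1 sh2 giS1 giS2
  ring

theorem q_eq' (u r s t : K) :
    hv (d := 2) (dat D a b c d).a u r 1 + ((dat D a b c d).bb u 0 * s ^ 2 +
      (dat D a b c d).bb u 1 * (s * t) + (dat D a b c d).bb u 2 * t ^ 2) =
    u * giS1 (algebraMap ℂ K D) (algebraMap ℂ K a * u + algebraMap ℂ K b)
      (algebraMap ℂ K c * u + algebraMap ℂ K d) r s t +
    giS2 (algebraMap ℂ K D) (algebraMap ℂ K a * u + algebraMap ℂ K b)
      (algebraMap ℂ K c * u + algebraMap ℂ K d) r s t := by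
  rw [hv_a, bb0_eq, bb1_eq, bb2_eq]
  unfold sh1 sh2 giS1 giS2
  ring

theorem c_eq' (u r s t : K) :
    hv (d := 3) (dat D a b c d).c u r 1 + ((dat D a b c d).ee u r 0 * s ^ 2 +
      (dat D a b c d).ee u r 1 * (s * t) + (dat D a b c d).ee u r 2 * t ^ 2) =
    giS1 (algebraMap ℂ K D) (algebraMap ℂ K a * u + algebraMap ℂ K b)
      (algebraMap ℂ K c * u + algebraMap ℂ K d) r s t +
    giT (algebraMap ℂ K D) (algebraMap ℂ K b) (algebraMap ℂ K d)
      (algebraMap ℂ K a * u + algebraMap ℂ K b)
      (algebraMap ℂ K c * u + algebraMap ℂ K d) r s t := by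
  rw [hv_c]
  simp only [Net.ee, mat_eq, netM, Matrix.cons_val_zero, Matrix.cons_val_one, Matrix.cons_val,
    cx, giS1, giT, n00, n02, n10, n12, n20, n22]
  ring

theorem points (h : D * (D + 1) * (a * d - b * c) ≠ 0) (hex : ¬(D = -2 ∧ a = c ∧ b = -d))
    {u r s t : K}
    (hind : AlgebraicIndependent ℂ ![u, r])
    (hgen : IntermediateField.adjoin ℂ {u, r, s, t} = ⊤)
    (hQ : u * giS1 (algebraMap ℂ K D) (algebraMap ℂ K a * u + algebraMap ℂ K b)
      (algebraMap ℂ K c * u + algebraMap ℂ K d) r s t +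
    giS2 (algebraMap ℂ K D) (algebraMap ℂ K a * u + algebraMap ℂ K b)
      (algebraMap ℂ K c * u + algebraMap ℂ K d) r s t = 0)
    (hC : giS1 (algebraMap ℂ K D) (algebraMap ℂ K a * u + algebraMap ℂ K b)
      (algebraMap ℂ K c * u + algebraMap ℂ K d) r s t +
    giT (algebraMap ℂ K D) (algebraMap ℂ K b) (algebraMap ℂ K d)
      (algebraMap ℂ K a * u + algebraMap ℂ K b)
      (algebraMap ℂ K c * u + algebraMap ℂ K d) r s t = 0) : PointsEquivalent K := by
  have hδ : a * d - b * c ≠ 0 := fun h0 => h (by rw [h0, mul_zero])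
  have hP : D + 1 ≠ 0 := fun h0 => h (by rw [h0]; ring)
  have hD : D ≠ 0 := fun h0 => h (by rw [h0]; ring)
  rw [← q_eq'] at hQ
  rw [← c_eq'] at hC
  have hg := genW hD hP hex hδ
  obtain ⟨u4, ρ4, hff4⟩ := hg.hff
  have hff : (dat D a b c d).ff u r 0 ≠ 0 := nz hind
    ((dat D a b c d).ff (MvPolynomial.X 0) (MvPolynomial.X 1) 0) u4 ρ4
    (by simp only [Data.ff, map_sub, map_mul, Net.map_bb, Net.map_ee, map_hv, MvPolynomial.aeval_X,
      Matrix.cons_val_zero, Matrix.cons_val_one, map_one])
    (by simp only [Data.ff, map_sub, map_mul, Net.map_bb, Net.map_ee, map_hv, MvPolynomial.aeval_X,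
      Matrix.cons_val_zero, Matrix.cons_val_one, map_one])
    hff4
  have ht : t ≠ 0 := by
    rintro rfl
    have h3 : (dat D a b c d).ff u r 0 * s ^ 2 = 0 := by
      unfold Data.ff
      linear_combination (dat D a b c d).bb u 0 * s ^ 2 * hC - (dat D a b c d).ee u r 0 * s ^ 2 * hQ
    have h4 : s = 0 := by
      have h5 := (mul_eq_zero.1 h3).resolve_left hff
      exact pow_eq_zero_iff (two_ne_zero) |>.1 h5
    apply hff
    unfold Data.ff
    rw [h4] at hQ hC
    linear_combination (dat D a b c d).bb u 0 * hC - (dat D a b c d).ee u r 0 * hQ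
  refine mainV (dat D a b c d) u r (s / t) t hind ?_ ?_ ?_ (discId D a b c d)
    (fun u ρ hi x => twinV hD hP hδ hi x) hg
  · rw [← hgen]
    apply le_antisymm
    · rw [IntermediateField.adjoin_le_iff]
      have hu : u ∈ IntermediateField.adjoin ℂ {u, r, s, t} :=
        IntermediateField.subset_adjoin _ _ (by simp)
      have hr : r ∈ IntermediateField.adjoin ℂ {u, r, s, t} :=
        IntermediateField.subset_adjoin _ _ (by simp)
      have hs : s ∈ IntermediateField.adjoin ℂ {u, r, s, t} :=
        IntermediateField.subset_adjoin _ _ (by simp)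
      have ht' : t ∈ IntermediateField.adjoin ℂ {u, r, s, t} :=
        IntermediateField.subset_adjoin _ _ (by simp)
      rintro x (rfl | rfl | rfl | hx)
      · exact hu
      · exact hr
      · exact div_mem hs ht'
      · rw [Set.mem_singleton_iff.1 hx]; exact ht'
    · rw [IntermediateField.adjoin_le_iff]
      have hu : u ∈ IntermediateField.adjoin ℂ {u, r, s / t, t} :=
        IntermediateField.subset_adjoin _ _ (by simp)
      have hr : r ∈ IntermediateField.adjoin ℂ {u, r, s / t, t} :=
        IntermediateField.subset_adjoin _ _ (by simp)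
      have hs : s / t ∈ IntermediateField.adjoin ℂ {u, r, s / t, t} :=
        IntermediateField.subset_adjoin _ _ (by simp)
      have ht' : t ∈ IntermediateField.adjoin ℂ {u, r, s / t, t} :=
        IntermediateField.subset_adjoin _ _ (by simp)
      have hs' : s ∈ IntermediateField.adjoin ℂ {u, r, s / t, t} := by
        have h6 := mul_mem hs ht'
        rwa [div_mul_cancel₀ _ ht] at h6
      rintro x (rfl | rfl | rfl | hx)
      · exact hu
      · exact hr
      · exact hs'
      · rw [Set.mem_singleton_iff.1 hx]; exact ht'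
  · rw [← hQ]
    field_simp
    try ring
  · rw [← hC]
    field_simp
    try ring

end

end Vale.Agent.P297.H424.Fam
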